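import Vale.Agent.P283.H647.Sec

/-!
The function defining a complement: invariance and values.
-/

set_option linter.all false

namespace Vale.Agent.P283.H647

open MvPolynomial Finset

section Basic

variable {N : ℕ} {L : Type} [Field L] [Algebra ℂ L]

theorem nonMono_of_zero {w : AddValuation L (WithTop ℤ)}
    (hc : ∀ c : ℂ, c ≠ 0 → w (algebraMap ℂ L c) = 0) {x : Fin N → L} {f : MvPolynomial (Fin N) ℂ}
    (hf0 : f ≠ 0) (hf : aeval x f = 0) {b : Fin N → ℕ}
    (hb : ∀ j, w (x j) = ((b j : ℤ) : WithTop ℤ)) : NonMono f b := by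
  classical
  obtain ⟨m, hm⟩ := exists_isMin hf0 b
  obtain ⟨α, hα, hαm⟩ := hm.1
  by_contra hno
  have huniq : ∀ β ∈ f.support, β ≠ α → m + 1 ≤ wt b β := by
    intro β hβ hne
    have h1 := hm.2 β hβ
    by_contra hlt
    have h2 : wt b β = m := by omega
    exact hno ⟨m, hm, β, hβ, α, hα, hne, h2, hαm⟩
  let g := f - monomial α (f.coeff α)
  have hg : AtLeast b g (m + 1) := by
    intro β hβ
    rw [mem_support_iff] at hβ
    have h1 : g.coeff β = f.coeff β - if α = β then f.coeff α else 0 := by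
      simp only [g, coeff_sub, coeff_monomial]
    by_cases hne : α = β
    · rw [h1, if_pos hne, hne, sub_self] at hβ
      exact absurd rfl hβ
    · rw [h1, if_neg hne, sub_zero] at hβ
      exact huniq β (mem_support_iff.2 hβ) fun h => hne h.symm
  have h1 := val_lower w hc x b hb hg
  have h2 : aeval x g = - (algebraMap ℂ L (f.coeff α) * ∏ i, x i ^ α i) := by
    simp only [g]
    rw [map_sub, hf, zero_sub, aeval_monomial, Finsupp.prod_fintype _ _ (by simp)]
  rw [h2, AddValuation.map_neg, AddValuation.map_mul, hc _ (mem_support_iff.1 hα), zero_add,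
    val_mono w hc x b hb, hαm] at h1
  have h3 : ((m + 1 : ℕ) : ℤ) ≤ (m : ℤ) := by exact_mod_cast h1
  push_cast at h3
  omega

theorem inForm_zero {f : MvPolynomial (Fin N) ℂ} (hf : f ≠ 0) : inForm f (fun _ => 0) = f := by
  have hm : IsMin f (fun _ => 0) 0 := by
    obtain ⟨α, hα⟩ := support_nonempty.2 hf
    exact ⟨⟨α, hα, by simp [wt]⟩, fun β _ => Nat.zero_le _⟩
  ext α
  rw [coeff_inForm hm, if_pos (by simp [wt])]

theorem HypData.torus_zero {d : ℕ} {x : Fin (d + 1) → L} {f : MvPolynomial (Fin (d + 1)) ℂ}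
    (H : HypData x f) : ∃ ξ : Fin (d + 1) → ℂ, (∀ i, ξ i ≠ 0) ∧ eval ξ f = 0 := by
  by_contra hno
  push Not at hno
  have hrad : (∏ i, X i : MvPolynomial (Fin (d + 1)) ℂ) ∈ (Ideal.span {f}).radical := by
    rw [← MvPolynomial.vanishingIdeal_zeroLocus_eq_radical (K := ℂ)]
    rw [MvPolynomial.mem_vanishingIdeal_iff]
    intro ξ' hξ'
    rw [MvPolynomial.mem_zeroLocus_iff] at hξ'
    rw [map_prod]
    by_contra hne
    rw [← ne_eq, Finset.prod_ne_zero_iff] at hne
    apply hno ξ' (fun i => by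
      have := hne i (Finset.mem_univ i)
      simpa using this)
    have := hξ' f (Ideal.subset_span rfl)
    simpa using this
  obtain ⟨n, hn⟩ := hrad
  rw [Ideal.mem_span_singleton] at hn
  have h1 := (H.ker _).2 hn
  rw [map_pow, map_prod] at h1
  simp only [aeval_X] at h1
  exact pow_ne_zero _ (Finset.prod_ne_zero_iff.2 fun i _ => H.x0 i) h1

theorem HypData.aeval_ne {d : ℕ} {x : Fin (d + 1) → L} {f : MvPolynomial (Fin (d + 1)) ℂ}
    (H : HypData x f) {s : MvPolynomial (Fin (d + 1)) ℂ} (hs0 : s ≠ 0)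
    (hs : Transv f s (fun _ => 0)) : aeval x s ≠ 0 := by
  intro h0
  obtain ⟨g, hg⟩ := (H.ker s).1 h0
  obtain ⟨ξ, hξ, hξ0⟩ := H.torus_zero
  have h1 : eval ξ s = 0 := by rw [hg, map_mul, hξ0, zero_mul]
  obtain ⟨i, j, hij⟩ := hs ξ hξ (by rw [inForm_zero H.f0]; exact hξ0)
    (by rw [inForm_zero hs0]; exact h1)
  rw [inForm_zero H.f0, inForm_zero hs0] at hij
  have h2 : ∀ k, eval ξ (pderiv k s) = eval ξ g * eval ξ (pderiv k f) := by
    intro k
    rw [hg, Derivation.leibniz, smul_eq_mul, smul_eq_mul, map_add, map_mul, map_mul, hξ0,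
      zero_mul, zero_add]
  rw [h2, h2] at hij
  exact hij (by ring)

end Basic

section Invar

variable {d : ℕ} {L : Type} [Field L] [Algebra ℂ L] {x : Fin (d + 1) → L}
  {f : MvPolynomial (Fin (d + 1)) ℂ}

theorem coeff_lsub_diag (χ : Fin (d + 1) → ℂ) (P : MvPolynomial (Fin (d + 1)) ℂ)
    (α : Fin (d + 1) →₀ ℕ) :
    (lsub (Matrix.diagonal χ) P).coeff α = (∏ j, χ j ^ α j) * P.coeff α := by
  classical
  have h1 : ∀ j, lsub (Matrix.diagonal χ) (X j) = C (χ j) * X j := by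
    intro j
    rw [lsub_X, Finset.sum_eq_single j]
    · rw [Matrix.diagonal_apply_eq]
    · intro l _ hl
      rw [Matrix.diagonal_apply_ne _ (fun h => hl h.symm), map_zero, zero_mul]
    · intro h; exact absurd (Finset.mem_univ _) h
  have h2 : ∀ (β : Fin (d + 1) →₀ ℕ) (c : ℂ), lsub (Matrix.diagonal χ) (monomial β c) =
      monomial β ((∏ j, χ j ^ β j) * c) := by
    intro β c
    have h3 : (monomial β c : MvPolynomial (Fin (d + 1)) ℂ) = C c * ∏ j, X j ^ β j := by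
      rw [monomial_eq, Finsupp.prod_fintype _ _ (by simp)]
    have h4 : (monomial β ((∏ j, χ j ^ β j) * c) : MvPolynomial (Fin (d + 1)) ℂ) =
        C ((∏ j, χ j ^ β j) * c) * ∏ j, X j ^ β j := by
      rw [monomial_eq, Finsupp.prod_fintype _ _ (by simp)]
    rw [h3, h4, map_mul, map_prod]
    simp only [map_pow, h1, mul_pow, Finset.prod_mul_distrib, map_mul, map_prod]
    have h5 : lsub (Matrix.diagonal χ) (C c) = C c := by
      rw [← algebraMap_eq, AlgHom.commutes]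
    rw [h5]
    ring
  conv_lhs => rw [P.as_sum, map_sum, coeff_sum]
  simp only [h2, coeff_monomial, Finset.sum_ite_eq']
  split_ifs with h
  · rfl
  · rw [notMem_support_iff.1 h, mul_zero]

/-- The basic semi-invariant. -/
theorem HypData.invar_basic (H : HypData x f) {D' : Fin d → Derivation ℂ L L} {h : L}
    (R : ResForm x f D' h) (τ : L ≃ₐ[ℂ] L) (hcomm : ∀ i a, D' i (τ a) = τ (D' i a))
    (hτ : ∀ j, ∃ c : ℂ, τ (x j) = c • x j) {α : Fin (d + 1) →₀ ℕ} (hα : α ∈ f.support) :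
    τ (h * monoT x (fun j => 1 - (α j : ℤ))) = h * monoT x (fun j => 1 - (α j : ℤ)) := by
  classical
  choose χ hχ using hτ
  have hχ0 : ∀ i, χ i ≠ 0 := char_ne_zero H.x0 hχ
  have hM : (Matrix.diagonal χ).det ≠ 0 := by
    rw [Matrix.det_diagonal]; exact Finset.prod_ne_zero_iff.2 fun i _ => hχ0 i
  have hM' : ∀ j, τ (x j) = ∑ l, Matrix.diagonal χ j l • x l := by
    intro j
    rw [Finset.sum_eq_single j]
    · rw [Matrix.diagonal_apply_eq, hχ]
    · intro l _ hl
      rw [Matrix.diagonal_apply_ne _ (fun h => hl h.symm), zero_smul]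
    · intro h; exact absurd (Finset.mem_univ _) h
  obtain ⟨c, hc, hcf⟩ := H.lsub_f τ hM hM'
  have h1 := H.semi_h R τ hcomm hM hM' hc hcf
  have h2 : c = ∏ j, χ j ^ α j := by
    have h3 := congrArg (fun P => coeff α P) hcf
    simp only [coeff_lsub_diag, coeff_C_mul] at h3
    exact (mul_right_cancel₀ (mem_support_iff.1 hα) h3).symm
  rw [Matrix.det_diagonal, h2] at h1
  have h3 : algebraMap ℂ L (∏ j, χ j) ≠ 0 :=
    (map_ne_zero _).2 (Finset.prod_ne_zero_iff.2 fun i _ => hχ0 i)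
  have h4 : (∏ j, χ j ^ ((1 : ℤ) - (α j : ℤ))) = (∏ j, χ j) / ∏ j, χ j ^ α j := by
    rw [← Finset.prod_div_distrib]
    refine Finset.prod_congr rfl fun j _ => ?_
    rw [zpow_sub₀ (hχ0 j), zpow_one, zpow_natCast]
  rw [map_mul, map_monoT hχ, h4, Algebra.smul_def, map_div₀]
  have h5 : algebraMap ℂ L (∏ j, χ j ^ α j) ≠ 0 :=
    (map_ne_zero _).2 (Finset.prod_ne_zero_iff.2 fun i _ => pow_ne_zero _ (hχ0 i))
  field_simp
  linear_combination (monoT x fun j => 1 - (α j : ℤ)) * h1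

/-- Invariance of the function defining the complement. -/
theorem HypData.invar_phi (H : HypData x f) {D' : Fin d → Derivation ℂ L L} {h : L}
    (R : ResForm x f D' h) (τ : L ≃ₐ[ℂ] L) (hcomm : ∀ i a, D' i (τ a) = τ (D' i a))
    (hτ : ∀ j, ∃ c : ℂ, τ (x j) = c • x j) {α : Fin (d + 1) →₀ ℕ} (hα : α ∈ f.support)
    (n : ℕ) (s : MvPolynomial (Fin (d + 1)) ℂ)
    (hs : ∀ γ ∈ s.support, τ (monoT x (fun j => (γ j : ℤ) - n * (1 - (α j : ℤ)))) =
      monoT x (fun j => (γ j : ℤ) - n * (1 - (α j : ℤ)))) :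
    τ (h ^ n * aeval x s) = h ^ n * aeval x s := by
  have h1 := H.invar_basic R τ hcomm hτ hα
  rw [aeval_eq_sum x s, Finset.mul_sum, map_sum]
  refine Finset.sum_congr rfl fun γ hγ => ?_
  have h2 : h ^ n * (algebraMap ℂ L (s.coeff γ) * monoT x (fun j => (γ j : ℤ))) =
      algebraMap ℂ L (s.coeff γ) * ((h * monoT x (fun j => 1 - (α j : ℤ))) ^ n *
        monoT x (fun j => (γ j : ℤ) - n * (1 - (α j : ℤ)))) := by
    have h3 : monoT x (fun j => (γ j : ℤ)) = monoT x (fun j => 1 - (α j : ℤ)) ^ n *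
        monoT x (fun j => (γ j : ℤ) - n * (1 - (α j : ℤ))) := by
      have h4 := monoT_nsmul (t := x) (fun j => 1 - (α j : ℤ)) n
      rw [← h4, ← monoT_add H.x0]
      congr 1
      funext j
      simp
    rw [h3, mul_pow]; ring
  rw [h2, map_mul, AlgEquiv.commutes, map_mul, map_pow, h1, hs γ hγ]

end Invar

section Values

variable {e : ℕ} {L : Type} [Field L] [Algebra ℂ L] {x : Fin (e + 2) → L}
  {f : MvPolynomial (Fin (e + 2)) ℂ}

/-- The complement is klt. -/
theorem klt_phi (H : HypData x f) (hnd : NonDeg f) {D' : Fin (e + 1) → Derivation ℂ L L} {h : L}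
    (R : ResForm x f D' h) {n : ℕ} (hn : 2 ≤ n) {s : MvPolynomial (Fin (e + 2)) ℂ} (hs0 : s ≠ 0)
    (hs : ∀ a, Transv f s a)
    (hlt : ∀ a : Fin (e + 2) → ℕ, a ≠ 0 → NonMono f a → ∀ m, IsMin f a m → ∃ γ ∈ s.support,
      (wt a γ : ℤ) < n * (∑ j, (a j : ℤ) - m))
    {w : AddValuation L (WithTop ℤ)} (hw : Q.IsDivisorial (e + 1) w)
    (hx : ∀ j, 0 ≤ ov w (x j)) {m' : ℤ} (hm' : Q.FormOrder w D' m') :
    ov w (h ^ n * aeval x s) < n * (1 + m') := by
  haveI := H.ess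
  have hxs := H.aeval_ne hs0 (hs _)
  let a : Fin (e + 2) → ℕ := fun j => (ov w (x j)).toNat
  have ha : ∀ j, (a j : ℤ) = ov w (x j) := fun j => Int.toNat_of_nonneg (hx j)
  have hb : ∀ j, w (x j) = ((a j : ℤ) : WithTop ℤ) := by
    intro j
    rw [ha j, coe_ov w (H.x0 j)]
  obtain ⟨m, hm⟩ := exists_isMin H.f0 a
  obtain ⟨μ, hμ⟩ := exists_isMin hs0 a
  have h1 := main_bound (Nat.succ_pos e) H.trdeg R hnd hw hm' hb s hxs (hs a) hm hμ
  have h2 : (μ : ℤ) ≤ ov w (aeval x s) := by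
    have h3 := val_lower w hw.const x a hb (P := s) (m := μ) hμ.2
    rw [← coe_ov w hxs] at h3
    exact_mod_cast h3
  rw [ov_mul w (pow_ne_zero _ R.h0) hxs, ov_pow w R.h0]
  have hn1 : (2 : ℤ) ≤ n := by exact_mod_cast hn
  by_cases ha0 : a = 0
  · have h3 := torus_bound R hnd H.f0 hw hm' (fun j => by rw [hb j, ha0]; rfl)
    have hm0 : m = 0 := by
      obtain ⟨α, hα, hα'⟩ := hm.1
      rw [← hα', ha0]; simp [wt]
    have hμ0 : μ = 0 := by
      obtain ⟨α, hα, hα'⟩ := hμ.1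
      rw [← hα', ha0]; simp [wt]
    have hs0 : ∑ j, (a j : ℤ) = 0 := by rw [ha0]; simp
    rw [hm0, hμ0, hs0] at h1
    push_cast at h1
    nlinarith
  · have hnm : NonMono f a := nonMono_of_zero hw.const H.f0 H.eqn hb
    obtain ⟨γ, hγ, hγ'⟩ := hlt a ha0 hnm m hm
    have h3 : (μ : ℤ) ≤ wt a γ := by exact_mod_cast hμ.2 γ hγ
    nlinarith

/-- The complement is large. -/
theorem eff_phi (H : HypData x f) {D' : Fin (e + 1) → Derivation ℂ L L} {h : L}
    (R : ResForm x f D' h) {n : ℕ} {s : MvPolynomial (Fin (e + 2)) ℂ} (hxs : aeval x s ≠ 0)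
    (c : Fin (e + 2) → ℕ) (hs : ∀ γ ∈ s.support, ∀ j, c j ≤ γ j)
    {w : AddValuation L (WithTop ℤ)} (hc : ∀ c : ℂ, c ≠ 0 → w (algebraMap ℂ L c) = 0)
    (hx : ∀ j, 0 ≤ ov w (x j)) :
    n * ov w h + ∑ j, (c j : ℤ) * ov w (x j) ≤ ov w (h ^ n * aeval x s) := by
  let a : Fin (e + 2) → ℕ := fun j => (ov w (x j)).toNat
  have ha : ∀ j, (a j : ℤ) = ov w (x j) := fun j => Int.toNat_of_nonneg (hx j)
  have hb : ∀ j, w (x j) = ((a j : ℤ) : WithTop ℤ) := by
    intro j
    rw [ha j, coe_ov w (H.x0 j)]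
  have h3 := val_lower w hc x a hb (P := s) (m := ∑ j, c j * a j) (fun γ hγ => by
    unfold wt
    refine Finset.sum_le_sum fun j _ => ?_
    rw [mul_comm]
    exact Nat.mul_le_mul_left _ (hs γ hγ j))
  rw [← coe_ov w hxs] at h3
  have h4 : ((∑ j, c j * a j : ℕ) : ℤ) ≤ ov w (aeval x s) := by exact_mod_cast h3
  push_cast at h4
  simp only [ha] at h4
  rw [ov_mul w (pow_ne_zero _ R.h0) hxs, ov_pow w R.h0]
  omega

end Values

end Vale.Agent.P283.H647
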