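import Vale.Agent.P283.Setting

/-!
Quotients of Newton non-degenerate hypersurfaces of any dimension.
-/

namespace Vale.Agent.P283.H647

open MvPolynomial

variable {N : ℕ}

/-- The weight of an exponent. -/
def wt (b : Fin N → ℕ) (α : Fin N →₀ ℕ) : ℕ := ∑ i, b i * α i

/-- The initial form of `f` for the weight `b`: the sum of its terms of least weight. -/
noncomputable def inForm (f : MvPolynomial (Fin N) ℂ) (b : Fin N → ℕ) : MvPolynomial (Fin N) ℂ :=
  ∑ α ∈ f.support.filter (fun α => ∀ β ∈ f.support, wt b α ≤ wt b β), monomial α (f.coeff α)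

/-- Newton non-degeneracy: no initial form has a singular zero in the torus. -/
def NonDeg (f : MvPolynomial (Fin N) ℂ) : Prop :=
  ∀ (b : Fin N → ℕ) (ξ : Fin N → ℂ), (∀ i, ξ i ≠ 0) → eval ξ (inForm f b) = 0 →
    ∃ i, eval ξ (pderiv i (inForm f b)) ≠ 0

/-- `X = Y / G`, where `Y = {f = 0}` is an irreducible Newton non-degenerate hypersurface in the
affine space with the coordinates `x_0, …, x_d`, not contained in a coordinate hyperplane, and `G`
is a finite group acting on `Y` by linear substitutions, which preserves the divisor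
`B_Y = ∑ b_j div(x_j)` and which has a subgroup `G₀` of index at most `J` acting diagonally. Here
`L` is the function field of `Y`, `K = L^G` is the function field of `X`, and
`A = K ∩ ℂ[x_0, …, x_d]` is the coordinate ring of `X`. -/
structure IsNonDegQuotient (J : ℕ) {d : ℕ} {K L : Type} [Field K] [Field L] [Algebra ℂ K]
    [Algebra ℂ L] [Algebra K L] (x : Fin (d + 1) → L) (f : MvPolynomial (Fin (d + 1)) ℂ)
    (b : Fin (d + 1) → ℚ) (G G₀ : Subgroup (L ≃ₐ[ℂ] L)) (A : Subalgebra ℂ K) : Prop where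
  generate : IntermediateField.adjoin ℂ (Set.range x) = ⊤
  equation : ∀ P : MvPolynomial (Fin (d + 1)) ℂ, aeval x P = 0 ↔ f ∣ P
  nonzero : f ≠ 0
  coordinate : ∀ j, x j ≠ 0
  nondegenerate : NonDeg f
  finite : Finite G
  linear : ∀ τ ∈ G, ∃ M : Matrix (Fin (d + 1)) (Fin (d + 1)) ℂ, M.det ≠ 0 ∧
    ∀ j, τ (x j) = ∑ l, M j l • x l
  perm : ∀ τ ∈ G, ∃ π : Equiv.Perm (Fin (d + 1)), ∀ j, b (π j) = b j ∧
    (b j ≠ 0 → ∃ c : ℂ, τ (x j) = c • x (π j))
  le : G₀ ≤ G
  index : G₀.relIndex G ≤ J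
  diagonal : ∀ τ ∈ G₀, ∀ j, ∃ c : ℂ, τ (x j) = c • x j
  field : ∀ g : L, g ∈ Set.range (algebraMap K L) ↔ ∀ τ ∈ G, τ g = g
  ring : ∀ a : K, a ∈ A ↔ algebraMap K L a ∈ Algebra.adjoin ℂ (Set.range x)

/-- `π^* (K_X + B) = K_Y + B_Y` for the quotient map `π : Y → X = Y / G`, where
`B_Y = ∑ b_j div(x_j)`: here `K_X` is the divisor of the rational form `ω` given by `D`, and `K_Y`
the divisor of `π^* ω = h • Ω`, that is, the divisor of `h`, where
`Ω = (-1)^i dx_0 ∧ ⋯ (without dx_i) ⋯ ∧ dx_d / (∂f / ∂x_i)`, which does not depend on `i`,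
generates the canonical sheaf of the hypersurface `Y`; the form `π^* ω` is given by the extension
`D'` of `D` to `L`. The equality is tested along every prime divisor `w` on `Y` over a prime
divisor `u` on `X`, where `e` is the ramification index of `π` along `w`. -/
def IsCrepantH {d : ℕ} {K L : Type} [Field K] [Field L] [Algebra ℂ K] [Algebra ℂ L] [Algebra K L]
    (x : Fin (d + 1) → L) (f : MvPolynomial (Fin (d + 1)) ℂ) (b : Fin (d + 1) → ℚ)
    (A : Subalgebra ℂ K) (D : Fin d → Derivation ℂ K K) (B : Q.QDivisor A) : Prop :=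
  ∀ (D' : Fin d → Derivation ℂ L L) (h : L),
    (∀ (i : Fin d) (g : K), D' i (algebraMap K L g) = algebraMap K L (D i g)) →
    (∀ i : Fin (d + 1),
      h * Q.jac D' (x ∘ i.succAbove) = (-1) ^ (i : ℕ) * aeval x (pderiv i f)) →
    ∀ (u : AddValuation K (WithTop ℤ)) (p : Ideal A) (m : ℤ) (w : AddValuation L (WithTop ℤ))
      (e : ℕ) (a : ℤ) (a' : Fin (d + 1) → ℤ),
      Q.IsPrimeDivisorOn A d u p → Q.FormOrder u D m →
      0 < e → (∃ g, w g = 1) → (∀ g : K, w (algebraMap K L g) = e • u g) →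
      w h = (a : WithTop ℤ) → (∀ j, w (x j) = (a' j : WithTop ℤ)) →
        (e : ℚ) * (m + B.coeff p) = a + ∑ j, b j * a' j

end Vale.Agent.P283.H647
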