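import Mathlib
import Vale.Agent.P283.Bdl.B1
import Vale.Agent.P283.H647.Defs

/-!
Generic coefficients: complete intersections with a non-degenerate hypersurface.
-/

set_option linter.all false

namespace Vale.Agent.P283.H647

open scoped KaehlerDifferential
open MvPolynomial Finset

/-- Complex numbers which are independent over the field of a finite set. -/
theorem gen_coeffs (A : Finset ℂ) (E : Type) [Finite E] :
    ∃ c : E → ℂ, ∀ e₀ : E, ∃ δ : Derivation ℚ ℂ ℂ, (∀ a ∈ A, δ a = 0) ∧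
      δ (c e₀) = 1 ∧ ∀ e, e ≠ e₀ → δ (c e) = 0 := by
  classical
  obtain ⟨s, hs⟩ := exists_isTranscendenceBasis ℚ ℂ
  obtain ⟨B, hB⟩ := exists_kaehler_basis (k := ℚ) (K := ℂ) _ hs
  have hinf : Infinite s := by
    rw [← not_finite_iff_infinite]
    intro hfin
    have h1 := IsAlgClosed.cardinal_le_max_transcendence_basis' (Subtype.val : s → ℂ) hs
    have h2 : Cardinal.mk ℚ = Cardinal.aleph0 := Cardinal.mk_eq_aleph0 ℚ
    have h3 : Cardinal.mk s < Cardinal.aleph0 := Cardinal.mk_lt_aleph0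
    rw [h2, Cardinal.mk_complex] at h1
    have h4 : max (max Cardinal.aleph0 (Cardinal.mk s)) Cardinal.aleph0 = Cardinal.aleph0 := by
      rw [max_eq_left h3.le, max_self]
    rw [h4] at h1
    exact absurd Cardinal.aleph0_lt_continuum (not_lt.2 h1)
  let T : Finset s := A.biUnion fun a => (B.repr (KaehlerDifferential.D ℚ ℂ a)).support
  have hTc : Infinite {i : s // i ∉ T} := by
    have h := (Finset.finite_toSet T).infinite_compl
    exact Set.infinite_coe_iff.2 h
  haveI := Fintype.ofFinite E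
  let j : E ↪ {i : s // i ∉ T} := (Fintype.equivFin E).toEmbedding.trans
    (Fin.valEmbedding.trans (Infinite.natEmbedding {i : s // i ∉ T}))
  refine ⟨fun e => ((j e).1 : s).1, fun e₀ => ⟨(B.coord (j e₀).1).compDer
    (KaehlerDifferential.D ℚ ℂ), ?_, ?_, ?_⟩⟩
  · intro a ha
    show B.repr (KaehlerDifferential.D ℚ ℂ a) (j e₀).1 = 0
    by_contra hne
    exact (j e₀).2 (Finset.mem_biUnion.2 ⟨a, ha, Finsupp.mem_support_iff.2 hne⟩)
  · show B.repr (KaehlerDifferential.D ℚ ℂ _) (j e₀).1 = 1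
    rw [← hB, Module.Basis.repr_self, Finsupp.single_eq_same]
  · intro e he
    show B.repr (KaehlerDifferential.D ℚ ℂ _) (j e₀).1 = 0
    rw [← hB, Module.Basis.repr_self, Finsupp.single_eq_of_ne]
    intro h
    exact he (j.injective (Subtype.ext h.symm))

variable {N : ℕ}

/-- The correction of a derivation of the coefficients. -/
noncomputable def cder (δ : Derivation ℚ ℂ ℂ) (ξ : Fin N → ℂ) (P : MvPolynomial (Fin N) ℂ) : ℂ :=
  δ (eval ξ P) - ∑ i, eval ξ (pderiv i P) * δ (ξ i)

theorem cder_add (δ : Derivation ℚ ℂ ℂ) (ξ : Fin N → ℂ) (P Q : MvPolynomial (Fin N) ℂ) :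
    cder δ ξ (P + Q) = cder δ ξ P + cder δ ξ Q := by
  unfold cder
  simp only [map_add, add_mul, Finset.sum_add_distrib]
  ring

theorem cder_C (δ : Derivation ℚ ℂ ℂ) (ξ : Fin N → ℂ) (a : ℂ) : cder δ ξ (C a) = δ a := by
  unfold cder; simp

theorem cder_mul_X (δ : Derivation ℚ ℂ ℂ) (ξ : Fin N → ℂ) (P : MvPolynomial (Fin N) ℂ)
    (i : Fin N) : cder δ ξ (P * X i) = cder δ ξ P * ξ i := by
  unfold cder
  have h1 : ∀ j, eval ξ (pderiv j (P * X i)) * δ (ξ j) =
      eval ξ (pderiv j P) * δ (ξ j) * ξ i + (if j = i then eval ξ P * δ (ξ i) else 0) := by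
    intro j
    rw [Derivation.leibniz, smul_eq_mul, smul_eq_mul, map_add, map_mul, map_mul, eval_X,
      pderiv_X]
    by_cases hj : j = i
    · subst hj; simp; ring
    · rw [Pi.single_eq_of_ne (fun h => hj h.symm)]; simp [hj]; ring
  rw [Finset.sum_congr rfl fun j _ => h1 j, Finset.sum_add_distrib, Finset.sum_ite_eq']
  simp only [Finset.mem_univ, if_true]
  rw [map_mul, eval_X, Derivation.leibniz, smul_eq_mul, smul_eq_mul, sub_mul, Finset.sum_mul]
  ring

theorem cder_mul_monomial (δ : Derivation ℚ ℂ ℂ) (ξ : Fin N → ℂ) (α : Fin N →₀ ℕ) :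
    ∀ P : MvPolynomial (Fin N) ℂ, cder δ ξ (P * monomial α 1) =
      cder δ ξ P * eval ξ (monomial α 1) := by
  induction α using Finsupp.induction_linear with
  | zero =>
    intro P
    have : (monomial (0 : Fin N →₀ ℕ) (1 : ℂ)) = 1 := rfl
    rw [this]; simp
  | add α β hα hβ =>
    intro P
    have h1 : (monomial (α + β) (1 : ℂ) : MvPolynomial (Fin N) ℂ) =
        monomial α 1 * monomial β 1 := by rw [monomial_mul, one_mul]
    rw [h1, ← mul_assoc, hβ, hα, map_mul]; ring
  | single i n =>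
    induction n with
    | zero =>
      intro P
      have : (monomial (Finsupp.single i 0) (1 : ℂ) : MvPolynomial (Fin N) ℂ) = 1 := by
        rw [Finsupp.single_zero]; rfl
      rw [this]; simp
    | succ n ih =>
      intro P
      have h1 : (monomial (Finsupp.single i (n + 1)) (1 : ℂ) : MvPolynomial (Fin N) ℂ) =
          monomial (Finsupp.single i n) 1 * X i := by
        rw [← X_pow_eq_monomial, ← X_pow_eq_monomial, pow_succ]
      rw [h1, ← mul_assoc, cder_mul_X, ih, map_mul, eval_X]; ring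

theorem cder_monomial (δ : Derivation ℚ ℂ ℂ) (ξ : Fin N → ℂ) (α : Fin N →₀ ℕ) (a : ℂ) :
    cder δ ξ (monomial α a) = δ a * eval ξ (monomial α 1) := by
  have h1 : (monomial α a : MvPolynomial (Fin N) ℂ) = C a * monomial α 1 := by
    rw [C_mul_monomial, mul_one]
  rw [h1, cder_mul_monomial, cder_C]

theorem cder_sum (δ : Derivation ℚ ℂ ℂ) (ξ : Fin N → ℂ) {κ : Type} (S : Finset κ)
    (P : κ → MvPolynomial (Fin N) ℂ) :
    cder δ ξ (∑ k ∈ S, P k) = ∑ k ∈ S, cder δ ξ (P k) := by
  classical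
  induction S using Finset.induction_on with
  | empty => simp [cder]
  | insert a s ha ih => rw [Finset.sum_insert ha, Finset.sum_insert ha, cder_add, ih]

/-- The polynomial with exponents in `E` and coefficients `c`. -/
noncomputable def poly (E : Finset (Fin N →₀ ℕ)) (c : (Fin N →₀ ℕ) → ℂ) :
    MvPolynomial (Fin N) ℂ := ∑ e ∈ E, monomial e (c e)

theorem coeff_poly (E : Finset (Fin N →₀ ℕ)) (c : (Fin N →₀ ℕ) → ℂ) (e : Fin N →₀ ℕ) :
    (poly E c).coeff e = if e ∈ E then c e else 0 := by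
  classical
  unfold poly
  rw [coeff_sum]
  simp only [coeff_monomial, Finset.sum_ite_eq']

/-- The two initial forms meet transversally in the torus. -/
def Transv (f s : MvPolynomial (Fin N) ℂ) (b : Fin N → ℕ) : Prop :=
  ∀ ξ : Fin N → ℂ, (∀ i, ξ i ≠ 0) → eval ξ (inForm f b) = 0 → eval ξ (inForm s b) = 0 →
    ∃ i j, eval ξ (pderiv i (inForm f b)) * eval ξ (pderiv j (inForm s b)) -
      eval ξ (pderiv j (inForm f b)) * eval ξ (pderiv i (inForm s b)) ≠ 0

/-- Generic polynomials with given exponents are transversal to a non-degenerate one. -/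
theorem exists_generic (f : MvPolynomial (Fin N) ℂ) (hf : NonDeg f) (E : Finset (Fin N →₀ ℕ))
    (hE : E.Nonempty) : ∃ s : MvPolynomial (Fin N) ℂ, s.support = E ∧
      ∀ b : Fin N → ℕ, Transv f s b := by
  classical
  obtain ⟨c, hc⟩ := gen_coeffs (f.support.image fun α => f.coeff α) E
  let c' : (Fin N →₀ ℕ) → ℂ := fun e => if h : e ∈ E then c ⟨e, h⟩ else 0
  have hc' : ∀ e₀ ∈ E, ∃ δ : Derivation ℚ ℂ ℂ, (∀ α, δ (f.coeff α) = 0) ∧
      δ (c' e₀) = 1 ∧ ∀ e, e ≠ e₀ → δ (c' e) = 0 := by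
    intro e₀ he₀
    obtain ⟨δ, h1, h2, h3⟩ := hc ⟨e₀, he₀⟩
    refine ⟨δ, fun α => ?_, ?_, fun e he => ?_⟩
    · by_cases hα : α ∈ f.support
      · exact h1 _ (Finset.mem_image_of_mem _ hα)
      · rw [notMem_support_iff.1 hα, map_zero]
    · simp only [c', he₀, dif_pos]; exact h2
    · by_cases heE : e ∈ E
      · simp only [c', heE, dif_pos]
        exact h3 ⟨e, heE⟩ fun h => he (congrArg Subtype.val h)
      · simp only [c', heE, dif_neg, not_false_iff, map_zero]
  have hsupp : (poly E c').support = E := by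
    ext e
    rw [mem_support_iff, coeff_poly]
    by_cases he : e ∈ E
    · simp only [he, if_true, ne_eq, iff_true]
      intro h0
      obtain ⟨δ, -, h2, -⟩ := hc' e he
      rw [h0, map_zero] at h2
      exact zero_ne_one h2
    · simp [he]
  refine ⟨poly E c', hsupp, fun b ξ hξ hf0 hs0 => ?_⟩
  -- an exponent of least weight
  obtain ⟨e₀, he₀, hmin⟩ := E.exists_min_image (fun e => wt b e) hE
  obtain ⟨δ, hδ1, hδ2, hδ3⟩ := hc' e₀ he₀
  have hin0 : e₀ ∈ (poly E c').support.filter
      (fun α => ∀ β ∈ (poly E c').support, wt b α ≤ wt b β) := by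
    rw [Finset.mem_filter, hsupp]; exact ⟨he₀, hmin⟩
  have hdf : ∑ i, eval ξ (pderiv i (inForm f b)) * δ (ξ i) = 0 := by
    have h1 : cder δ ξ (inForm f b) = 0 := by
      unfold inForm
      rw [cder_sum]
      refine Finset.sum_eq_zero fun α _ => ?_
      rw [cder_monomial, hδ1, zero_mul]
    unfold cder at h1
    rw [hf0, map_zero, zero_sub, neg_eq_zero] at h1
    exact h1
  have hds : ∑ i, eval ξ (pderiv i (inForm (poly E c') b)) * δ (ξ i) =
      - eval ξ (monomial e₀ 1) := by
    have h1 : cder δ ξ (inForm (poly E c') b) = eval ξ (monomial e₀ 1) := by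
      unfold inForm
      rw [cder_sum, Finset.sum_eq_single_of_mem e₀ hin0]
      · rw [cder_monomial, coeff_poly, if_pos he₀, hδ2, one_mul]
      · intro α hα hne
        rw [cder_monomial, coeff_poly]
        by_cases hαE : α ∈ E
        · rw [if_pos hαE, hδ3 α hne, zero_mul]
        · rw [if_neg hαE, map_zero, zero_mul]
    unfold cder at h1
    rw [hs0, map_zero, zero_sub] at h1
    rw [← h1, neg_neg]
  obtain ⟨i₀, hi₀⟩ := hf b ξ hξ hf0
  by_contra hno
  push Not at hno
  have h1 : eval ξ (pderiv i₀ (inForm f b)) *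
      ∑ j, eval ξ (pderiv j (inForm (poly E c') b)) * δ (ξ j) = 0 := by
    have h2 : eval ξ (pderiv i₀ (inForm f b)) *
      ∑ j, eval ξ (pderiv j (inForm (poly E c') b)) * δ (ξ j) =
      eval ξ (pderiv i₀ (inForm (poly E c') b)) *
        ∑ j, eval ξ (pderiv j (inForm f b)) * δ (ξ j) := by
      rw [Finset.mul_sum, Finset.mul_sum]
      refine Finset.sum_congr rfl fun j _ => ?_
      linear_combination (δ (ξ j)) * hno i₀ j
    rw [h2, hdf, mul_zero]
  rw [hds] at h1
  have h3 : eval ξ (monomial e₀ (1 : ℂ)) ≠ 0 := by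
    rw [eval_monomial, one_mul, Finsupp.prod]
    exact Finset.prod_ne_zero_iff.2 fun i _ => pow_ne_zero _ (hξ i)
  exact (mul_ne_zero hi₀ (neg_ne_zero.2 h3)) h1

end Vale.Agent.P283.H647
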