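import Vale.Agent.P283.H647.Base

/-!
The divisorial valuation attached to a weight, and the order of the residue form.
-/

set_option linter.all false

namespace Vale.Agent.P283.H647

open MvPolynomial Finset
open scoped KaehlerDifferential

section Dlog

variable {L : Type} [Field L] [Algebra ℂ L]

theorem dlog_mul (D : Derivation ℂ L L) {a b : L} (ha : a ≠ 0) (hb : b ≠ 0) :
    D (a * b) / (a * b) = D a / a + D b / b := by
  rw [Derivation.leibniz, smul_eq_mul, smul_eq_mul]
  field_simp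
  ring

theorem dlog_pow (D : Derivation ℂ L L) {a : L} (ha : a ≠ 0) (n : ℕ) :
    D (a ^ n) / a ^ n = n * (D a / a) := by
  induction n with
  | zero => simp
  | succ n ih =>
    rw [pow_succ, dlog_mul D (pow_ne_zero _ ha) ha, ih]
    push_cast; ring

theorem dlog_zpow (D : Derivation ℂ L L) {a : L} (ha : a ≠ 0) (n : ℤ) :
    D (a ^ n) / a ^ n = n * (D a / a) := by
  rcases Int.eq_nat_or_neg n with ⟨k, rfl | rfl⟩
  · rw [zpow_natCast, dlog_pow D ha]; simp
  · have h1 : D (a ^ (-(k : ℤ)) * a ^ k) / (a ^ (-(k : ℤ)) * a ^ k) = 0 := by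
      have h2 : a ^ (-(k : ℤ)) * a ^ k = 1 := by
        rw [zpow_neg, zpow_natCast, inv_mul_cancel₀ (pow_ne_zero _ ha)]
      rw [h2, Derivation.map_one_eq_zero, zero_div]
    rw [dlog_mul D (zpow_ne_zero _ ha) (pow_ne_zero _ ha), dlog_pow D ha] at h1
    push_cast
    linear_combination h1

theorem dlog_monoT {N : ℕ} (D : Derivation ℂ L L) {x : Fin N → L} (hx : ∀ j, x j ≠ 0)
    (u : Fin N → ℤ) : D (monoT x u) = monoT x u * ∑ j, (u j : L) * (D (x j) / x j) := by
  classical
  have h1 : ∀ s : Finset (Fin N), D (∏ j ∈ s, x j ^ u j) / (∏ j ∈ s, x j ^ u j) =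
      ∑ j ∈ s, (u j : L) * (D (x j) / x j) := by
    intro s
    induction s using Finset.induction_on with
    | empty => simp
    | insert a s ha ih =>
      rw [Finset.prod_insert ha, Finset.sum_insert ha, dlog_mul D (zpow_ne_zero _ (hx a))
        (Finset.prod_ne_zero_iff.2 fun i _ => zpow_ne_zero _ (hx i)), ih, dlog_zpow D (hx a)]
  have h2 := h1 Finset.univ
  have h3 : monoT x u ≠ 0 := monoT_ne_zero hx u
  rw [← h2]
  unfold monoT at h3 ⊢
  field_simp

theorem ov_monoT {N : ℕ} (w : AddValuation L (WithTop ℤ)) {x : Fin N → L} (hx : ∀ j, x j ≠ 0)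
    (u : Fin N → ℤ) : ov w (monoT x u) = ∑ j, u j * ov w (x j) := by
  unfold monoT
  rw [ov_prod _ _ fun i _ => zpow_ne_zero _ (hx i)]
  exact Finset.sum_congr rfl fun j _ => ov_zpow w (hx j) _

end Dlog

variable {e : ℕ} {K L : Type} [Field K] [Field L] [Algebra ℂ K] [Algebra ℂ L] [Algebra K L]
  [IsScalarTower ℂ K L]
variable {x : Fin (e + 2) → L} {f : MvPolynomial (Fin (e + 2)) ℂ} {G : Subgroup (L ≃ₐ[ℂ] L)}

theorem DiagData.hyp {N : ℕ} {x : Fin (N + 1) → L} {f : MvPolynomial (Fin (N + 1)) ℂ}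
    (H : DiagData K x f G) : HypData x f := ⟨H.gen, H.ker, H.f0, H.x0⟩

theorem ov_algebraMap {v : AddValuation K (WithTop ℤ)} {w : AddValuation L (WithTop ℤ)} {n : ℕ}
    (hvw : ∀ g : K, w (algebraMap K L g) = n • v g) {g : K} (hg : g ≠ 0) :
    ov w (algebraMap K L g) = n * ov v g := by
  apply ov_eq_of
  rw [hvw, ← coe_ov v hg, ← WithTop.coe_nsmul, nsmul_eq_mul]

/-- The logarithmic gradient of `f` in the coordinates of the quotient. -/
theorem DiagData.theta (H : DiagData K x f G)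
    (b : Module.Basis (Fin (e + 2)) ℤ (AddSubgroup.toIntSubmodule H.lat))
    {α₀ : Fin (e + 2) →₀ ℕ} (hα₀ : α₀ ∈ f.support) (j : Fin (e + 2)) :
    x j * aeval x (pderiv j f) = monoT x (H.tauY b α₀) * ∑ k, (monoT x (vecs b k) *
      aeval (fun k => monoT x (vecs b k)) (pderiv k (H.eqY b α₀))) * (vecs b k j : L) := by
  classical
  set yL : Fin (e + 2) → L := fun k => monoT x (vecs b k) with hyL
  set nα : (Fin (e + 2) →₀ ℕ) → (Fin (e + 2) →₀ ℕ) :=
    fun α => toE (shf f H.f0 (H.nf b α₀) + H.nf b α₀ α) with hnα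
  have e1 : x j * aeval x (pderiv j f) = ∑ α ∈ f.support,
      (α j : L) * (algebraMap ℂ L (f.coeff α) * monoT x (fun j => (α j : ℤ))) := by
    have h1 : x j * aeval x (pderiv j f) = aeval x (X j * pderiv j f) := by
      rw [map_mul, aeval_X]
    have h2 : X j * pderiv j f = ∑ α ∈ f.support, (α j) • monomial α (f.coeff α) := by
      conv_lhs => rw [f.as_sum]
      rw [map_sum, Finset.mul_sum]
      exact Finset.sum_congr rfl fun α _ => X_mul_pderiv_monomial
    rw [h1, h2, map_sum]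
    refine Finset.sum_congr rfl fun α _ => ?_
    rw [map_nsmul, aeval_monomial, Finsupp.prod_fintype _ _ (by simp), nsmul_eq_mul]
    simp only [monoT, zpow_natCast]
  have e2 : ∀ k, yL k * aeval yL (pderiv k (H.eqY b α₀)) = ∑ α ∈ f.support,
      (nα α k : L) * (algebraMap ℂ L (f.coeff α) * monoT x (expo (vecs b) (nα α))) := by
    intro k
    have h1 : yL k * aeval yL (pderiv k (H.eqY b α₀)) =
        aeval yL (X k * pderiv k (H.eqY b α₀)) := by
      rw [map_mul, aeval_X]
    have h2 : X k * pderiv k (H.eqY b α₀) =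
        ∑ α ∈ f.support, (nα α k) • monomial (nα α) (f.coeff α) := by
      unfold DiagData.eqY
      rw [map_sum, Finset.mul_sum]
      exact Finset.sum_congr rfl fun α _ => X_mul_pderiv_monomial
    rw [h1, h2, map_sum]
    refine Finset.sum_congr rfl fun α _ => ?_
    rw [map_nsmul, aeval_monomial, Finsupp.prod_fintype _ _ (by simp), nsmul_eq_mul,
      monoT_expo x H.x0]
  have e3 : ∑ α ∈ f.support, algebraMap ℂ L (f.coeff α) * monoT x (expo (vecs b) (nα α)) = 0 := by
    have h1 := H.f_eq b hα₀ x H.x0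
    rw [H.eqn] at h1
    have h2 := (mul_eq_zero.1 h1.symm).resolve_left (monoT_ne_zero H.x0 _)
    rw [← h2]
    unfold DiagData.eqY
    rw [map_sum]
    refine Finset.sum_congr rfl fun α _ => ?_
    rw [aeval_monomial, Finsupp.prod_fintype _ _ (by simp), monoT_expo x H.x0]
  -- exponents
  have e4 : ∀ α ∈ f.support, ∀ j, (α j : ℤ) = H.tauY b α₀ j + expo (vecs b) (nα α) j := by
    intro α hα j
    rw [H.nf_spec b hα₀ hα j]
    simp only [DiagData.tauY, expo, hnα]
    have h1 : ∑ k, ((toE (shf f H.f0 (H.nf b α₀) + H.nf b α₀ α) k : ℕ) : ℤ) * vecs b k j =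
        ∑ k, shf f H.f0 (H.nf b α₀) k * vecs b k j + ∑ k, H.nf b α₀ α k * vecs b k j := by
      rw [← Finset.sum_add_distrib]
      refine Finset.sum_congr rfl fun k _ => ?_
      rw [toE_apply (shf_nonneg H.f0 (H.nf b α₀) α hα)]
      simp only [Pi.add_apply]; ring
    rw [h1]; ring
  have e5 : ∀ α ∈ f.support, monoT x (fun j => (α j : ℤ)) =
      monoT x (H.tauY b α₀) * monoT x (expo (vecs b) (nα α)) := by
    intro α hα
    rw [← monoT_add H.x0]
    congr 1
    funext j
    exact e4 α hα j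
  rw [e1]
  have e2' : ∀ k, monoT x (vecs b k) * aeval yL (pderiv k (H.eqY b α₀)) = ∑ α ∈ f.support,
      (nα α k : L) * (algebraMap ℂ L (f.coeff α) * monoT x (expo (vecs b) (nα α))) := e2
  have e2'' : ∑ k, (monoT x (vecs b k) * aeval yL (pderiv k (H.eqY b α₀))) * (vecs b k j : L) =
      ∑ k, (∑ α ∈ f.support, (nα α k : L) * (algebraMap ℂ L (f.coeff α) *
      monoT x (expo (vecs b) (nα α)))) * (vecs b k j : L) :=
    Finset.sum_congr rfl fun k _ => by rw [e2']
  rw [e2'']
  have e6 : ∑ k, (∑ α ∈ f.support, (nα α k : L) * (algebraMap ℂ L (f.coeff α) *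
      monoT x (expo (vecs b) (nα α)))) * (vecs b k j : L) =
      ∑ α ∈ f.support, ((expo (vecs b) (nα α) j : ℤ) : L) * (algebraMap ℂ L (f.coeff α) *
      monoT x (expo (vecs b) (nα α))) := by
    simp only [Finset.sum_mul]
    rw [Finset.sum_comm]
    refine Finset.sum_congr rfl fun α _ => ?_
    simp only [expo]
    push_cast
    rw [Finset.sum_mul]
    exact Finset.sum_congr rfl fun k _ => by ring
  rw [e6]
  have e7 : ∑ α ∈ f.support, (α j : L) * (algebraMap ℂ L (f.coeff α) *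
      monoT x (fun j => (α j : ℤ))) = monoT x (H.tauY b α₀) * (((H.tauY b α₀ j : ℤ) : L) *
      ∑ α ∈ f.support, algebraMap ℂ L (f.coeff α) * monoT x (expo (vecs b) (nα α)) +
      ∑ α ∈ f.support, ((expo (vecs b) (nα α) j : ℤ) : L) * (algebraMap ℂ L (f.coeff α) *
      monoT x (expo (vecs b) (nα α)))) := by
    rw [Finset.mul_sum, ← Finset.sum_add_distrib, Finset.mul_sum]
    refine Finset.sum_congr rfl fun α hα => ?_
    rw [e5 α hα]
    have h1 : (α j : L) = ((H.tauY b α₀ j : ℤ) : L) + ((expo (vecs b) (nα α) j : ℤ) : L) := by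
      rw [← Int.cast_add, ← e4 α hα j]; simp
    rw [h1]; ring
  rw [e7, e3]
  ring

/-- The divisorial valuation attached to a weight with non-monomial initial form. -/
theorem DiagData.psi_val (H : DiagData K x f G) (hnd : NonDeg f) (A : Fin (e + 2) → ℕ) (hA0 : A ≠ 0) (r : ℕ)
    (hr : 0 < r) (hdvd : ∀ m ∈ H.lat, (r : ℤ) ∣ ∑ j, (A j : ℤ) * m j) {m : ℕ}
    (hm : IsMin f A m) {α β : Fin (e + 2) →₀ ℕ} (hα : α ∈ f.support) (hβ : β ∈ f.support)
    (hαm : wt A α = m) (hβm : wt A β = m) (hαβ : α ≠ β) :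
    ∃ (c e₀ : ℕ) (v : AddValuation K (WithTop ℤ)) (w : AddValuation L (WithTop ℤ)), 0 < c ∧
      0 < e₀ ∧ Q.IsDivisorial (e + 1) v ∧ Q.IsDivisorial (e + 1) w ∧
      (∀ g : K, w (algebraMap K L g) = e₀ • v g) ∧
      (∀ j, (r * c : ℤ) * ov w (x j) = e₀ * A j) ∧
      ∀ (D' : Fin (e + 1) → Derivation ℂ L L) (h : L), ResForm x f D' h →
        ∀ m', Q.FormOrder w D' m' → (r * c : ℤ) * (1 + m' - ov w h) = e₀ * (∑ j, (A j : ℤ) - m) := by
  classical
  obtain ⟨c, b, hb⟩ := exists_adapted H A hA0 r hr hdvd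
  have hyex : ∀ k, ∃ y : K, algebraMap K L y = monoT x (vecs b k) := by
    intro k
    have h1 : monoT x (vecs b k) ∈ Set.range (algebraMap K L) :=
      (H.fix _).2 fun τ hτ => vecs_mem b k τ hτ
    exact h1
  choose y hy using hyex
  obtain ⟨h, g₀, TH⟩ := hb.torusHyp hnd hα hm hα hβ hαm hβm hαβ hy
  obtain ⟨v, i, hi, hv, hv0, hvk, hvF, hres⟩ := TH.main
  have HY : HypData x f := H.hyp
  have halg : Algebra.IsAlgebraic K L := isAlgebraic_of_fix H.fin H.fix
  haveI := halg
  haveI : CharZero K := charZero_of_injective_algebraMap (algebraMap ℂ K).injective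
  haveI : FiniteDimensional K L := HY.finDim halg
  haveI hessL := HY.ess
  haveI hessK := HY.essK halg
  obtain ⟨w, e₀, he₀, hw1, hvw⟩ := exists_extension (L := L) v hv.normalized
  have hw : Q.IsDivisorial (e + 1) w :=
    divisorial_iff.2 (isDivisorial_of_ext (divisorial_iff.1 hv) hw1 hvw)
  have he₀' : (e₀ : ℤ) ≠ 0 := by exact_mod_cast he₀.ne'
  set yL : Fin (e + 2) → L := fun k => monoT x (vecs b k) with hyL
  have hyL0 : ∀ k, yL k ≠ 0 := fun k => monoT_ne_zero H.x0 _
  have hy0 : ∀ k, y k ≠ 0 := TH.y0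
  have hoy0 : ov w (yL 0) = e₀ := by
    simp only [hyL]
    rw [← hy 0, ov_algebraMap hvw (hy0 0), ov_eq_of v (n := 1) (by simpa using hv0), mul_one]
  have hoyk : ∀ k, k ≠ 0 → ov w (yL k) = 0 := by
    intro k hk
    simp only [hyL]
    rw [← hy k, ov_algebraMap hvw (hy0 k), ov_eq_of v (n := 0) (by simpa using hvk k hk), mul_zero]
  have hX : ∀ k, ∑ j, vecs b k j * ov w (x j) = ov w (yL k) := fun k => (ov_monoT w H.x0 _).symm
  have hlin : ∀ n : Fin (e + 2) → ℤ, ∑ j, (∑ k, n k * vecs b k j) * ov w (x j) = n 0 * e₀ := by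
    intro n
    have h1 : ∑ j, (∑ k, n k * vecs b k j) * ov w (x j) =
        ∑ k, n k * ∑ j, vecs b k j * ov w (x j) := by
      simp only [Finset.mul_sum, Finset.sum_mul]
      rw [Finset.sum_comm]
      exact Finset.sum_congr rfl fun k _ => Finset.sum_congr rfl fun j _ => by ring
    rw [h1, Fin.sum_univ_succ, hX, hoy0, Finset.sum_eq_zero, add_zero]
    intro k _
    rw [hX, hoyk _ (Fin.succ_ne_zero k), mul_zero]
  haveI := H.fin
  have hxj : ∀ j, (r * c : ℤ) * ov w (x j) = e₀ * A j := by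
    intro j
    have hmem := H.card_mem (Pi.single j 1)
    have h1 : ∀ j', ((Nat.card G : ℤ) • (Pi.single j 1 : Fin (e + 2) → ℤ)) j' =
        ∑ k, rep b ((Nat.card G : ℤ) • Pi.single j 1) k * vecs b k j' := rep_spec b hmem
    have h2 := hlin (rep b ((Nat.card G : ℤ) • Pi.single j 1))
    have h3 := hb.weight (rep b ((Nat.card G : ℤ) • Pi.single j 1))
    simp only [← h1] at h2 h3
    simp only [Pi.smul_apply, smul_eq_mul, Pi.single_apply, mul_ite, mul_one, mul_zero, ite_mul,
      zero_mul, Finset.sum_ite_eq', Finset.mem_univ, if_true] at h2 h3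
    have h4 : (Nat.card G : ℤ) ≠ 0 := by exact_mod_cast Nat.card_pos.ne'
    apply mul_left_cancel₀ h4
    have h5 : (Nat.card G : ℤ) * (r * c * ov w (x j)) = r * c * (Nat.card G * ov w (x j)) := by ring
    rw [h5, h2]
    linear_combination (-(e₀ : ℤ)) * h3
  -- the order of the residue form
  obtain ⟨β', hβ'⟩ := gen_trbasis (HY.trdegK halg)
  obtain ⟨BK, hBK⟩ := exists_kaehler_basis _ hβ'
  let D₀ : Fin (e + 1) → Derivation ℂ K K := fun i => pd BK i
  have hD₀ : Q.jac D₀ β' ≠ 0 := by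
    have h1 : (Matrix.of fun i j => D₀ j (β' i)) = (1 : Matrix (Fin (e + 1)) (Fin (e + 1)) K) := by
      ext i j
      rw [Matrix.of_apply, Matrix.one_apply]
      exact pd_self BK hBK i j
    unfold Q.jac
    rw [h1, Matrix.det_one]
    exact one_ne_zero
  obtain ⟨D₁, hD₁⟩ := exists_ext (L := L) HY.trdeg D₀
  have hD₁' : ∃ g, Q.jac D₁ g ≠ 0 := ⟨_, by rw [jac_map hD₁]; exact (map_ne_zero _).2 hD₀⟩
  obtain ⟨h₀, R₀⟩ := HY.exists_resForm hD₁'
  obtain ⟨mv, hmv⟩ := order_exists (Nat.succ_pos e) (HY.trdegK halg) D₀ ⟨_, hD₀⟩ hv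
  obtain ⟨mw, hmw⟩ := order_exists (Nat.succ_pos e) HY.trdeg D₁ hD₁' hw
  have htrans := order_transfer (Nat.succ_pos e) (HY.trdegK halg) HY.trdeg ⟨_, hD₀⟩ hD₁ hv hw1 he₀
    hvw hmv hmw
  obtain ⟨hj0, hmv'⟩ := order_params (HY.trdegK halg) ⟨_, hD₀⟩ hmv (y 0)
    (fun k => y (i.succAbove k.succ)) hv0 hres
  have hcons : (Fin.cons (y 0) (fun k => y (i.succAbove k.succ)) : Fin (e + 1) → K) =
      fun l => y (i.succAbove l) := by
    funext l
    refine Fin.cases ?_ (fun k => ?_) l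
    · rw [Fin.cons_zero, Fin.succAbove_ne_zero_zero hi]
    · rw [Fin.cons_succ]
  rw [hcons] at hj0 hmv'
  let U : Fin (e + 1) → Fin (e + 2) → L := fun l j => (vecs b (i.succAbove l) j : L)
  have hform := R₀.formula (fun l => yL (i.succAbove l)) U (fun l k => by
    simp only [hyL, U]
    exact dlog_monoT (D₁ k) H.x0 _)
  have hjacL : Q.jac D₁ (fun l => yL (i.succAbove l)) =
      algebraMap K L (Q.jac D₀ (fun l => y (i.succAbove l))) := by
    rw [← jac_map hD₁]
    congr 1
    funext l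
    exact (hy _).symm
  -- the determinant
  let τ := H.tauY b α
  let η : Fin (e + 2) → L := fun k => yL k * aeval yL (pderiv k (H.eqY b α))
  let A₁ : Matrix (Fin (e + 2)) (Fin (e + 2)) L :=
    Matrix.of (Fin.cons (fun j => (vecs b i j : L)) U : Fin (e + 2) → Fin (e + 2) → L)
  let cc : Fin (e + 2) → L := Fin.cons (monoT x τ * η i) (fun l => monoT x τ * η (i.succAbove l))
  have hdet : (Matrix.of (Fin.cons (fun j => x j * aeval x (pderiv j f)) U :
      Fin (e + 2) → Fin (e + 2) → L)).det = (monoT x τ * η i) * A₁.det := by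
    have h1 : (Matrix.of (Fin.cons (fun j => x j * aeval x (pderiv j f)) U :
        Fin (e + 2) → Fin (e + 2) → L)) = A₁.updateRow 0 (∑ k, cc k • A₁ k) := by
      ext l j
      rw [Matrix.updateRow_apply]
      refine Fin.cases ?_ (fun l => ?_) l
      · have hR : (∑ k, cc k • A₁ k) j = monoT x τ * η i * (vecs b i j : L) +
            ∑ l, monoT x τ * η (i.succAbove l) * (vecs b (i.succAbove l) j : L) := by
          rw [Finset.sum_apply, Fin.sum_univ_succ]
          simp only [cc, A₁, U, Pi.smul_apply, Matrix.of_apply, smul_eq_mul, Fin.cons_zero,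
            Fin.cons_succ]
        rw [if_pos rfl, Matrix.of_apply, Fin.cons_zero, H.theta b hα j, hR,
          Fin.sum_univ_succAbove _ i]
        rw [mul_add, Finset.mul_sum]
        congr 1
        · simp only [η, hyL, τ]; ring
        · refine Finset.sum_congr rfl fun l _ => ?_
          simp only [η, hyL, τ]; ring
      · rw [if_neg (Fin.succ_ne_zero l), Matrix.of_apply, Fin.cons_succ]
        simp only [A₁, Matrix.of_apply, Fin.cons_succ]
    rw [h1, Matrix.det_updateRow_sum, smul_eq_mul]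
    simp only [cc, Fin.cons_zero]
  rw [hdet, hjacL] at hform
  have hxprod : (∏ j, x j) ≠ 0 := Finset.prod_ne_zero_iff.2 fun j _ => H.x0 j
  have hyprod : (∏ l, yL (i.succAbove l)) ≠ 0 := Finset.prod_ne_zero_iff.2 fun j _ => hyL0 _
  have hjL0 : algebraMap K L (Q.jac D₀ (fun l => y (i.succAbove l))) ≠ 0 :=
    (map_ne_zero _).2 hj0
  have hlhs : h₀ * (∏ j, x j) * algebraMap K L (Q.jac D₀ (fun l => y (i.succAbove l))) ≠ 0 :=
    mul_ne_zero (mul_ne_zero R₀.h0 hxprod) hjL0
  have hrhs : (monoT x τ * η i) * A₁.det ≠ 0 := by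
    intro h0
    rw [h0, mul_zero] at hform
    exact hlhs hform
  have hη : η i ≠ 0 := right_ne_zero_of_mul (left_ne_zero_of_mul hrhs)
  have hA₁ : A₁.det ≠ 0 := right_ne_zero_of_mul hrhs
  have hmτ : monoT x τ ≠ 0 := monoT_ne_zero H.x0 _
  have hA₁v : ov w A₁.det = 0 := by
    let Z : Matrix (Fin (e + 2)) (Fin (e + 2)) ℤ :=
      Matrix.of (Fin.cons (vecs b i) (fun l => vecs b (i.succAbove l)))
    have h1 : A₁ = Z.map (Int.cast : ℤ → L) := by
      ext l j
      rw [Matrix.map_apply]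
      refine Fin.cases ?_ (fun l => ?_) l
      · simp only [A₁, Z, Matrix.of_apply, Fin.cons_zero]
      · simp only [A₁, Z, U, Matrix.of_apply, Fin.cons_succ]
    have h2 : A₁.det = algebraMap ℂ L (Z.det : ℂ) := by
      rw [h1]
      have h3 := (Int.castRingHom L).map_det Z
      have h4 : (Int.castRingHom L).mapMatrix Z = Z.map (Int.cast : ℤ → L) := rfl
      rw [h4] at h3
      rw [← h3]; simp
    have h3 : (Z.det : ℂ) ≠ 0 := by
      intro h0
      rw [h0, map_zero] at h2
      exact hA₁ h2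
    apply ov_eq_of
    rw [h2, hw.const _ h3]; rfl
  have hηv : ov w (η i) = 0 := by
    have h1 : aeval yL (pderiv i (H.eqY b α)) = algebraMap K L (aeval y (pderiv i (H.eqY b α))) :=
      (aeval_map_y hy _).symm
    have h2 : aeval y (pderiv i (H.eqY b α)) ≠ 0 := ne_zero_of_val_zero v hvF
    have h3 : ov v (aeval y (pderiv i (H.eqY b α))) = 0 := ov_eq_of v (by simpa using hvF)
    have h4 : aeval yL (pderiv i (H.eqY b α)) ≠ 0 := by rw [h1]; exact (map_ne_zero _).2 h2
    simp only [η]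
    rw [ov_mul w (hyL0 i) h4, hoyk i hi, h1, ov_algebraMap hvw h2, h3, mul_zero, add_zero]
  have hval := congrArg (ov w) hform
  rw [ov_mul w (mul_ne_zero R₀.h0 hxprod) hjL0, ov_mul w R₀.h0 hxprod,
    ov_prod _ _ fun j _ => H.x0 j, ov_algebraMap hvw hj0, ov_mul w hyprod hrhs,
    ov_prod _ _ fun l _ => hyL0 _, ov_mul w (mul_ne_zero hmτ hη) hA₁, ov_mul w hmτ hη, hηv,
    hA₁v, ov_monoT w H.x0] at hval
  have hsumy : ∑ l, ov w (yL (i.succAbove l)) = e₀ := by
    have h1 := Fin.sum_univ_succAbove (fun k => ov w (yL k)) i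
    rw [hoyk i hi, zero_add, Fin.sum_univ_succ, hoy0, Finset.sum_eq_zero, add_zero] at h1
    · exact h1.symm
    · intro k _; exact hoyk _ (Fin.succ_ne_zero k)
  rw [hsumy] at hval
  have hjv : ov v (Q.jac D₀ (fun l => y (i.succAbove l))) = - mv := by rw [hmv']; ring
  rw [hjv] at hval
  -- the weight of the monomial factor
  have hAτ : ∑ j, (A j : ℤ) * τ j = m := by
    have h1 := hb.weight (shf f H.f0 (H.nf b α))
    have h2 := (hb.min_iff hα hm hα).1 hαm
    have h3 := toE_apply (shf_nonneg H.f0 (H.nf b α) α hα) 0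
    rw [h2] at h3
    have h4 : H.nf b α α = 0 := by
      have h5 : (fun j => ((α j : ℤ)) - α j) = (0 : Fin (e + 2) → ℤ) := by funext j; simp
      simp only [DiagData.nf, h5, rep]
      rw [dif_pos H.lat.zero_mem]
      funext k
      have h6 : (⟨0, H.lat.zero_mem⟩ : AddSubgroup.toIntSubmodule H.lat) = 0 := rfl
      rw [h6, map_zero]; rfl
    rw [h4, add_zero] at h3
    rw [← h3] at h1
    push_cast at h1
    rw [mul_zero] at h1
    have h5 : ∑ j, (A j : ℤ) * τ j = wt A α -
        ∑ j, (A j : ℤ) * ∑ k, shf f H.f0 (H.nf b α) k * vecs b k j := by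
      simp only [τ, DiagData.tauY, mul_sub, Finset.sum_sub_distrib, wt]
      push_cast
      rfl
    rw [h5, h1, hαm]; ring
  refine ⟨c, e₀, v, w, hb.c0, he₀, hv, hw, hvw, hxj, fun D' h R m' hm' => ?_⟩
  have hrho := HY.rho_indep (Nat.succ_pos e) R R₀ hw hm' hmw
  have k1 : 1 + m' - ov w h = ∑ j, ov w (x j) - ∑ j, τ j * ov w (x j) := by
    have : (e₀ : ℤ) * -mv = - (e₀ * mv) := by ring
    have h2 : (e₀ : ℤ) * (1 + mv) = e₀ + e₀ * mv := by ring
    rw [h2] at htrans
    rw [this] at hval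
    omega
  rw [k1, mul_sub, Finset.mul_sum, Finset.mul_sum]
  have k2 : ∑ j, (r * c : ℤ) * ov w (x j) = e₀ * ∑ j, (A j : ℤ) := by
    rw [Finset.mul_sum]; exact Finset.sum_congr rfl fun j _ => hxj j
  have k3 : ∑ j, (r * c : ℤ) * (τ j * ov w (x j)) = e₀ * m := by
    rw [← hAτ, Finset.mul_sum]
    refine Finset.sum_congr rfl fun j _ => ?_
    linear_combination (τ j) * hxj j
  rw [k2, k3]; ring

end Vale.Agent.P283.H647
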