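import Mathlib
import Vale.Agent.P283.Bdl.B1

/-!
Orders of forms given by derivations, and the residue form of a hypersurface.
-/

set_option linter.all false

namespace Vale.Agent.P283.H647

open scoped KaehlerDifferential
open MvPolynomial Finset

section Order

variable {K : Type} [Field K] [Algebra ℂ K] {d : ℕ}

/-- The form dual to a family of derivations. -/
theorem exists_form (htr : Algebra.trdeg ℂ K = (d : ℕ)) (D : Fin d → Derivation ℂ K K)
    (hD : ∃ f, Q.jac D f ≠ 0) : ∃ ω : ⋀[K]^d (Ω[K⁄ℂ]), ω ≠ 0 ∧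
      ∀ f : Fin d → K, wedgeD d f = Q.jac D f • ω := by
  obtain ⟨s, hs⟩ := exists_isTranscendenceBasis ℂ K
  have h2 := hs.cardinalMk_eq_trdeg
  rw [htr] at h2
  obtain ⟨e⟩ := Cardinal.eq.1 (h2.trans (by simp only [Cardinal.mk_fintype, Fintype.card_fin] :
    ((d : ℕ) : Cardinal) = Cardinal.mk (Fin d)))
  have h3 : IsTranscendenceBasis ℂ ((Subtype.val : s → K) ∘ e.symm) :=
    (isTranscendenceBasis_equiv e.symm).2 hs
  obtain ⟨BK, hBK⟩ := exists_kaehler_basis _ h3
  obtain ⟨-, h4, h5⟩ := wedgeD_eq_jac BK hBK D hD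
  exact ⟨_, h4, h5⟩

theorem order_exists [Algebra.EssFiniteType ℂ K] (hd : 0 < d)
    (htr : Algebra.trdeg ℂ K = (d : ℕ)) (D : Fin d → Derivation ℂ K K)
    (hD : ∃ f, Q.jac D f ≠ 0) {v : AddValuation K (WithTop ℤ)} (hv : Q.IsDivisorial d v) :
    ∃ m, Q.FormOrder v D m := by
  obtain ⟨ω, hω, hω'⟩ := exists_form htr D hD
  obtain ⟨m, hm⟩ := formOrder_exists hd htr.le (divisorial_iff.1 hv) hω
  exact ⟨m, (formOrder_iff_jac hω hω').2 hm⟩

theorem order_unique {D : Fin d → Derivation ℂ K K} {v : AddValuation K (WithTop ℤ)} {m m' : ℤ}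
    (h : Q.FormOrder v D m) (h' : Q.FormOrder v D m') : m = m' := IsGreatest.unique h h'

/-- Regular functions bound the order. -/
theorem order_regular {D : Fin d → Derivation ℂ K K} {v : AddValuation K (WithTop ℤ)} {m : ℤ}
    (hm : Q.FormOrder v D m) (g : Fin d → K) (hg : ∀ i, 0 ≤ v (g i)) (hj : Q.jac D g ≠ 0) :
    0 ≤ m + ov v (Q.jac D g) := by
  have h1 : ov v (Q.jac D g)⁻¹ ≤ m := hm.2
    ⟨(Q.jac D g)⁻¹, g, (coe_ov v (inv_ne_zero hj)).symm, hg, inv_mul_cancel₀ hj⟩
  rw [ov_inv] at h1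
  omega

/-- Logarithmic forms bound the order. -/
theorem order_log [Algebra.EssFiniteType ℂ K] (hd : 0 < d)
    (htr : Algebra.trdeg ℂ K = (d : ℕ)) {D : Fin d → Derivation ℂ K K}
    {v : AddValuation K (WithTop ℤ)} (hv : Q.IsDivisorial d v) {m : ℤ}
    (hm : Q.FormOrder v D m) (g : Fin d → K) (hg : ∀ i, g i ≠ 0) (hj : Q.jac D g ≠ 0) :
    ∑ i, ov v (g i) ≤ 1 + m + ov v (Q.jac D g) := by
  obtain ⟨ω, hω, hω'⟩ := exists_form htr D ⟨g, hj⟩
  have h1 : dlogForm g = ((∏ i, g i)⁻¹ * Q.jac D g) • ω := by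
    unfold dlogForm
    rw [hω', smul_smul]
  have hp : (∏ i, g i) ≠ 0 := Finset.prod_ne_zero_iff.2 fun i _ => hg i
  have h2 := formOrder_smul' hd htr.le (divisorial_iff.1 hv) ((formOrder_iff_jac hω hω').1 hm)
    (mul_ne_zero (inv_ne_zero hp) hj)
  rw [← h1] at h2
  have h3 := dlog_order hd htr.le (divisorial_iff.1 hv) g hg h2
  rw [ov_mul v (inv_ne_zero hp) hj, ov_inv, ov_prod _ _ fun i _ => hg i] at h3
  omega

/-- The order in terms of parameters of the valuation ring. -/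
theorem order_params [Algebra.EssFiniteType ℂ K] {e : ℕ}
    (htr : Algebra.trdeg ℂ K = ((e + 1 : ℕ) : Cardinal)) {D : Fin (e + 1) → Derivation ℂ K K}
    (hD : ∃ f, Q.jac D f ≠ 0) {v : AddValuation K (WithTop ℤ)} {m : ℤ}
    (hm : Q.FormOrder v D m) (π : K) (u : Fin e → K) (hπ : v π = 1)
    (hu : ∀ P : MvPolynomial (Fin e) ℂ, P ≠ 0 → v (aeval u P) = 0) :
    Q.jac D (Fin.cons π u : Fin (e + 1) → K) ≠ 0 ∧
      m = - ov v (Q.jac D (Fin.cons π u : Fin (e + 1) → K)) := by
  obtain ⟨ω, hω, hω'⟩ := exists_form htr D hD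
  obtain ⟨B, hB⟩ := exists_kaehler_basis _ (isTranscendenceBasis_cons hπ hu htr.le)
  have h1 : wedgeD (e + 1) (Fin.cons π u : Fin (e + 1) → K) ≠ 0 := wedgeD_basis_ne_zero B hB
  have hj : Q.jac D (Fin.cons π u : Fin (e + 1) → K) ≠ 0 := by
    intro h0
    rw [hω', h0, zero_smul] at h1
    exact h1 rfl
  refine ⟨hj, ?_⟩
  have h2 : ω = (Q.jac D (Fin.cons π u : Fin (e + 1) → K))⁻¹ •
      wedgeD (e + 1) (Fin.cons π u : Fin (e + 1) → K) := by
    rw [hω', smul_smul, inv_mul_cancel₀ hj, one_smul]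
  have h3 := (formOrder_iff_jac hω hω').1 hm
  rw [h2, formOrder_iff hπ hu htr.le] at h3
  rw [← ov_inv]
  exact (ov_eq_of v h3).symm

end Order

section Transfer

variable {K L : Type} [Field K] [Field L] [Algebra ℂ K] [Algebra ℂ L] [Algebra K L]
  [IsScalarTower ℂ K L] {d : ℕ}

theorem jac_map {D : Fin d → Derivation ℂ K K} {D' : Fin d → Derivation ℂ L L}
    (hD' : ∀ i (f : K), D' i (algebraMap K L f) = algebraMap K L (D i f)) (f : Fin d → K) :
    Q.jac D' (fun i => algebraMap K L (f i)) = algebraMap K L (Q.jac D f) := by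
  unfold Q.jac
  rw [RingHom.map_det]
  congr 1
  ext i j
  simp [hD']

theorem exists_ext [Algebra.IsAlgebraic K L] (htr : Algebra.trdeg ℂ L = (d : ℕ))
    (D : Fin d → Derivation ℂ K K) : ∃ D' : Fin d → Derivation ℂ L L,
      ∀ i (f : K), D' i (algebraMap K L f) = algebraMap K L (D i f) := by
  obtain ⟨b0, hb0, hb0'⟩ := exists_common_basis (K := K) (L := L) htr
  obtain ⟨BK, hBK⟩ := exists_kaehler_basis b0 hb0
  obtain ⟨BL, hBL⟩ := exists_kaehler_basis _ hb0'
  exact exists_derivation_ext BK hBK BL hBL D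

/-- Ramification formula. -/
theorem order_transfer [Algebra.EssFiniteType ℂ K] [Algebra.EssFiniteType ℂ L] (hd : 0 < d)
    (htrK : Algebra.trdeg ℂ K = (d : ℕ)) (htrL : Algebra.trdeg ℂ L = (d : ℕ))
    {D : Fin d → Derivation ℂ K K} (hD : ∃ f, Q.jac D f ≠ 0) {D' : Fin d → Derivation ℂ L L}
    (hD' : ∀ i (f : K), D' i (algebraMap K L f) = algebraMap K L (D i f))
    {v : AddValuation K (WithTop ℤ)} {w : AddValuation L (WithTop ℤ)}
    (hv : Q.IsDivisorial d v) (hw : ∃ f, w f = 1) {e : ℕ} (he : 0 < e)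
    (hvw : ∀ f : K, w (algebraMap K L f) = e • v f) {m m' : ℤ}
    (hm : Q.FormOrder v D m) (hm' : Q.FormOrder w D' m') : 1 + m' = e * (1 + m) := by
  obtain ⟨f₀, hf₀⟩ := hD
  obtain ⟨ω, hω, hω'⟩ := exists_form htrK D ⟨f₀, hf₀⟩
  have hf₀' : Q.jac D' (fun i => algebraMap K L (f₀ i)) ≠ 0 := by
    rw [jac_map hD']; exact (map_ne_zero _).2 hf₀
  obtain ⟨η, hη, hη'⟩ := exists_form htrL D' ⟨_, hf₀'⟩
  have hpull : IsPullback ω η := by
    refine ⟨(Q.jac D f₀)⁻¹, f₀, ?_, ?_⟩
    · rw [hω', smul_smul, inv_mul_cancel₀ hf₀, one_smul]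
    · rw [hη', jac_map hD', smul_smul, ← map_mul, inv_mul_cancel₀ hf₀, map_one, one_smul]
  have h1 := formOrder_transfer hd htrK.le htrL.le (divisorial_iff.1 hv) hw he hvw hpull
    ((formOrder_iff_jac hω hω').1 hm)
  have h2 := formOrder_unique h1 ((formOrder_iff_jac hη hη').1 hm')
  omega

end Transfer

section Residue

variable {L : Type} [Field L] [Algebra ℂ L] {d : ℕ}

theorem der_aeval (δ : Derivation ℂ L L) (x : Fin (d + 1) → L) (P : MvPolynomial (Fin (d + 1)) ℂ) :
    δ (aeval x P) = ∑ j, aeval x (pderiv j P) * δ (x j) := by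
  induction P using MvPolynomial.induction_on with
  | C a => simp
  | add p q hp hq =>
    simp only [map_add, hp, hq, add_mul, Finset.sum_add_distrib]
  | mul_X p i hp =>
    have h1 : ∀ j, aeval x (pderiv j (p * X i)) * δ (x j) =
        aeval x (pderiv j p) * δ (x j) * x i + (if j = i then aeval x p * δ (x i) else 0) := by
      intro j
      rw [Derivation.leibniz, smul_eq_mul, smul_eq_mul, map_add, map_mul, map_mul, aeval_X,
        pderiv_X]
      by_cases hj : j = i
      · subst hj; simp; ring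
      · rw [Pi.single_eq_of_ne (fun h => hj h.symm)]; simp [hj]; ring
    rw [Finset.sum_congr rfl fun j _ => h1 j, Finset.sum_add_distrib, Finset.sum_ite_eq']
    simp only [Finset.mem_univ, if_true]
    rw [map_mul, aeval_X, Derivation.leibniz, smul_eq_mul, smul_eq_mul, hp, ← Finset.sum_mul]
    ring

/-- The matrix identity behind residue forms. -/
theorem det_formula (θ : Fin (d + 1) → L) (Ξ : Matrix (Fin d) (Fin (d + 1)) L)
    (hθ : ∀ k, ∑ j, θ j * Ξ k j = 0) (U : Fin d → Fin (d + 1) → L) (c : Fin (d + 1) → L) :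
    (Matrix.of (Fin.cons θ U : Fin (d + 1) → Fin (d + 1) → L)).det *
      (∑ i : Fin (d + 1), (-1) ^ (i : ℕ) * c i *
        (Matrix.of fun l k : Fin d => Ξ k (i.succAbove l)).det) =
    (∑ j, θ j * c j) * (Matrix.of fun l k : Fin d => ∑ j, U l j * Ξ k j).det := by
  let M : Matrix (Fin (d + 1)) (Fin (d + 1)) L :=
    Matrix.of fun i j => (Fin.cons (c i) (fun k => Ξ k i) : Fin (d + 1) → L) j
  have h1 : M.det = ∑ i : Fin (d + 1), (-1) ^ (i : ℕ) * c i *
      (Matrix.of fun l k : Fin d => Ξ k (i.succAbove l)).det := by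
    rw [Matrix.det_succ_column_zero]
    refine Finset.sum_congr rfl fun i _ => ?_
    simp only [M, Matrix.of_apply, Fin.cons_zero]
    rfl
  have h2 : (Matrix.of (Fin.cons θ U : Fin (d + 1) → Fin (d + 1) → L) * M).det =
      (∑ j, θ j * c j) * (Matrix.of fun l k : Fin d => ∑ j, U l j * Ξ k j).det := by
    rw [Matrix.det_succ_row_zero, Finset.sum_eq_single 0]
    · have e1 : (Matrix.of (Fin.cons θ U : Fin (d + 1) → Fin (d + 1) → L) * M) 0 0 =
          ∑ j, θ j * c j := by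
        rw [Matrix.mul_apply]
        simp [M]
      have e2 : (Matrix.of (Fin.cons θ U : Fin (d + 1) → Fin (d + 1) → L) * M).submatrix
          Fin.succ (Fin.succAbove 0) = Matrix.of fun l k : Fin d => ∑ j, U l j * Ξ k j := by
        ext l k
        rw [Matrix.submatrix_apply, Matrix.mul_apply, Matrix.of_apply]
        simp [M]
      rw [e1, e2]; simp
    · intro k _ hk
      obtain ⟨k', rfl⟩ := Fin.exists_succ_eq.2 hk
      have e1 : (Matrix.of (Fin.cons θ U : Fin (d + 1) → Fin (d + 1) → L) * M) 0 k'.succ = 0 := by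
        rw [Matrix.mul_apply]
        simp only [M, Matrix.of_apply, Fin.cons_zero, Fin.cons_succ]
        exact hθ k'
      rw [e1]; ring
    · intro h; exact absurd (Finset.mem_univ _) h
  rw [Matrix.det_mul] at h2
  rw [← h1, h2]

/-- Setting of a hypersurface with the coefficient `h` of a form with respect to the residue
form. -/
structure ResForm (x : Fin (d + 1) → L) (f : MvPolynomial (Fin (d + 1)) ℂ)
    (D' : Fin d → Derivation ℂ L L) (h : L) : Prop where
  x0 : ∀ j, x j ≠ 0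
  eqn : aeval x f = 0
  smooth : ∃ i, aeval x (pderiv i f) ≠ 0
  h0 : h ≠ 0
  res : ∀ i : Fin (d + 1), h * Q.jac D' (x ∘ i.succAbove) = (-1) ^ (i : ℕ) * aeval x (pderiv i f)

theorem jac_log (x : Fin (d + 1) → L) (hx : ∀ j, x j ≠ 0) (D' : Fin d → Derivation ℂ L L)
    (i : Fin (d + 1)) : Q.jac D' (x ∘ i.succAbove) * x i = (∏ j, x j) *
      (Matrix.of fun l k : Fin d => D' k (x (i.succAbove l)) / x (i.succAbove l)).det := by
  have h1 : Q.jac D' (x ∘ i.succAbove) = (∏ l, x (i.succAbove l)) *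
      (Matrix.of fun l k : Fin d => D' k (x (i.succAbove l)) / x (i.succAbove l)).det := by
    unfold Q.jac
    rw [← Matrix.det_mul_column]
    congr 1
    ext l k
    simp only [Matrix.of_apply, Function.comp]
    field_simp [hx (i.succAbove l)]
  rw [h1, Fin.prod_univ_succAbove _ i]
  ring

/-- The residue form in terms of logarithmic gradients. -/
theorem ResForm.formula {x : Fin (d + 1) → L} {f : MvPolynomial (Fin (d + 1)) ℂ}
    {D' : Fin d → Derivation ℂ L L} {h : L} (H : ResForm x f D' h) (g : Fin d → L)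
    (U : Fin d → Fin (d + 1) → L)
    (hU : ∀ l k, D' k (g l) = g l * ∑ j, U l j * (D' k (x j) / x j)) :
    h * (∏ j, x j) * Q.jac D' g = (∏ l, g l) *
      (Matrix.of (Fin.cons (fun j => x j * aeval x (pderiv j f)) U :
        Fin (d + 1) → Fin (d + 1) → L)).det := by
  classical
  set θ : Fin (d + 1) → L := fun j => x j * aeval x (pderiv j f) with hθ
  set Ξ : Matrix (Fin d) (Fin (d + 1)) L := Matrix.of fun k j => D' k (x j) / x j with hΞ
  have h1 : ∀ k, ∑ j, θ j * Ξ k j = 0 := by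
    intro k
    have h2 := der_aeval (D' k) x f
    rw [H.eqn, map_zero] at h2
    rw [h2]
    refine Finset.sum_congr rfl fun j _ => ?_
    simp only [hθ, hΞ, Matrix.of_apply]
    field_simp [H.x0 j]
  have h2 : Q.jac D' g = (∏ l, g l) * (Matrix.of fun l k : Fin d => ∑ j, U l j * Ξ k j).det := by
    unfold Q.jac
    rw [← Matrix.det_mul_column]
    congr 1
    ext l k
    simp only [Matrix.of_apply, hU l k, hΞ]
  obtain ⟨i, hi⟩ := H.smooth
  have h3 := det_formula θ Ξ h1 U (fun j => if j = i then 1 else 0)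
  have h4 : (∑ i' : Fin (d + 1), (-1) ^ (i' : ℕ) * (if i' = i then (1 : L) else 0) *
        (Matrix.of fun l k : Fin d => Ξ k (i'.succAbove l)).det) =
      (-1) ^ (i : ℕ) * (Matrix.of fun l k : Fin d => Ξ k (i.succAbove l)).det := by
    rw [Finset.sum_eq_single i]
    · simp
    · intro j _ hj; simp [hj]
    · intro h; exact absurd (Finset.mem_univ _) h
  have h5 : (∑ j, θ j * (if j = i then (1 : L) else 0)) = θ i := by
    simp
  rw [h4, h5] at h3
  have h6 := jac_log x H.x0 D' i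
  have h7 := H.res i
  have hθi : θ i ≠ 0 := mul_ne_zero (H.x0 i) hi
  have h8 : h * (∏ j, x j) * (Matrix.of fun l k : Fin d => Ξ k (i.succAbove l)).det =
      (-1) ^ (i : ℕ) * θ i := by
    have h9 : (Matrix.of fun l k : Fin d => Ξ k (i.succAbove l)).det =
        (Matrix.of fun l k : Fin d => D' k (x (i.succAbove l)) / x (i.succAbove l)).det := rfl
    rw [h9]
    simp only [hθ]
    linear_combination (x i) * h7 - h * h6
  have h10 : θ i * (h * (∏ j, x j) * (Matrix.of fun l k : Fin d => ∑ j, U l j * Ξ k j).det) =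
      θ i * (Matrix.of (Fin.cons θ U : Fin (d + 1) → Fin (d + 1) → L)).det := by
    have h11 : ((-1 : L) ^ (i : ℕ)) * (-1) ^ (i : ℕ) = 1 := by
      rw [← mul_pow]; simp
    linear_combination (-(h * ∏ j, x j)) * h3 +
      (Matrix.of (Fin.cons θ U : Fin (d + 1) → Fin (d + 1) → L)).det * (-1) ^ (i : ℕ) * h8 +
      (Matrix.of (Fin.cons θ U : Fin (d + 1) → Fin (d + 1) → L)).det * θ i * h11
  have h12 := mul_left_cancel₀ hθi h10
  rw [h2, ← h12]
  ring

/-- Existence of the coefficient of a form with respect to the residue form. -/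
theorem exists_res (x : Fin (d + 1) → L) (hx : ∀ j, x j ≠ 0)
    (f : MvPolynomial (Fin (d + 1)) ℂ) (hf : aeval x f = 0) (D' : Fin d → Derivation ℂ L L)
    (i₀ : Fin (d + 1)) (hi₀ : aeval x (pderiv i₀ f) ≠ 0)
    (hj : Q.jac D' (x ∘ i₀.succAbove) ≠ 0) : ∃ h, ResForm x f D' h := by
  classical
  set h : L := (-1) ^ (i₀ : ℕ) * aeval x (pderiv i₀ f) / Q.jac D' (x ∘ i₀.succAbove) with hh
  have hh0 : h ≠ 0 := div_ne_zero (mul_ne_zero (pow_ne_zero _ (by norm_num)) hi₀) hj
  refine ⟨h, hx, hf, ⟨i₀, hi₀⟩, hh0, fun i => ?_⟩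
  -- proportionality of the two vectors
  set θ : Fin (d + 1) → L := fun j => aeval x (pderiv j f) with hθ
  set Ξ : Matrix (Fin d) (Fin (d + 1)) L := Matrix.of fun k j => D' k (x j) with hΞ
  have h1 : ∀ k, ∑ j, θ j * Ξ k j = 0 := by
    intro k
    have h2 := der_aeval (D' k) x f
    rw [hf, map_zero] at h2
    exact h2.symm
  have hjac : ∀ i : Fin (d + 1), (Matrix.of fun l k : Fin d => Ξ k (i.succAbove l)).det =
      Q.jac D' (x ∘ i.succAbove) := fun i => rfl
  have h3 : ∀ i : Fin (d + 1), θ i₀ * ((-1) ^ (i : ℕ) * Q.jac D' (x ∘ i.succAbove)) =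
      θ i * ((-1) ^ (i₀ : ℕ) * Q.jac D' (x ∘ i₀.succAbove)) := by
    intro i
    have h4 := det_formula θ Ξ h1 (fun l j => if j = i₀.succAbove l then 1 else 0)
      (fun j => (if j = i then θ i₀ else 0) - (if j = i₀ then θ i else 0))
    have h5 : ∑ j, θ j * ((if j = i then θ i₀ else 0) - (if j = i₀ then θ i else 0)) = 0 := by
      simp only [mul_sub, Finset.sum_sub_distrib, mul_ite, mul_zero, Finset.sum_ite_eq',
        Finset.mem_univ, if_true]
      ring
    have h6 : (Matrix.of (Fin.cons θ (fun l j => if j = i₀.succAbove l then 1 else 0) :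
        Fin (d + 1) → Fin (d + 1) → L)).det = (-1) ^ (i₀ : ℕ) * θ i₀ := by
      rw [Matrix.det_succ_row_zero, Finset.sum_eq_single i₀]
      · have e1 : ((Matrix.of (Fin.cons θ (fun l j => if j = i₀.succAbove l then 1 else 0) :
          Fin (d + 1) → Fin (d + 1) → L)).submatrix Fin.succ i₀.succAbove) = 1 := by
          ext l k
          simp only [Matrix.submatrix_apply, Matrix.of_apply, Fin.cons_succ, Matrix.one_apply]
          by_cases hlk : l = k
          · subst hlk; simp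
          · rw [if_neg, if_neg hlk]
            intro h; exact hlk (Fin.succAbove_right_injective h).symm
        rw [e1]; simp
      · intro k _ hk
        have e1 : ((Matrix.of (Fin.cons θ (fun l j => if j = i₀.succAbove l then 1 else 0) :
          Fin (d + 1) → Fin (d + 1) → L)).submatrix Fin.succ k.succAbove).det = 0 := by
          obtain ⟨l, hl⟩ := Fin.exists_succAbove_eq hk
          apply Matrix.det_eq_zero_of_row_eq_zero l
          intro k'
          simp only [Matrix.submatrix_apply, Matrix.of_apply, Fin.cons_succ]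
          rw [if_neg]
          rw [hl]
          exact Fin.succAbove_ne k k'
        rw [e1]; ring
      · intro h; exact absurd (Finset.mem_univ _) h
    rw [h5, zero_mul, h6] at h4
    have h7 : (∑ i' : Fin (d + 1), (-1) ^ (i' : ℕ) * ((if i' = i then θ i₀ else 0) - (if i' = i₀ then θ i else 0)) *
        (Matrix.of fun l k : Fin d => Ξ k (i'.succAbove l)).det) =
        (-1) ^ (i : ℕ) * θ i₀ * Q.jac D' (x ∘ i.succAbove) -
        (-1) ^ (i₀ : ℕ) * θ i * Q.jac D' (x ∘ i₀.succAbove) := by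
      simp only [hjac, mul_sub, sub_mul, Finset.sum_sub_distrib, mul_ite, ite_mul, mul_zero,
        zero_mul, Finset.sum_ite_eq', Finset.mem_univ, if_true]
    rw [h7] at h4
    have h8 : ((-1 : L) ^ (i₀ : ℕ) * θ i₀) ≠ 0 :=
      mul_ne_zero (pow_ne_zero _ (by norm_num)) hi₀
    have h9 := (mul_eq_zero.1 h4).resolve_left h8
    linear_combination h9
  have h4 := h3 i
  have e1 : ((-1 : L) ^ (i : ℕ)) * (-1) ^ (i : ℕ) = 1 := by
    rw [← mul_pow]; simp
  have e2 : ((-1 : L) ^ (i₀ : ℕ)) * (-1) ^ (i₀ : ℕ) = 1 := by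
    rw [← mul_pow]; simp
  rw [hh, div_mul_eq_mul_div, div_eq_iff hj]
  have h5 : θ i₀ * Q.jac D' (x ∘ i.succAbove) = (-1) ^ (i : ℕ) *
      (θ i * ((-1) ^ (i₀ : ℕ) * Q.jac D' (x ∘ i₀.succAbove))) := by
    rw [← h4]
    linear_combination (-(θ i₀ * Q.jac D' (x ∘ i.succAbove))) * e1
  calc (-1) ^ (i₀ : ℕ) * aeval x (pderiv i₀ f) * Q.jac D' (x ∘ i.succAbove)
      = (-1) ^ (i₀ : ℕ) * (θ i₀ * Q.jac D' (x ∘ i.succAbove)) := by simp only [hθ]; ring
    _ = (-1) ^ (i₀ : ℕ) * ((-1) ^ (i : ℕ) *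
      (θ i * ((-1) ^ (i₀ : ℕ) * Q.jac D' (x ∘ i₀.succAbove)))) := by rw [h5]
    _ = ((-1) ^ (i₀ : ℕ) * (-1) ^ (i₀ : ℕ)) * ((-1) ^ (i : ℕ) *
      (θ i * Q.jac D' (x ∘ i₀.succAbove))) := by ring
    _ = (-1) ^ (i : ℕ) * aeval x (pderiv i f) * Q.jac D' (x ∘ i₀.succAbove) := by
      rw [e2]; simp only [hθ]; ring

end Residue

end Vale.Agent.P283.H647
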