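import Vale.Agent.P283.H647.Init
import Vale.Agent.P283.H647.Forms

/-!
Lower bounds for log discrepancies on a non-degenerate hypersurface.
-/

set_option linter.all false

namespace Vale.Agent.P283.H647

open MvPolynomial Finset

variable {d : ℕ} {L : Type} [Field L] [Algebra ℂ L]

theorem ov_lt_of {w : AddValuation L (WithTop ℤ)} {a b : L} {m : ℤ}
    (ha : w a = (m : WithTop ℤ)) (hb : ((m + 1 : ℤ) : WithTop ℤ) ≤ w b) :
    w (a + b) = (m : WithTop ℤ) := by
  have h1 : w a < w b := by
    rw [ha]
    refine lt_of_lt_of_le ?_ hb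
    exact_mod_cast lt_add_one m
  rw [AddValuation.map_add_eq_of_lt_left w h1, ha]

/-- The partial derivative that computes the residue form. -/
theorem exists_partial {f : MvPolynomial (Fin (d + 1)) ℂ} (hf : NonDeg f)
    {w : AddValuation L (WithTop ℤ)} (hc : ∀ c : ℂ, c ≠ 0 → w (algebraMap ℂ L c) = 0)
    (hn : ∃ t, w t = 1) {x : Fin (d + 1) → L} (hfx : aeval x f = 0) {b : Fin (d + 1) → ℕ}
    (hb : ∀ j, w (x j) = ((b j : ℤ) : WithTop ℤ)) {m : ℕ} (hm : IsMin f b m) :
    ∃ i, w (x i * aeval x (pderiv i f)) = ((m : ℤ) : WithTop ℤ) := by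
  obtain ⟨k, hk⟩ := init_exists w hc x b hb hn (κ := Option (Fin (d + 1)))
    (fun o => o.elim (inForm f b) (fun i => X i * pderiv i (inForm f b))) (fun _ => m) (by
      rintro (_ | i)
      · exact inForm_homog hm
      · exact logd_inForm_homog hm i) (by
      intro ξ hξ
      by_cases h0 : eval ξ (inForm f b) = 0
      · obtain ⟨i, hi⟩ := hf b ξ hξ h0
        refine ⟨some i, ?_⟩
        simp only [Option.elim, map_mul, eval_X]
        exact mul_ne_zero (hξ i) hi
      · exact ⟨none, h0⟩)
  rcases k with _ | i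
  · exfalso
    simp only [Option.elim] at hk
    have h1 := val_lower w hc x b hb (diff_atLeast hm)
    have h2 : aeval x (inForm f b) + aeval x (f - inForm f b) = 0 := by
      rw [← map_add, add_sub_cancel, hfx]
    have h3 := ov_lt_of hk (b := aeval x (f - inForm f b)) (by exact_mod_cast h1)
    rw [h2, AddValuation.map_zero] at h3
    exact WithTop.top_ne_coe h3
  · refine ⟨i, ?_⟩
    simp only [Option.elim] at hk
    have h1 := val_lower w hc x b hb (logd_diff_atLeast hm i)
    have h2 : aeval x (X i * pderiv i (inForm f b)) +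
        aeval x (X i * pderiv i f - X i * pderiv i (inForm f b)) =
        x i * aeval x (pderiv i f) := by
      rw [← map_add, add_sub_cancel, map_mul, aeval_X]
    rw [← h2]
    exact ov_lt_of hk (by exact_mod_cast h1)

/-- The minor that computes the residue form with respect to a second function. -/
theorem exists_minor {f s : MvPolynomial (Fin (d + 1)) ℂ}
    {w : AddValuation L (WithTop ℤ)} (hc : ∀ c : ℂ, c ≠ 0 → w (algebraMap ℂ L c) = 0)
    (hn : ∃ t, w t = 1) {x : Fin (d + 1) → L} (hfx : aeval x f = 0) {b : Fin (d + 1) → ℕ}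
    (hb : ∀ j, w (x j) = ((b j : ℤ) : WithTop ℤ)) (hs : Transv f s b)
    {m μ : ℕ} (hm : IsMin f b m) (hμ : IsMin s b μ)
    (hsx : w (aeval x s) ≠ ((μ : ℤ) : WithTop ℤ)) :
    ∃ i j, w (x i * aeval x (pderiv i f) * (x j * aeval x (pderiv j s)) -
      x j * aeval x (pderiv j f) * (x i * aeval x (pderiv i s))) = ((m + μ : ℤ) : WithTop ℤ) := by
  obtain ⟨k, hk⟩ := init_exists w hc x b hb hn (κ := (Fin (d + 1) × Fin (d + 1)) ⊕ Bool)
    (Sum.elim (fun p => X p.1 * pderiv p.1 (inForm f b) * (X p.2 * pderiv p.2 (inForm s b)) -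
      X p.2 * pderiv p.2 (inForm f b) * (X p.1 * pderiv p.1 (inForm s b)))
      (fun o => if o then inForm f b else inForm s b))
    (Sum.elim (fun _ => m + μ) (fun o => if o then m else μ)) (by
      rintro (p | (_ | _))
      · exact ((logd_inForm_homog hm _).mul (logd_inForm_homog hμ _)).sub
          ((logd_inForm_homog hm _).mul (logd_inForm_homog hμ _))
      · exact inForm_homog hμ
      · exact inForm_homog hm) (by
      intro ξ hξ
      by_cases h0 : eval ξ (inForm f b) = 0
      · by_cases h1 : eval ξ (inForm s b) = 0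
        · obtain ⟨i, j, hij⟩ := hs ξ hξ h0 h1
          refine ⟨Sum.inl (i, j), ?_⟩
          simp only [Sum.elim_inl, map_sub, map_mul, eval_X]
          have h2 : ξ i * ξ j ≠ 0 := mul_ne_zero (hξ i) (hξ j)
          intro h3
          apply mul_ne_zero h2 hij
          linear_combination h3
        · exact ⟨Sum.inr false, h1⟩
      · exact ⟨Sum.inr true, h0⟩)
  rcases k with ⟨i, j⟩ | (_ | _)
  · refine ⟨i, j, ?_⟩
    simp only [Sum.elim_inl] at hk
    have a1 := val_lower w hc x b hb (logd_inForm_homog hm i).atLeast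
    have a2 := val_lower w hc x b hb (logd_inForm_homog hm j).atLeast
    have a3 := val_lower w hc x b hb (logd_inForm_homog hμ i).atLeast
    have a4 := val_lower w hc x b hb (logd_inForm_homog hμ j).atLeast
    have b1 := val_lower w hc x b hb (logd_diff_atLeast hm i)
    have b2 := val_lower w hc x b hb (logd_diff_atLeast hm j)
    have b3 := val_lower w hc x b hb (logd_diff_atLeast hμ i)
    have b4 := val_lower w hc x b hb (logd_diff_atLeast hμ j)
    set A1 := aeval x (X i * pderiv i (inForm f b))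
    set A2 := aeval x (X j * pderiv j (inForm f b))
    set A3 := aeval x (X i * pderiv i (inForm s b))
    set A4 := aeval x (X j * pderiv j (inForm s b))
    set B1 := aeval x (X i * pderiv i f - X i * pderiv i (inForm f b)) with hB1
    set B2 := aeval x (X j * pderiv j f - X j * pderiv j (inForm f b)) with hB2
    set B3 := aeval x (X i * pderiv i s - X i * pderiv i (inForm s b)) with hB3
    set B4 := aeval x (X j * pderiv j s - X j * pderiv j (inForm s b)) with hB4
    have e1 : x i * aeval x (pderiv i f) = A1 + B1 := by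
      rw [hB1, ← map_add, add_sub_cancel, map_mul, aeval_X]
    have e2 : x j * aeval x (pderiv j f) = A2 + B2 := by
      rw [hB2, ← map_add, add_sub_cancel, map_mul, aeval_X]
    have e3 : x i * aeval x (pderiv i s) = A3 + B3 := by
      rw [hB3, ← map_add, add_sub_cancel, map_mul, aeval_X]
    have e4 : x j * aeval x (pderiv j s) = A4 + B4 := by
      rw [hB4, ← map_add, add_sub_cancel, map_mul, aeval_X]
    have hA : aeval x (X i * pderiv i (inForm f b) * (X j * pderiv j (inForm s b)) -
      X j * pderiv j (inForm f b) * (X i * pderiv i (inForm s b))) = A1 * A4 - A2 * A3 := by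
      rw [map_sub, map_mul (aeval x) (X i * _), map_mul (aeval x) (X j * _)]
    rw [e1, e2, e3, e4]
    have hsplit : (A1 + B1) * (A4 + B4) - (A2 + B2) * (A3 + B3) = (A1 * A4 - A2 * A3) +
      (((A1 * B4 + B1 * A4) + B1 * B4) - ((A2 * B3 + B2 * A3) + B2 * B3)) := by ring
    rw [hsplit]
    have key : ∀ {p q : L} {i j : ℤ}, (i : WithTop ℤ) ≤ w p → (j : WithTop ℤ) ≤ w q →
        ((m + μ + 1 : ℤ) ≤ i + j) → ((m + μ + 1 : ℤ) : WithTop ℤ) ≤ w (p * q) := by
      intro p q i j h1 h2 h3
      rw [AddValuation.map_mul]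
      refine le_trans ?_ (add_le_add h1 h2)
      exact_mod_cast h3
    refine ov_lt_of ?_ ?_
    · rw [← hA]; exact_mod_cast hk
    · have c1 := key a1 b4 (by push_cast; omega)
      have c2 := key b1 a4 (by push_cast; omega)
      have c3 := key b1 b4 (by push_cast; omega)
      have c4 := key a2 b3 (by push_cast; omega)
      have c5 := key b2 a3 (by push_cast; omega)
      have c6 := key b2 b3 (by push_cast; omega)
      exact AddValuation.map_le_sub w
        (AddValuation.map_le_add w (AddValuation.map_le_add w c1 c2) c3)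
        (AddValuation.map_le_add w (AddValuation.map_le_add w c4 c5) c6)
  · exfalso
    simp only [Sum.elim_inr] at hk
    apply hsx
    have h1 := val_lower w hc x b hb (diff_atLeast hμ)
    have h2 : aeval x (inForm s b) + aeval x (s - inForm s b) = aeval x s := by
      rw [← map_add, add_sub_cancel]
    rw [← h2]
    exact ov_lt_of (by simpa using hk) (by exact_mod_cast h1)
  · exfalso
    simp only [Sum.elim_inr, if_true] at hk
    have h1 := val_lower w hc x b hb (diff_atLeast hm)
    have h2 : aeval x (inForm f b) + aeval x (f - inForm f b) = 0 := by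
      rw [← map_add, add_sub_cancel, hfx]
    have h3 := ov_lt_of hk (b := aeval x (f - inForm f b)) (by exact_mod_cast h1)
    rw [h2, AddValuation.map_zero] at h3
    exact WithTop.top_ne_coe h3

theorem bound_of_partial [Algebra.EssFiniteType ℂ L] (hd : 0 < d)
    (htr : Algebra.trdeg ℂ L = (d : ℕ)) {x : Fin (d + 1) → L}
    {f : MvPolynomial (Fin (d + 1)) ℂ} {D' : Fin d → Derivation ℂ L L} {h : L}
    (H : ResForm x f D' h) {w : AddValuation L (WithTop ℤ)} (hw : Q.IsDivisorial d w) {m' : ℤ}
    (hm' : Q.FormOrder w D' m') (i : Fin (d + 1)) {M : ℤ}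
    (hi : w (x i * aeval x (pderiv i f)) = (M : WithTop ℤ)) :
    ov w h + ∑ j, ov w (x j) - M ≤ 1 + m' := by
  have h1 : x i * aeval x (pderiv i f) ≠ 0 := ne_zero_of_eq w hi
  have h2 := right_ne_zero_of_mul h1
  have h3 := H.res i
  have hs : ((-1 : L) ^ (i : ℕ)) ≠ 0 := pow_ne_zero _ (by norm_num)
  have hsv : ov w ((-1 : L) ^ (i : ℕ)) = 0 := by
    rw [ov_pow w (by norm_num)]
    have h5 : ov w (-1 : L) = 0 := by
      apply ov_eq_of
      rw [AddValuation.map_neg, AddValuation.map_one]; rfl
    rw [h5, mul_zero]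
  have h4 : Q.jac D' (x ∘ i.succAbove) ≠ 0 := by
    intro h0
    rw [h0, mul_zero] at h3
    exact mul_ne_zero hs h2 h3.symm
  have h5 := congrArg (ov w) h3
  rw [ov_mul w H.h0 h4, ov_mul w hs h2, hsv, zero_add] at h5
  have h6 := ov_eq_of w hi
  rw [ov_mul w (H.x0 i) h2] at h6
  have h7 := order_log hd htr hw hm' (x ∘ i.succAbove) (fun l => H.x0 _) h4
  have h8 := Fin.sum_univ_succAbove (fun j => ov w (x j)) i
  simp only [Function.comp] at h7
  omega

theorem bound_of_minor [Algebra.EssFiniteType ℂ L] (hd : 0 < d)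
    (htr : Algebra.trdeg ℂ L = (d : ℕ)) {x : Fin (d + 1) → L}
    {f : MvPolynomial (Fin (d + 1)) ℂ} {D' : Fin d → Derivation ℂ L L} {h : L}
    (H : ResForm x f D' h) {w : AddValuation L (WithTop ℤ)} (hw : Q.IsDivisorial d w) {m' : ℤ}
    (hm' : Q.FormOrder w D' m') (s : MvPolynomial (Fin (d + 1)) ℂ) (hs0 : aeval x s ≠ 0)
    (i j : Fin (d + 1)) (hi0 : aeval x (pderiv i f) ≠ 0) {M : ℤ}
    (hij : w (x i * aeval x (pderiv i f) * (x j * aeval x (pderiv j s)) -
      x j * aeval x (pderiv j f) * (x i * aeval x (pderiv i s))) = (M : WithTop ℤ)) :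
    ov w h + ∑ j, ov w (x j) + ov w (aeval x s) - M ≤ 1 + m' := by
  classical
  have hne : j ≠ i := by
    rintro rfl
    rw [sub_self, AddValuation.map_zero] at hij
    exact WithTop.top_ne_coe hij
  obtain ⟨j', rfl⟩ := Fin.exists_succAbove_eq hne
  set g : Fin d → L := Function.update (x ∘ i.succAbove) j' (aeval x s) with hg
  set δ : L := aeval x (pderiv (i.succAbove j') s) * aeval x (pderiv i f) -
    aeval x (pderiv i s) * aeval x (pderiv (i.succAbove j') f) with hδ
  have hΔ : x i * aeval x (pderiv i f) * (x (i.succAbove j') * aeval x (pderiv (i.succAbove j') s)) -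
      x (i.succAbove j') * aeval x (pderiv (i.succAbove j') f) * (x i * aeval x (pderiv i s)) =
      x i * x (i.succAbove j') * δ := by rw [hδ]; ring
  rw [hΔ] at hij
  have hδ0 : δ ≠ 0 := right_ne_zero_of_mul (ne_zero_of_eq w hij)
  have hxx : x i * x (i.succAbove j') ≠ 0 := mul_ne_zero (H.x0 _) (H.x0 _)
  have hMv := ov_eq_of w hij
  rw [ov_mul w hxx hδ0, ov_mul w (H.x0 _) (H.x0 _)] at hMv
  -- the Jacobian
  have hjac : aeval x (pderiv i f) * Q.jac D' g = δ * Q.jac D' (x ∘ i.succAbove) := by
    let A : Matrix (Fin d) (Fin d) L := Matrix.of fun l k => D' k (x (i.succAbove l))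
    let c : Fin d → L := fun l => aeval x (pderiv (i.succAbove l) s) -
      aeval x (pderiv i s) * aeval x (pderiv (i.succAbove l) f) / aeval x (pderiv i f)
    have h1 : Q.jac D' g = (A.updateRow j' (∑ k, c k • A k)).det := by
      unfold Q.jac
      congr 1
      ext l k
      rw [Matrix.updateRow_apply]
      by_cases hl : l = j'
      · subst hl
        rw [if_pos rfl, Matrix.of_apply, hg, Function.update_self, Finset.sum_apply,
          der_aeval, Fin.sum_univ_succAbove _ i]
        have h2 := der_aeval (D' k) x f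
        rw [H.eqn, map_zero, Fin.sum_univ_succAbove _ i] at h2
        have h3 : D' k (x i) = -(∑ l, aeval x (pderiv (i.succAbove l) f) *
            D' k (x (i.succAbove l))) / aeval x (pderiv i f) := by
          rw [eq_div_iff hi0]
          linear_combination -h2
        rw [h3]
        simp only [c, A, Pi.smul_apply, Matrix.of_apply, smul_eq_mul]
        rw [neg_div, mul_neg, mul_div_assoc', Finset.mul_sum, Finset.sum_div,
          ← Finset.sum_neg_distrib, ← Finset.sum_add_distrib]
        refine Finset.sum_congr rfl fun l _ => ?_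
        field_simp
        ring
      · rw [if_neg hl, Matrix.of_apply, hg, Function.update_of_ne hl]; rfl
    rw [h1, Matrix.det_updateRow_sum, smul_eq_mul]
    have h2 : A.det = Q.jac D' (x ∘ i.succAbove) := rfl
    rw [h2]
    simp only [c, hδ]
    field_simp
  have h3 := H.res i
  have hs : ((-1 : L) ^ (i : ℕ)) ≠ 0 := pow_ne_zero _ (by norm_num)
  have hsv : ov w ((-1 : L) ^ (i : ℕ)) = 0 := by
    rw [ov_pow w (by norm_num)]
    have h5 : ov w (-1 : L) = 0 := by
      apply ov_eq_of
      rw [AddValuation.map_neg, AddValuation.map_one]; rfl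
    rw [h5, mul_zero]
  have h4 : Q.jac D' (x ∘ i.succAbove) ≠ 0 := by
    intro h0
    rw [h0, mul_zero] at h3
    exact mul_ne_zero hs hi0 h3.symm
  have h5 := congrArg (ov w) h3
  rw [ov_mul w H.h0 h4, ov_mul w hs hi0, hsv, zero_add] at h5
  have hjg : Q.jac D' g ≠ 0 := by
    intro h0
    rw [h0, mul_zero] at hjac
    exact mul_ne_zero hδ0 h4 hjac.symm
  have h6 := congrArg (ov w) hjac
  rw [ov_mul w hi0 hjg, ov_mul w hδ0 h4] at h6
  have hg0 : ∀ l, g l ≠ 0 := by
    intro l
    by_cases hl : l = j'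
    · subst hl; rw [hg, Function.update_self]; exact hs0
    · rw [hg, Function.update_of_ne hl]; exact H.x0 _
  have h7 := order_log hd htr hw hm' g hg0 hjg
  have h8 := Fin.sum_univ_succAbove (fun j => ov w (x j)) i
  have h9 : ∑ l, ov w (g l) = ov w (aeval x s) + (∑ l, ov w (x (i.succAbove l)) -
      ov w (x (i.succAbove j'))) := by
    rw [← Finset.add_sum_erase Finset.univ (fun l => ov w (g l)) (Finset.mem_univ j'),
      ← Finset.add_sum_erase Finset.univ (fun l => ov w (x (i.succAbove l))) (Finset.mem_univ j')]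
    have h10 : ∑ l ∈ Finset.univ.erase j', ov w (g l) =
        ∑ l ∈ Finset.univ.erase j', ov w (x (i.succAbove l)) := by
      refine Finset.sum_congr rfl fun l hl => ?_
      rw [hg, Function.update_of_ne (Finset.ne_of_mem_erase hl)]; rfl
    rw [h10]
    have h11 : g j' = aeval x s := by rw [hg, Function.update_self]
    rw [h11]; ring
  omega

/-- The main lower bound for log discrepancies. -/
theorem main_bound [Algebra.EssFiniteType ℂ L] (hd : 0 < d)
    (htr : Algebra.trdeg ℂ L = (d : ℕ)) {x : Fin (d + 1) → L}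
    {f : MvPolynomial (Fin (d + 1)) ℂ} {D' : Fin d → Derivation ℂ L L} {h : L}
    (H : ResForm x f D' h) (hf : NonDeg f) {w : AddValuation L (WithTop ℤ)}
    (hw : Q.IsDivisorial d w) {m' : ℤ} (hm' : Q.FormOrder w D' m')
    {b : Fin (d + 1) → ℕ} (hb : ∀ j, w (x j) = ((b j : ℤ) : WithTop ℤ))
    (s : MvPolynomial (Fin (d + 1)) ℂ) (hs0 : aeval x s ≠ 0) (hs : Transv f s b)
    {m μ : ℕ} (hm : IsMin f b m) (hμ : IsMin s b μ) :
    ov w h + ∑ j, (b j : ℤ) - m + ov w (aeval x s) - μ ≤ 1 + m' := by
  have hbo : ∀ j, ov w (x j) = b j := fun j => ov_eq_of w (hb j)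
  have hsum : ∑ j, ov w (x j) = ∑ j, (b j : ℤ) := Finset.sum_congr rfl fun j _ => hbo j
  by_cases hsx : w (aeval x s) = ((μ : ℤ) : WithTop ℤ)
  · obtain ⟨i, hi⟩ := exists_partial hf hw.const hw.normalized H.eqn hb hm
    have h1 := bound_of_partial hd htr H hw hm' i hi
    have h2 := ov_eq_of w hsx
    rw [hsum] at h1
    omega
  · obtain ⟨i, j, hij⟩ := exists_minor hw.const hw.normalized H.eqn hb hs hm hμ hsx
    by_cases hi0 : aeval x (pderiv i f) = 0
    · have hj0 : aeval x (pderiv j f) ≠ 0 := by
        intro hj0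
        rw [hi0, hj0] at hij
        simp only [mul_zero, zero_mul, sub_zero, AddValuation.map_zero] at hij
        exact WithTop.top_ne_coe hij
      rw [← AddValuation.map_neg, neg_sub] at hij
      have h1 := bound_of_minor hd htr H hw hm' s hs0 j i hj0 hij
      rw [hsum] at h1
      omega
    · have h1 := bound_of_minor hd htr H hw hm' s hs0 i j hi0 hij
      rw [hsum] at h1
      omega

/-- The bound for valuations whose centre lies in the torus. -/
theorem torus_bound {x : Fin (d + 1) → L}
    {f : MvPolynomial (Fin (d + 1)) ℂ} {D' : Fin d → Derivation ℂ L L} {h : L}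
    (H : ResForm x f D' h) (hf : NonDeg f) (hf0 : f ≠ 0) {w : AddValuation L (WithTop ℤ)}
    (hw : Q.IsDivisorial d w) {m' : ℤ} (hm' : Q.FormOrder w D' m')
    (hb : ∀ j, w (x j) = 0) : ov w h ≤ m' := by
  have hm : IsMin f (fun _ => 0) 0 := by
    obtain ⟨m, hm⟩ := exists_isMin hf0 (fun _ => 0)
    obtain ⟨⟨α, hα, hα'⟩, h2⟩ := hm
    have : m = 0 := by rw [← hα']; simp [wt]
    subst this
    exact ⟨⟨α, hα, hα'⟩, h2⟩
  obtain ⟨i, hi⟩ := exists_partial hf hw.const hw.normalized H.eqn
    (fun j => by rw [hb j]; rfl) hm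
  have h1 : x i * aeval x (pderiv i f) ≠ 0 := ne_zero_of_eq w hi
  have h2 := right_ne_zero_of_mul h1
  have h3 := H.res i
  have hs : ((-1 : L) ^ (i : ℕ)) ≠ 0 := pow_ne_zero _ (by norm_num)
  have hsv : ov w ((-1 : L) ^ (i : ℕ)) = 0 := by
    rw [ov_pow w (by norm_num)]
    have h5 : ov w (-1 : L) = 0 := by
      apply ov_eq_of
      rw [AddValuation.map_neg, AddValuation.map_one]; rfl
    rw [h5, mul_zero]
  have h4 : Q.jac D' (x ∘ i.succAbove) ≠ 0 := by
    intro h0
    rw [h0, mul_zero] at h3
    exact mul_ne_zero hs h2 h3.symm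
  have h5 := congrArg (ov w) h3
  rw [ov_mul w H.h0 h4, ov_mul w hs h2, hsv, zero_add] at h5
  have h6 := ov_eq_of w hi
  rw [ov_mul w (H.x0 i) h2] at h6
  have h7 : ov w (x i) = 0 := ov_eq_of w (by rw [hb i]; rfl)
  have h8 := order_regular hm' (x ∘ i.succAbove) (fun l => (hb _).ge) h4
  omega

end Vale.Agent.P283.H647
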