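import Vale.Agent.P283.H647.TH
import Vale.Agent.P283.H647.Val

/-!
Basic facts on the function field of a hypersurface and on its invariants.
-/

set_option linter.all false

namespace Vale.Agent.P283.H647

open MvPolynomial Finset
open scoped KaehlerDifferential

variable {d : ℕ} {L : Type} [Field L] [Algebra ℂ L]

/-- `L` is the function field of the hypersurface `f = 0`, with coordinates `x`. -/
structure HypData (x : Fin (d + 1) → L) (f : MvPolynomial (Fin (d + 1)) ℂ) : Prop where
  gen : ∀ g : L, ∃ P Q : MvPolynomial (Fin (d + 1)) ℂ, aeval x Q ≠ 0 ∧ g = aeval x P / aeval x Q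
  ker : ∀ P : MvPolynomial (Fin (d + 1)) ℂ, aeval x P = 0 ↔ f ∣ P
  f0 : f ≠ 0
  x0 : ∀ j, x j ≠ 0

variable {x : Fin (d + 1) → L} {f : MvPolynomial (Fin (d + 1)) ℂ}

theorem HypData.eqn (H : HypData x f) : aeval x f = 0 := (H.ker f).2 dvd_rfl

theorem HypData.ess (H : HypData x f) : Algebra.EssFiniteType ℂ L := by
  let φ : MvPolynomial (Fin (d + 1)) ℂ →ₐ[ℂ] L := aeval x
  let S : Subalgebra ℂ L := φ.range
  haveI : Algebra.FiniteType ℂ S := Algebra.FiniteType.of_surjective φ.rangeRestrict
    φ.rangeRestrict_surjective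
  haveI : IsFractionRing S L := IsFractionRing.of_field S L fun z => by
    obtain ⟨P, Q, -, h1⟩ := H.gen z
    exact ⟨φ.rangeRestrict P, φ.rangeRestrict Q, h1⟩
  haveI : Algebra.EssFiniteType S L :=
    Algebra.EssFiniteType.of_isLocalization L (nonZeroDivisors S)
  haveI : Algebra.EssFiniteType ℂ S := inferInstance
  exact Algebra.EssFiniteType.comp ℂ S L

theorem HypData.not_const (H : HypData x f) : ¬ IsUnit f := by
  intro hu
  have h1 : aeval x (1 : MvPolynomial (Fin (d + 1)) ℂ) = 0 := (H.ker 1).2 (hu.dvd)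
  rw [map_one] at h1
  exact one_ne_zero h1

theorem HypData.exists_pd (H : HypData x f) : ∃ i, aeval x (pderiv i f) ≠ 0 := by
  obtain ⟨α, hα, hα0⟩ : ∃ α ∈ f.support, α ≠ 0 := by
    by_contra hno
    push Not at hno
    have h1 : f = C (f.coeff 0) := by
      ext β
      rw [coeff_C]
      split_ifs with hβ
      · rw [hβ]
      · by_contra hne
        exact hβ (hno β (mem_support_iff.2 hne)).symm
    have h2 : f.coeff 0 ≠ 0 := by
      intro h0
      rw [h0, map_zero] at h1
      exact H.f0 h1
    apply H.not_const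
    rw [h1]
    exact (isUnit_iff_ne_zero.2 h2).map C
  obtain ⟨i, hi⟩ : ∃ i, α i ≠ 0 := by
    by_contra hno
    push Not at hno
    exact hα0 (Finsupp.ext hno)
  have hne : pderiv i f ≠ 0 := by
    intro hz
    have h1 := coeff_logd f i α
    rw [hz, mul_zero, coeff_zero] at h1
    exact mul_ne_zero (Nat.cast_ne_zero.2 hi) (mem_support_iff.1 hα) h1.symm
  refine ⟨i, fun h0 => not_dvd_pderiv hne ((H.ker _).1 h0)⟩

theorem HypData.indep (H : HypData x f) {i : Fin (d + 1)} (hi : aeval x (pderiv i f) ≠ 0) :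
    AlgebraicIndependent ℂ (x ∘ i.succAbove) := by
  rw [algebraicIndependent_iff]
  intro P hP
  by_contra hne
  have h1 : aeval x (rename i.succAbove P) = 0 := by rw [aeval_rename]; exact hP
  obtain ⟨g, hg⟩ := (H.ker _).1 h1
  have hP' : rename i.succAbove P ≠ 0 := fun h0 =>
    hne (rename_injective _ Fin.succAbove_right_injective (by rw [h0, map_zero]))
  have hg0 : g ≠ 0 := by rintro rfl; rw [mul_zero] at hg; exact hP' hg
  have h2 : degreeOf i (rename i.succAbove P) = degreeOf i f + degreeOf i g := by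
    rw [hg, degreeOf_mul_eq H.f0 hg0]
  have h3 : degreeOf i (rename i.succAbove P) = 0 := by
    rw [← Nat.le_zero, degreeOf_le_iff]
    intro α hα
    rw [Nat.le_zero]
    rw [mem_support_iff] at hα
    obtain ⟨β, rfl, -⟩ := coeff_rename_ne_zero _ P α hα
    rw [Finsupp.mapDomain_notin_range]
    rintro ⟨k, hk⟩
    exact Fin.succAbove_ne i _ hk
  have h4 : 0 < degreeOf i f := by
    have hi' : pderiv i f ≠ 0 := by intro h0; rw [h0, map_zero] at hi; exact hi rfl
    obtain ⟨α, hα⟩ := support_nonempty.2 hi'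
    rw [mem_support_iff, coeff_pderiv'] at hα
    have h4 : α + Finsupp.single i 1 ∈ f.support := mem_support_iff.2 (right_ne_zero_of_mul hα)
    have h5 := monomial_le_degreeOf i h4
    simp at h5
    omega
  omega

theorem HypData.trdeg (H : HypData x f) : Algebra.trdeg ℂ L = (d : ℕ) := by
  classical
  apply le_antisymm
  · haveI : Algebra.IsAlgebraic (Algebra.adjoin ℂ (Set.range x)) L := by
      constructor
      intro g
      obtain ⟨p, r, -, rfl⟩ := H.gen g
      have h1 : ∀ p : MvPolynomial (Fin (d + 1)) ℂ,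
          IsAlgebraic (Algebra.adjoin ℂ (Set.range x)) (aeval x p) := by
        intro p
        have h2 : aeval x p ∈ Algebra.adjoin ℂ (Set.range x) := by
          rw [Algebra.adjoin_range_eq_range_aeval]
          exact ⟨p, rfl⟩
        exact isAlgebraic_algebraMap (⟨aeval x p, h2⟩ : Algebra.adjoin ℂ (Set.range x))
      rw [div_eq_mul_inv]
      exact (h1 p).mul (h1 r).inv
    obtain ⟨t, ht, hbt⟩ := exists_isTranscendenceBasis_subset (R := ℂ) (Set.range x)
    rw [← hbt.cardinalMk_eq_trdeg]
    have hfin : t.Finite := (Set.finite_range x).subset ht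
    haveI := hfin.fintype
    rw [Cardinal.mk_fintype]
    have hle : Fintype.card t ≤ d := by
      rw [← Nat.card_eq_fintype_card, Nat.card_coe_set_eq]
      by_contra hgt
      push Not at hgt
      have h1 : t.ncard ≤ (Set.range x).ncard := Set.ncard_le_ncard ht (Set.finite_range x)
      have hu : (Set.univ : Set (Fin (d + 1))).ncard = d + 1 := by
        rw [Set.ncard_univ, Nat.card_eq_fintype_card, Fintype.card_fin]
      have h2 : (Set.range x).ncard ≤ d + 1 := by
        rw [← Set.image_univ]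
        have h7 := Set.ncard_image_le (f := x) (Set.finite_univ (α := Fin (d + 1)))
        omega
      have h3 : t = Set.range x :=
        Set.eq_of_subset_of_ncard_le ht (by omega) (Set.finite_range x)
      subst h3
      have h4 : Function.Injective x := by
        rw [← Set.injOn_univ]
        apply Set.injOn_of_ncard_image_eq _ Set.finite_univ
        rw [Set.image_univ, hu]
        omega
      have h5 := hbt.1.comp (Set.rangeFactorization x) (fun a b hab =>
        h4 (congrArg Subtype.val hab))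
      have h6 : (Subtype.val : Set.range x → L) ∘ Set.rangeFactorization x = x := rfl
      rw [h6] at h5
      exact H.f0 (algebraicIndependent_iff.1 h5 f H.eqn)
    exact_mod_cast hle
  · obtain ⟨i, hi⟩ := H.exists_pd
    have h1 := (H.indep hi).cardinalMk_le_trdeg
    rwa [Cardinal.mk_fintype, Fintype.card_fin] at h1

theorem HypData.basis (H : HypData x f) {i : Fin (d + 1)} (hi : aeval x (pderiv i f) ≠ 0) :
    IsTranscendenceBasis ℂ (x ∘ i.succAbove) :=
  (H.indep hi).isTranscendenceBasis_of_trdeg_le_of_finite (by rw [H.trdeg]; simp)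

/-- The Jacobian of coordinates is nonzero. -/
theorem HypData.jac_ne (H : HypData x f) {i : Fin (d + 1)} (hi : aeval x (pderiv i f) ≠ 0)
    {D' : Fin d → Derivation ℂ L L} (hD' : ∃ g, Q.jac D' g ≠ 0) :
    Q.jac D' (x ∘ i.succAbove) ≠ 0 := by
  obtain ⟨ω, hω, hω'⟩ := exists_form H.trdeg D' hD'
  obtain ⟨B, hB⟩ := exists_kaehler_basis _ (H.basis hi)
  have h1 := wedgeD_basis_ne_zero B hB
  rw [hω'] at h1
  intro h0
  rw [h0, zero_smul] at h1
  exact h1 rfl

theorem HypData.exists_resForm (H : HypData x f) {D' : Fin d → Derivation ℂ L L}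
    (hD' : ∃ g, Q.jac D' g ≠ 0) : ∃ h, ResForm x f D' h := by
  obtain ⟨i, hi⟩ := H.exists_pd
  exact exists_res x H.x0 f H.eqn D' i hi (H.jac_ne hi hD')

theorem ResForm.jac_ne {D' : Fin d → Derivation ℂ L L} {h : L} (R : ResForm x f D' h) :
    ∃ g, Q.jac D' g ≠ 0 := by
  obtain ⟨i, hi⟩ := R.smooth
  refine ⟨x ∘ i.succAbove, fun h0 => ?_⟩
  have h1 := R.res i
  rw [h0, mul_zero] at h1
  exact mul_ne_zero (pow_ne_zero _ (by norm_num)) hi h1.symm

/-- The order of the residue form does not depend on the choices. -/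
theorem HypData.rho_indep (H : HypData x f) (hd : 0 < d) {D' D'' : Fin d → Derivation ℂ L L}
    {h h' : L} (R : ResForm x f D' h) (R' : ResForm x f D'' h')
    {w : AddValuation L (WithTop ℤ)} (hw : Q.IsDivisorial d w) {m m' : ℤ}
    (hm : Q.FormOrder w D' m) (hm' : Q.FormOrder w D'' m') : m - ov w h = m' - ov w h' := by
  haveI := H.ess
  obtain ⟨ω, hω, hω'⟩ := exists_form H.trdeg D' R.jac_ne
  obtain ⟨η, hη, hη'⟩ := exists_form H.trdeg D'' R'.jac_ne
  obtain ⟨i, hi⟩ := R.smooth
  have h1 : (-1 : L) ^ (i : ℕ) * aeval x (pderiv i f) ≠ 0 :=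
    mul_ne_zero (pow_ne_zero _ (by norm_num)) hi
  have h2 := R.res i
  have h3 := R'.res i
  have hj : Q.jac D' (x ∘ i.succAbove) ≠ 0 := fun h0 => by
    rw [h0, mul_zero] at h2; exact h1 h2.symm
  have hj' : Q.jac D'' (x ∘ i.succAbove) ≠ 0 := fun h0 => by
    rw [h0, mul_zero] at h3; exact h1 h3.symm
  have h4 : η = (h' / h) • ω := by
    have e1 := hω' (x ∘ i.succAbove)
    have e2 := hη' (x ∘ i.succAbove)
    rw [e1] at e2
    have e3 : Q.jac D' (x ∘ i.succAbove) = (h' / h) * Q.jac D'' (x ∘ i.succAbove) := by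
      rw [div_mul_eq_mul_div, eq_div_iff R.h0, h3, ← h2, mul_comm]
    have e4 : Q.jac D'' (x ∘ i.succAbove) • η = Q.jac D'' (x ∘ i.succAbove) • ((h' / h) • ω) := by
      rw [← e2, smul_smul, e3, mul_comm]
    exact smul_right_injective _ hj' e4
  have h5 := formOrder_smul' hd H.trdeg.le (divisorial_iff.1 hw)
    ((formOrder_iff_jac hω hω').1 hm) (div_ne_zero R'.h0 R.h0)
  rw [← h4] at h5
  have h6 := formOrder_unique h5 ((formOrder_iff_jac hη hη').1 hm')
  rw [ov_div w R'.h0 R.h0] at h6
  omega

section Group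

variable {K : Type} [Field K] [Algebra ℂ K] [Algebra K L] [IsScalarTower ℂ K L]

theorem isAlgebraic_of_fix {G : Subgroup (L ≃ₐ[ℂ] L)} (hfin : Finite G)
    (hfix : ∀ g : L, g ∈ Set.range (algebraMap K L) ↔ ∀ τ ∈ G, τ g = g) :
    Algebra.IsAlgebraic K L := by
  classical
  haveI := hfin
  have : Fintype G := Fintype.ofFinite G
  constructor
  intro f
  let P : Polynomial L := ∏ τ : G, (Polynomial.X - Polynomial.C ((τ : L ≃ₐ[ℂ] L) f))
  have hP : ∀ n, P.coeff n ∈ Set.range (algebraMap K L) := by
    intro n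
    rw [hfix]
    intro σ hσ
    have h1 : P.map (σ : L →+* L) = P := by
      simp only [P]
      rw [Polynomial.map_prod]
      refine Fintype.prod_equiv (Equiv.mulLeft (⟨σ, hσ⟩ : G)) _ _ fun τ => ?_
      rw [Polynomial.map_sub, Polynomial.map_X, Polynomial.map_C]
      rfl
    have h2 := congrArg (fun p => Polynomial.coeff p n) h1
    simp only [Polynomial.coeff_map] at h2
    exact h2
  have hmon : P.Monic := Polynomial.monic_prod_of_monic _ _ fun τ _ => Polynomial.monic_X_sub_C _
  obtain ⟨Q, hQ1, -, hQ2⟩ := Polynomial.lifts_and_natDegree_eq_and_monic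
    ((Polynomial.lifts_iff_coeff_lifts P).2 hP) hmon
  refine ⟨Q, hQ2.ne_zero, ?_⟩
  rw [Polynomial.aeval_def, ← Polynomial.eval_map, hQ1]
  simp only [P]
  rw [Polynomial.eval_prod]
  refine Finset.prod_eq_zero (Finset.mem_univ (1 : G)) ?_
  simp

theorem HypData.finDim (H : HypData x f) (hK : Algebra.IsAlgebraic K L) :
    FiniteDimensional K L := by
  haveI := hK
  haveI := H.ess
  haveI : Algebra.EssFiniteType K L := Algebra.EssFiniteType.of_comp ℂ K L
  exact Algebra.finite_of_essFiniteType_of_isAlgebraic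

theorem HypData.trdegK (H : HypData x f) (hK : Algebra.IsAlgebraic K L) :
    Algebra.trdeg ℂ K = (d : ℕ) := by
  rw [gen_trdeg hK, H.trdeg]

theorem HypData.essK (H : HypData x f) (hK : Algebra.IsAlgebraic K L) :
    Algebra.EssFiniteType ℂ K := by
  haveI := hK
  haveI := H.ess
  exact essFiniteType_sub (L := L)

end Group

end Vale.Agent.P283.H647
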