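import Vale.Agent.P283.H647.Quot

/-!
The equation of the quotient of a hypersurface in invariant monomial coordinates.
-/

set_option linter.all false

namespace Vale.Agent.P283.H647

open MvPolynomial Finset

variable {N : ℕ} {K L : Type} [Field K] [Field L] [Algebra ℂ K] [Algebra ℂ L] [Algebra K L]
  [IsScalarTower ℂ K L]
variable {x : Fin N → L} {f : MvPolynomial (Fin N) ℂ} {G : Subgroup (L ≃ₐ[ℂ] L)}

/-- The coordinates `mm k` of a lattice basis. -/
noncomputable def vecs {M : AddSubgroup (Fin N → ℤ)}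
    (b : Module.Basis (Fin N) ℤ (AddSubgroup.toIntSubmodule M)) : Fin N → Fin N → ℤ :=
  fun k => (b k : Fin N → ℤ)

theorem vecs_indep {M : AddSubgroup (Fin N → ℤ)}
    (b : Module.Basis (Fin N) ℤ (AddSubgroup.toIntSubmodule M)) :
    LinearIndependent ℤ (vecs b) :=
  b.linearIndependent.map' (AddSubgroup.toIntSubmodule M).subtype (Submodule.ker_subtype _)

theorem vecs_mem {M : AddSubgroup (Fin N → ℤ)}
    (b : Module.Basis (Fin N) ℤ (AddSubgroup.toIntSubmodule M)) (k : Fin N) :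
    vecs b k ∈ M := (b k).2

open Classical in
/-- The coordinates of a vector of the lattice (and zero for other vectors). -/
noncomputable def rep {M : AddSubgroup (Fin N → ℤ)}
    (b : Module.Basis (Fin N) ℤ (AddSubgroup.toIntSubmodule M)) (u : Fin N → ℤ) : Fin N → ℤ :=
  if h : u ∈ M then fun k => b.repr ⟨u, h⟩ k else 0

theorem rep_spec {M : AddSubgroup (Fin N → ℤ)}
    (b : Module.Basis (Fin N) ℤ (AddSubgroup.toIntSubmodule M)) {u : Fin N → ℤ} (hu : u ∈ M)
    (j : Fin N) : u j = ∑ k, rep b u k * vecs b k j := by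
  have h1 := b.sum_repr ⟨u, hu⟩
  have h2 := congrArg Subtype.val h1
  have h3 := congrFun h2 j
  change _ = u j at h3
  rw [← h3]
  unfold rep
  rw [dif_pos hu]
  simp only [vecs, AddSubmonoidClass.coe_finset_sum, Finset.sum_apply]
  refine Finset.sum_congr rfl fun k _ => ?_
  rfl

/-- A Laurent monomial whose exponent is a combination of the basis vectors. -/
theorem monoT_comb {E : Type} [Field E] {x : Fin N → E} (hx : ∀ j, x j ≠ 0)
    (mm : Fin N → Fin N → ℤ) {s : Fin N → ℤ} (hs : 0 ≤ s) [Algebra ℂ E] :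
    aeval (fun k => monoT x (mm k)) (monomial (toE s) (1 : ℂ)) =
      monoT x (fun j => ∑ k, s k * mm k j) := by
  rw [aeval_monomial, Finsupp.prod_fintype _ _ (by simp), ← monoT_expo x hx, map_one, one_mul]
  congr 1
  funext j
  simp only [expo]
  exact Finset.sum_congr rfl fun k _ => by rw [toE_apply hs]

theorem monoT_cancel {E : Type} [Field E] {x : Fin N → E} (hx : ∀ j, x j ≠ 0)
    (mm : Fin N → Fin N → ℤ) (s σ : Fin N → ℤ) :
    monoT x (fun j => σ j - ∑ k, s k * mm k j) * monoT x (fun j => ∑ k, s k * mm k j) =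
      monoT x σ := by
  rw [← monoT_add hx]
  congr 1
  funext j
  simp

/-- Invariant polynomial functions in invariant coordinates. -/
theorem DiagData.to_y (H : DiagData K x f G)
    (b : Module.Basis (Fin N) ℤ (AddSubgroup.toIntSubmodule H.lat))
    (p : MvPolynomial (Fin N) ℂ) (hp : ∀ α ∈ p.support, (fun j => (α j : ℤ)) ∈ H.lat) :
    ∃ (t : Fin N →₀ ℕ) (Q : MvPolynomial (Fin N) ℂ),
      aeval x p * aeval (fun k => monoT x (vecs b k)) (monomial t (1 : ℂ)) =
        aeval (fun k => monoT x (vecs b k)) Q := by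
  obtain ⟨s, hs0, hs⟩ := exists_shift p.support (fun α => rep b (fun j => (α j : ℤ)))
  have h1 := exists_pull (vecs b) p 0 (fun α => rep b (fun j => (α j : ℤ)))
    (fun α hα j => by
      rw [Pi.zero_apply, zero_add]
      exact rep_spec b (hp α hα) j) s hs x H.x0
  refine ⟨toE s, ∑ α ∈ p.support, monomial (toE (s + rep b fun j => (α j : ℤ))) (p.coeff α), ?_⟩
  rw [h1, monoT_comb H.x0 (vecs b) hs0, mul_right_comm, monoT_cancel H.x0]
  have h2 : monoT x (0 : Fin N → ℤ) = 1 := monoT_zero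
  rw [h2, one_mul]

theorem aeval_map_y {y : Fin N → K} {yL : Fin N → L} (hy : ∀ k, algebraMap K L (y k) = yL k)
    (P : MvPolynomial (Fin N) ℂ) : algebraMap K L (aeval y P) = aeval yL P := by
  have h1 : yL = fun k => algebraMap K L (y k) := by funext k; exact (hy k).symm
  rw [h1, ← MvPolynomial.aeval_algebraMap_apply]
  rfl

theorem DiagData.gen_y (H : DiagData K x f G)
    (b : Module.Basis (Fin N) ℤ (AddSubgroup.toIntSubmodule H.lat)) {y : Fin N → K}
    (hy : ∀ k, algebraMap K L (y k) = monoT x (vecs b k)) (g : K) :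
    ∃ P Q : MvPolynomial (Fin N) ℂ, aeval y Q ≠ 0 ∧ g = aeval y P / aeval y Q := by
  obtain ⟨p, q, hq, hp1, hq1, hg⟩ := H.inv_frac g
  obtain ⟨t, P, hP⟩ := H.to_y b p hp1
  obtain ⟨t', Q, hQ⟩ := H.to_y b q hq1
  have hmon : ∀ t : Fin N →₀ ℕ, aeval (fun k => monoT x (vecs b k)) (monomial t (1 : ℂ)) ≠ 0 := by
    intro t
    rw [aeval_monomial, Finsupp.prod_fintype _ _ (by simp), map_one, one_mul]
    exact Finset.prod_ne_zero_iff.2 fun k _ => pow_ne_zero _ (monoT_ne_zero H.x0 _)
  have hQ0 : aeval (fun k => monoT x (vecs b k)) Q ≠ 0 := by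
    rw [← hQ]; exact mul_ne_zero hq (hmon t')
  refine ⟨P * monomial t' 1, Q * monomial t 1, ?_, ?_⟩
  · intro h0
    have h1 := congrArg (algebraMap K L) h0
    rw [aeval_map_y hy, map_zero, map_mul] at h1
    exact mul_ne_zero hQ0 (hmon t) h1
  · apply (algebraMap K L).injective
    rw [map_div₀, aeval_map_y hy, aeval_map_y hy, map_mul, map_mul, ← hP, ← hQ, hg]
    have h1 := hmon t
    have h2 := hmon t'
    field_simp

/-- The shift in the definition of the equation. -/
noncomputable def shf (f : MvPolynomial (Fin N) ℂ) (hf : f ≠ 0)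
    (n : (Fin N →₀ ℕ) → Fin N → ℤ) : Fin N → ℤ :=
  fun k => - (f.support.inf' (support_nonempty.2 hf) fun α => n α k)

theorem shf_nonneg {f : MvPolynomial (Fin N) ℂ} (hf : f ≠ 0) (n : (Fin N →₀ ℕ) → Fin N → ℤ) :
    ∀ α ∈ f.support, 0 ≤ shf f hf n + n α := by
  intro α hα k
  have h1 := Finset.inf'_le (fun α => n α k) hα
  simp only [Pi.zero_apply, Pi.add_apply, shf]
  have h2 : (f.support.inf' (support_nonempty.2 hf) fun α => n α k) ≤ n α k := h1
  omega

theorem shf_attained {f : MvPolynomial (Fin N) ℂ} (hf : f ≠ 0) (n : (Fin N →₀ ℕ) → Fin N → ℤ)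
    (k : Fin N) : ∃ α ∈ f.support, shf f hf n k + n α k = 0 := by
  obtain ⟨α, hα, h1⟩ := Finset.exists_mem_eq_inf' (support_nonempty.2 hf) fun α => n α k
  refine ⟨α, hα, ?_⟩
  simp only [shf]
  have h2 : (f.support.inf' (support_nonempty.2 hf) fun α => n α k) = n α k := h1
  omega

/-- The coordinates of the exponents of `f`. -/
noncomputable def DiagData.nf (H : DiagData K x f G)
    (b : Module.Basis (Fin N) ℤ (AddSubgroup.toIntSubmodule H.lat)) (α₀ : Fin N →₀ ℕ) :
    (Fin N →₀ ℕ) → Fin N → ℤ := fun α => rep b (fun j => (α j : ℤ) - α₀ j)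

/-- The equation of the quotient. -/
noncomputable def DiagData.eqY (H : DiagData K x f G)
    (b : Module.Basis (Fin N) ℤ (AddSubgroup.toIntSubmodule H.lat)) (α₀ : Fin N →₀ ℕ) :
    MvPolynomial (Fin N) ℂ :=
  ∑ α ∈ f.support, monomial (toE (shf f H.f0 (H.nf b α₀) + H.nf b α₀ α)) (f.coeff α)

theorem DiagData.nf_spec (H : DiagData K x f G)
    (b : Module.Basis (Fin N) ℤ (AddSubgroup.toIntSubmodule H.lat)) {α₀ : Fin N →₀ ℕ}
    (hα₀ : α₀ ∈ f.support) {α : Fin N →₀ ℕ} (hα : α ∈ f.support) (j : Fin N) :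
    (α j : ℤ) = α₀ j + ∑ k, H.nf b α₀ α k * vecs b k j := by
  have h1 := rep_spec b (H.class_f hα hα₀) j
  simp only [DiagData.nf]
  rw [← h1]; ring

theorem DiagData.nf_inj (H : DiagData K x f G)
    (b : Module.Basis (Fin N) ℤ (AddSubgroup.toIntSubmodule H.lat)) {α₀ : Fin N →₀ ℕ}
    (hα₀ : α₀ ∈ f.support) {α β : Fin N →₀ ℕ} (hα : α ∈ f.support) (hβ : β ∈ f.support)
    (h : H.nf b α₀ α = H.nf b α₀ β) : α = β := by
  ext j
  have h1 := H.nf_spec b hα₀ hα j
  have h2 := H.nf_spec b hα₀ hβ j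
  rw [h] at h1
  omega

theorem DiagData.coeff_eqY (H : DiagData K x f G)
    (b : Module.Basis (Fin N) ℤ (AddSubgroup.toIntSubmodule H.lat)) {α₀ : Fin N →₀ ℕ}
    (hα₀ : α₀ ∈ f.support) {α : Fin N →₀ ℕ} (hα : α ∈ f.support) :
    (H.eqY b α₀).coeff (toE (shf f H.f0 (H.nf b α₀) + H.nf b α₀ α)) = f.coeff α := by
  classical
  unfold DiagData.eqY
  rw [coeff_sum, Finset.sum_eq_single_of_mem α hα]
  · rw [coeff_monomial, if_pos rfl]
  · intro β hβ hne
    rw [coeff_monomial, if_neg]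
    intro h
    apply hne
    have h1 := toE_inj (shf_nonneg H.f0 (H.nf b α₀) β hβ) (shf_nonneg H.f0 (H.nf b α₀) α hα) h
    exact H.nf_inj b hα₀ hβ hα (add_left_cancel h1)

theorem DiagData.mem_eqY (H : DiagData K x f G)
    (b : Module.Basis (Fin N) ℤ (AddSubgroup.toIntSubmodule H.lat)) (α₀ : Fin N →₀ ℕ)
    {n : Fin N →₀ ℕ} (hn : n ∈ (H.eqY b α₀).support) :
    ∃ α ∈ f.support, n = toE (shf f H.f0 (H.nf b α₀) + H.nf b α₀ α) := by
  classical
  by_contra hno
  push Not at hno
  apply mem_support_iff.1 hn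
  unfold DiagData.eqY
  rw [coeff_sum]
  refine Finset.sum_eq_zero fun α hα => ?_
  rw [coeff_monomial, if_neg]
  exact fun h => hno α hα h.symm

/-- The exponent of the monomial factor between `f` and its equation in the coordinates. -/
noncomputable def DiagData.tauY (H : DiagData K x f G)
    (b : Module.Basis (Fin N) ℤ (AddSubgroup.toIntSubmodule H.lat)) (α₀ : Fin N →₀ ℕ) :
    Fin N → ℤ := fun j => (α₀ j : ℤ) - ∑ k, shf f H.f0 (H.nf b α₀) k * vecs b k j

theorem DiagData.f_eq (H : DiagData K x f G)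
    (b : Module.Basis (Fin N) ℤ (AddSubgroup.toIntSubmodule H.lat)) {α₀ : Fin N →₀ ℕ}
    (hα₀ : α₀ ∈ f.support) {E : Type} [Field E] [Algebra ℂ E] (x' : Fin N → E)
    (hx' : ∀ j, x' j ≠ 0) :
    aeval x' f = monoT x' (H.tauY b α₀) * aeval (fun k => monoT x' (vecs b k)) (H.eqY b α₀) :=
  exists_pull (vecs b) f (fun j => (α₀ j : ℤ)) (H.nf b α₀)
    (fun α hα j => H.nf_spec b hα₀ hα j) _ (shf_nonneg H.f0 _) x' hx'

theorem DiagData.not_X_dvd (H : DiagData K x f G)
    (b : Module.Basis (Fin N) ℤ (AddSubgroup.toIntSubmodule H.lat)) {α₀ : Fin N →₀ ℕ}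
    (hα₀ : α₀ ∈ f.support) (k : Fin N) : ¬ X k ∣ H.eqY b α₀ := by
  classical
  rintro ⟨g, hg⟩
  obtain ⟨α, hα, h1⟩ := shf_attained H.f0 (H.nf b α₀) k
  have h2 := H.coeff_eqY b hα₀ hα
  rw [hg, coeff_X_mul', if_neg] at h2
  · exact mem_support_iff.1 hα h2.symm
  · rw [Finsupp.mem_support_iff, not_not]
    have h3 := toE_apply (shf_nonneg H.f0 (H.nf b α₀) α hα) k
    rw [Pi.add_apply, h1] at h3
    exact_mod_cast h3

/-- The kernel of the evaluation in the coordinates of the quotient. -/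
theorem DiagData.ker_y (H : DiagData K x f G)
    (b : Module.Basis (Fin N) ℤ (AddSubgroup.toIntSubmodule H.lat)) {α₀ : Fin N →₀ ℕ}
    (hα₀ : α₀ ∈ f.support) {y : Fin N → K}
    (hy : ∀ k, algebraMap K L (y k) = monoT x (vecs b k)) (P : MvPolynomial (Fin N) ℂ)
    (hP : aeval y P = 0) : H.eqY b α₀ ∣ P := by
  classical
  have hPL : aeval (fun k => monoT x (vecs b k)) P = 0 := by
    rw [← aeval_map_y hy, hP, map_zero]
  obtain ⟨T, -, hT⟩ := exists_shift P.support (fun n => expo (vecs b) n)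
  have h1 : aeval x (push (vecs b) T P) = 0 := by
    rw [aeval_push x H.x0 (vecs b) T P hT, hPL, mul_zero]
  obtain ⟨g, hg⟩ := (H.ker _).1 h1
  obtain ⟨g', hg', hg'c⟩ := class_factor H.lat f g _ hg (fun j => (α₀ j : ℤ)) T
    (fun α hα => H.class_f hα hα₀) (by
      intro α hα
      obtain ⟨n, hn, rfl⟩ : ∃ n ∈ P.support, α = toE (T + expo (vecs b) n) := by
        by_contra hno
        push Not at hno
        apply mem_support_iff.1 hα
        unfold push
        rw [coeff_sum]
        refine Finset.sum_eq_zero fun n hn => ?_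
        rw [coeff_monomial, if_neg]
        exact fun h => hno n hn h.symm
      have h2 : (fun j => ((toE (T + expo (vecs b) n) j : ℕ) : ℤ) - T j) =
          ∑ k, (n k : ℤ) • vecs b k := by
        funext j
        rw [toE_apply (hT n hn)]
        simp only [Pi.add_apply, expo, Finset.sum_apply, Pi.smul_apply, smul_eq_mul]
        ring
      rw [h2]
      exact sum_mem fun k _ => H.lat.zsmul_mem (vecs_mem b k) _)
  let σ : Fin N → ℤ := fun j => T j - α₀ j
  obtain ⟨s₁, hs₁0, hs₁⟩ := exists_shift g'.support (fun β => rep b (fun j => (β j : ℤ) - σ j))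
  obtain ⟨s₂, hs₂0, hs₂⟩ := exists_shift ({()} : Finset Unit)
    (fun _ => shf f H.f0 (H.nf b α₀))
  let s : Fin N → ℤ := s₁ + s₂
  have hs : ∀ β ∈ g'.support, 0 ≤ s + rep b (fun j => (β j : ℤ) - σ j) := by
    intro β hβ
    have h2 := add_nonneg hs₂0 (hs₁ β hβ)
    have h3 : s + rep b (fun j => (β j : ℤ) - σ j) =
      s₂ + (s₁ + rep b (fun j => (β j : ℤ) - σ j)) := by simp only [s]; abel
    rw [h3]; exact h2
  have ht : 0 ≤ s + shf f H.f0 (H.nf b α₀) := by
    have h2 := add_nonneg hs₁0 (hs₂ () (Finset.mem_singleton_self _))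
    have h3 : s + shf f H.f0 (H.nf b α₀) = s₁ + (s₂ + shf f H.f0 (H.nf b α₀)) := by
      simp only [s]; abel
    rw [h3]; exact h2
  -- in the fraction field
  let 𝕂 := FractionRing (MvPolynomial (Fin N) ℂ)
  let x' : Fin N → 𝕂 := fun j => algebraMap (MvPolynomial (Fin N) ℂ) 𝕂 (X j)
  have hx' : ∀ j, x' j ≠ 0 := fun j => by
    simp only [x']
    rw [Ne, IsFractionRing.to_map_eq_zero_iff]
    exact X_ne_zero j
  have hev : ∀ p : MvPolynomial (Fin N) ℂ, aeval x' p = algebraMap _ 𝕂 p := by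
    intro p
    have h2 : x' = (algebraMap (MvPolynomial (Fin N) ℂ) 𝕂) ∘ X := rfl
    rw [h2, MvPolynomial.aeval_algebraMap_apply (R := ℂ) (A := MvPolynomial (Fin N) ℂ) 𝕂 X p,
      aeval_X_left_apply]
  have e1 := aeval_push x' hx' (vecs b) T P hT
  have e2 := H.f_eq b hα₀ x' hx'
  have e3 := exists_pull (vecs b) g' σ (fun β => rep b (fun j => (β j : ℤ) - σ j))
    (fun β hβ j => by
      have h2 := rep_spec b (hg'c β hβ) j
      have h3 : (fun j => (β j : ℤ) - (T j - α₀ j)) = fun j => (β j : ℤ) - σ j := rfl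
      rw [h3] at h2
      rw [← h2]; ring) s hs x' hx'
  set Q : MvPolynomial (Fin N) ℂ := ∑ β ∈ g'.support,
    monomial (toE (s + rep b (fun j => (β j : ℤ) - σ j))) (g'.coeff β) with hQ
  have e4 : aeval x' (push (vecs b) T P) = aeval x' f * aeval x' g' := by
    rw [hg', map_mul]
  have e5 := monoT_comb hx' (vecs b) ht
  set F := H.eqY b α₀ with hF
  have e6 : aeval (fun k => monoT x' (vecs b k)) (monomial (toE (s + shf f H.f0 (H.nf b α₀))) 1 * P) =
      aeval (fun k => monoT x' (vecs b k)) (F * Q) := by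
    rw [map_mul, map_mul, e5]
    rw [e1, e2, e3] at e4
    have e7 : monoT x' T ≠ 0 := monoT_ne_zero hx' _
    apply mul_left_cancel₀ e7
    have e8 : monoT x' T * (monoT x' (fun j => ∑ k, (s + shf f H.f0 (H.nf b α₀)) k * vecs b k j) *
        aeval (fun k => monoT x' (vecs b k)) P) =
        monoT x' (fun j => ∑ k, (s + shf f H.f0 (H.nf b α₀)) k * vecs b k j) *
        (monoT x' T * aeval (fun k => monoT x' (vecs b k)) P) := by ring
    rw [e8, e4]
    have e9 : monoT x' (fun j => ∑ k, (s + shf f H.f0 (H.nf b α₀)) k * vecs b k j) *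
        (monoT x' (H.tauY b α₀) * monoT x' (fun j => σ j - ∑ k, s k * vecs b k j)) =
        monoT x' T := by
      rw [← monoT_add hx', ← monoT_add hx']
      congr 1
      funext j
      simp only [Pi.add_apply, DiagData.tauY, σ, add_mul, Finset.sum_add_distrib]
      ring
    rw [← e9]; ring
  have hinj : ∀ R : MvPolynomial (Fin N) ℂ, aeval (fun k => monoT x' (vecs b k)) R = 0 →
      R = 0 := by
    intro R hR
    by_contra hne
    obtain ⟨T', -, hT'⟩ := exists_shift R.support (fun n => expo (vecs b) n)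
    have h2 := push_ne_zero (vecs b) (vecs_indep b) T' R hT' hne
    apply h2
    have h3 := aeval_push x' hx' (vecs b) T' R hT'
    rw [hR, mul_zero, hev] at h3
    exact (IsFractionRing.to_map_eq_zero_iff).1 h3
  have e7 : monomial (toE (s + shf f H.f0 (H.nf b α₀))) 1 * P = F * Q := by
    rw [← sub_eq_zero]
    apply hinj
    rw [map_sub, e6, sub_self]
  have e8 : F ∣ monomial (toE (s + shf f H.f0 (H.nf b α₀))) 1 * P := ⟨Q, e7⟩
  rw [dvd_monomial_mul_iff_exists] at e8
  obtain ⟨m, R, -, hR, hFm⟩ := e8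
  have hm : m = 0 := by
    by_contra hne
    obtain ⟨k, hk⟩ : ∃ k, m k ≠ 0 := by
      by_contra hno
      push Not at hno
      exact hne (Finsupp.ext hno)
    apply H.not_X_dvd b hα₀ k
    rw [← hF, hFm]
    refine dvd_mul_of_dvd_left ?_ _
    rw [X_dvd_monomial]
    exact Or.inr hk
  rw [hm] at hFm
  have : (monomial (0 : Fin N →₀ ℕ) (1 : ℂ)) = 1 := rfl
  rw [this, one_mul] at hFm
  rw [hFm]; exact hR

end Vale.Agent.P283.H647
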