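import Vale.Agent.P283.H647.Lim2

/-!
The compactness theorem for all faces of the orthant at once.
-/

set_option linter.all false

namespace Vale.Agent.P283.H647

open Finset

/-- Restriction of integral vectors to a subset of the coordinates. -/
def resZ {N : ℕ} (J : Finset (Fin N)) : (Fin N → ℤ) →+ (J → ℤ) where
  toFun m j := m j
  map_zero' := rfl
  map_add' _ _ := rfl

theorem sum_face {N : ℕ} (J : Finset (Fin N)) (a : Fin N → ℝ) (ha : ∀ j, j ∉ J → a j = 0)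
    (g : Fin N → ℝ) : ∑ j, a j * g j = ∑ j : J, a j * g j := by
  rw [Finset.sum_coe_sort J (fun j => a j * g j)]
  exact (Finset.sum_subset (Finset.subset_univ J) fun j _ hj => by rw [ha j hj, zero_mul]).symm

/-- One face. -/
theorem cvx_face {N : ℕ} (q : ℕ) (hq : 0 < q) (κ : Fin N → ℕ) {ε : ℝ} (hε : 0 < ε)
    (J : Finset (Fin N)) : ∃ k₀ : ℕ, 0 < k₀ ∧
      ∀ (S : Finset (Fin N → ℕ)) (M : AddSubgroup (Fin N → ℤ)) (r : ℕ), 0 < r →
      (∀ u : Fin N → ℤ, (r : ℤ) • u ∈ M) →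
      (∀ α ∈ S, ∀ β ∈ S, (fun j => (α j : ℤ) - β j) ∈ M) →
      (∀ a : Fin N → ℝ, (∀ j ∈ J, 0 < a j) → (∀ j, j ∉ J → a j = 0) →
        (∀ m ∈ M, ∃ z : ℤ, ∑ j, a j * m j = z) → ∃ α ∈ S, q * ε ≤ val q κ α a) →
      ∀ k : ℕ, k₀ ∣ k → 0 < k → ∃ E : Finset (Fin N → ℕ),
        (∀ e ∈ E, ∀ α ∈ S, (fun j => (e j : ℤ) - k * κ j + k * (q * α j)) ∈ M) ∧
        ∀ a : Fin N → ℝ, (∀ j ∈ J, 0 < a j) → (∀ j, j ∉ J → a j = 0) → ∃ e ∈ E, ∃ α ∈ S,
          ∑ j, (e j : ℝ) * a j < k * val q κ α a := by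
  classical
  obtain ⟨k₀, hk₀, hmain⟩ := cvx_fixed (ι := J) q hq (fun j => κ j) hε
  refine ⟨k₀, hk₀, fun S M r hr hmod hSM hh k hk hkpos => ?_⟩
  have hval : ∀ (α : Fin N → ℕ) (a : Fin N → ℝ), (∀ j, j ∉ J → a j = 0) →
      val q κ α a = val q (fun j : J => κ j) (fun j : J => α j) (fun j : J => a j) := by
    intro α a ha
    unfold val
    exact sum_face J a ha fun j => (κ j : ℝ) - q * α j
  let ext : (J → ℝ) → Fin N → ℝ := fun a j => if h : j ∈ J then a ⟨j, h⟩ else 0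
  have ext0 : ∀ a j, j ∉ J → ext a j = 0 := fun a j hj => by simp [ext, hj]
  have ext1 : ∀ (a : J → ℝ) (j : J), ext a j = a j := fun a j => by simp [ext]
  obtain ⟨E₀, hE₀1, hE₀2⟩ := hmain (S.image fun α (j : J) => α j) (M.map (resZ J)) r hr (by
    intro u
    refine ⟨(r : ℤ) • (fun j => if h : j ∈ J then u ⟨j, h⟩ else 0), hmod _, ?_⟩
    ext j
    simp [resZ]) (by
    intro α hα β hβ
    obtain ⟨α', hα', rfl⟩ := Finset.mem_image.1 hα
    obtain ⟨β', hβ', rfl⟩ := Finset.mem_image.1 hβ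
    exact ⟨_, hSM α' hα' β' hβ', rfl⟩) (by
    intro a ha hM
    obtain ⟨α, hα, hα'⟩ := hh (ext a) (fun j hj => by
        have := ext1 a ⟨j, hj⟩
        simp only at this
        rw [this]; exact ha _) (ext0 a) (by
      intro m hm
      obtain ⟨z, hz⟩ := hM (resZ J m) ⟨m, hm, rfl⟩
      refine ⟨z, ?_⟩
      rw [← hz, sum_face J (ext a) (ext0 a) (fun j => (m j : ℝ))]
      exact Finset.sum_congr rfl fun j _ => by rw [ext1]; rfl)
    refine ⟨fun j => α j, Finset.mem_image_of_mem _ hα, ?_⟩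
    rw [hval α (ext a) (ext0 a)] at hα'
    have : (fun j : J => ext a j) = a := by funext j; exact ext1 a j
    rwa [this] at hα') k hk hkpos
  rcases S.eq_empty_or_nonempty with hS | ⟨α₁, hα₁⟩
  · -- impossible when some weight exists
    refine ⟨∅, by simp, fun a ha ha0 => ?_⟩
    obtain ⟨e, -, α, hα, -⟩ := hE₀2 (fun j : J => a j) (fun j => ha j j.2)
    rw [hS] at hα
    simp at hα
  -- lifting one exponent
  have hlift : ∀ e₀ ∈ E₀, ∃ e : Fin N → ℕ, (∀ j : J, e j = e₀ j) ∧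
      (fun j => (e j : ℤ) - k * κ j + k * (q * α₁ j)) ∈ M := by
    intro e₀ he₀
    obtain ⟨m, hm, hm'⟩ := hE₀1 e₀ he₀ (fun j => α₁ j) (Finset.mem_image_of_mem _ hα₁)
    let w : Fin N → ℤ := fun j => m j + k * κ j - k * (q * α₁ j)
    have hw : ∀ j : J, w j = e₀ j := by
      intro j
      have := congrFun hm' j
      simp only [resZ, AddMonoidHom.coe_mk, ZeroHom.coe_mk] at this
      simp only [w, this]; ring
    let T : ℤ := ∑ j, |w j|
    have hT : ∀ j, |w j| ≤ T := fun j =>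
      Finset.single_le_sum (f := fun j => |w j|) (fun j _ => abs_nonneg _) (Finset.mem_univ j)
    let w' : Fin N → ℤ := fun j => w j + r * (if j ∈ J then 0 else T)
    have hw'0 : ∀ j, 0 ≤ w' j := by
      intro j
      by_cases hj : j ∈ J
      · have := hw ⟨j, hj⟩
        simp only at this
        simp only [w', hj, if_true, mul_zero, add_zero, this]
        positivity
      · simp only [w', hj, if_false]
        have h1 := hT j
        have h2 := neg_abs_le (w j)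
        have h3 : (1 : ℤ) ≤ r := by exact_mod_cast hr
        have h4 : 0 ≤ T := le_trans (abs_nonneg _) h1
        nlinarith
    refine ⟨fun j => (w' j).toNat, fun j => ?_, ?_⟩
    · have h1 : w' j = e₀ j := by
        simp only [w', j.2, if_true, mul_zero, add_zero]; exact hw j
      show (w' j).toNat = e₀ j
      rw [h1]; simp
    · have h2 : (fun j => (((w' j).toNat : ℕ) : ℤ) - k * κ j + k * (q * α₁ j)) =
          m + (r : ℤ) • (fun j => if j ∈ J then 0 else T) := by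
        funext j
        rw [Int.toNat_of_nonneg (hw'0 j)]
        simp only [w', w, Pi.add_apply, Pi.smul_apply, smul_eq_mul]
        ring
      rw [h2]
      exact M.add_mem hm (hmod _)
  choose! lft hlft1 hlft2 using hlift
  refine ⟨E₀.image lft, fun e he α hα => ?_, fun a ha ha0 => ?_⟩
  · obtain ⟨e₀, he₀, rfl⟩ := Finset.mem_image.1 he
    have h1 := M.add_mem (hlft2 e₀ he₀) (M.zsmul_mem (hSM α hα α₁ hα₁) ((k : ℤ) * q))
    have h2 : (fun j => ((lft e₀ j : ℕ) : ℤ) - k * κ j + k * (q * α j)) =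
        (fun j => ((lft e₀ j : ℕ) : ℤ) - k * κ j + k * (q * α₁ j)) +
        ((k : ℤ) * q) • (fun j => (α j : ℤ) - α₁ j) := by
      funext j
      simp only [Pi.add_apply, Pi.smul_apply, smul_eq_mul]; ring
    rw [h2]; exact h1
  · obtain ⟨e₀, he₀, α, hα, hlt⟩ := hE₀2 (fun j : J => a j) (fun j => ha j j.2)
    obtain ⟨α', hα', rfl⟩ := Finset.mem_image.1 hα
    refine ⟨lft e₀, Finset.mem_image_of_mem _ he₀, α', hα', ?_⟩
    rw [hval α' a ha0]
    refine lt_of_eq_of_lt ?_ hlt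
    have h1 : ∑ j, (lft e₀ j : ℝ) * a j = ∑ j, a j * (lft e₀ j : ℝ) :=
      Finset.sum_congr rfl fun j _ => mul_comm _ _
    rw [h1, sum_face J a ha0 (fun j => (lft e₀ j : ℝ))]
    exact Finset.sum_congr rfl fun j _ => by rw [hlft1 e₀ he₀ j, mul_comm]

/-- All faces and all boundary coefficients with denominator `q`. -/
theorem cvx_main (N q : ℕ) (hq : 0 < q) {ε : ℝ} (hε : 0 < ε) : ∃ k₀ : ℕ, 0 < k₀ ∧
      ∀ (κ : Fin N → ℕ), (∀ j, κ j ≤ q) →
      ∀ (S : Finset (Fin N → ℕ)) (M : AddSubgroup (Fin N → ℤ)) (r : ℕ), 0 < r →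
      (∀ u : Fin N → ℤ, (r : ℤ) • u ∈ M) →
      (∀ α ∈ S, ∀ β ∈ S, (fun j => (α j : ℤ) - β j) ∈ M) →
      ∀ k : ℕ, k₀ ∣ k → 0 < k → ∃ E : Finset (Fin N → ℕ), E.Nonempty ∧
        (∀ e ∈ E, ∀ α ∈ S, (fun j => (e j : ℤ) - k * κ j + k * (q * α j)) ∈ M) ∧
        ∀ J : Finset (Fin N),
          (∀ a : Fin N → ℝ, (∀ j ∈ J, 0 < a j) → (∀ j, j ∉ J → a j = 0) →
            (∀ m ∈ M, ∃ z : ℤ, ∑ j, a j * m j = z) → ∃ α ∈ S, q * ε ≤ val q κ α a) →
          ∀ a : Fin N → ℝ, (∀ j ∈ J, 0 < a j) → (∀ j, j ∉ J → a j = 0) → ∃ e ∈ E, ∃ α ∈ S,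
            ∑ j, (e j : ℝ) * a j < k * val q κ α a := by
  classical
  choose k₀ hk₀ hmain using fun (κJ : (Fin N → Fin (q + 1)) × Finset (Fin N)) =>
    cvx_face q hq (fun j => (κJ.1 j : ℕ)) hε κJ.2
  refine ⟨∏ x, k₀ x, Finset.prod_pos fun x _ => hk₀ x,
    fun κ hκ S M r hr hmod hSM k hk hkpos => ?_⟩
  let κ' : Fin N → Fin (q + 1) := fun j => ⟨κ j, Nat.lt_succ_of_le (hκ j)⟩
  have hJ : ∀ J : Finset (Fin N), ∃ E : Finset (Fin N → ℕ),
        (∀ e ∈ E, ∀ α ∈ S, (fun j => (e j : ℤ) - k * κ j + k * (q * α j)) ∈ M) ∧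
        ((∀ a : Fin N → ℝ, (∀ j ∈ J, 0 < a j) → (∀ j, j ∉ J → a j = 0) →
            (∀ m ∈ M, ∃ z : ℤ, ∑ j, a j * m j = z) → ∃ α ∈ S, q * ε ≤ val q κ α a) →
          ∀ a : Fin N → ℝ, (∀ j ∈ J, 0 < a j) → (∀ j, j ∉ J → a j = 0) → ∃ e ∈ E, ∃ α ∈ S,
            ∑ j, (e j : ℝ) * a j < k * val q κ α a) := by
    intro J
    by_cases hh : ∀ a : Fin N → ℝ, (∀ j ∈ J, 0 < a j) → (∀ j, j ∉ J → a j = 0) →
            (∀ m ∈ M, ∃ z : ℤ, ∑ j, a j * m j = z) → ∃ α ∈ S, q * ε ≤ val q κ α a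
    · obtain ⟨E, h1, h2⟩ := hmain (κ', J) S M r hr hmod hSM hh k
        (dvd_trans (Finset.dvd_prod_of_mem k₀ (Finset.mem_univ _)) hk) hkpos
      exact ⟨E, h1, fun _ => h2⟩
    · exact ⟨∅, by simp, fun h => absurd h hh⟩
  choose E hE1 hE2 using hJ
  -- one more exponent
  obtain ⟨e₀, he₀⟩ : ∃ e₀ : Fin N → ℕ, ∀ α ∈ S,
      (fun j => (e₀ j : ℤ) - k * κ j + k * (q * α j)) ∈ M := by
    rcases S.eq_empty_or_nonempty with hS | ⟨α₁, hα₁⟩
    · exact ⟨0, by simp [hS]⟩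
    let w : Fin N → ℤ := fun j => k * κ j - k * (q * α₁ j)
    let T : ℤ := ∑ j, |w j|
    have hT : ∀ j, |w j| ≤ T := fun j =>
      Finset.single_le_sum (f := fun j => |w j|) (fun j _ => abs_nonneg _) (Finset.mem_univ j)
    have h0 : ∀ j, 0 ≤ w j + r * T := by
      intro j
      have h1 := hT j
      have h2 := neg_abs_le (w j)
      have h3 : (1 : ℤ) ≤ r := by exact_mod_cast hr
      have h4 : 0 ≤ T := le_trans (abs_nonneg _) h1
      nlinarith
    refine ⟨fun j => (w j + r * T).toNat, fun α hα => ?_⟩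
    have h2 : (fun j => (((w j + r * T).toNat : ℕ) : ℤ) - k * κ j + k * (q * α j)) =
        (r : ℤ) • (fun _ => T) + ((k : ℤ) * q) • (fun j => (α j : ℤ) - α₁ j) := by
      funext j
      rw [Int.toNat_of_nonneg (h0 j)]
      simp only [w, Pi.add_apply, Pi.smul_apply, smul_eq_mul]
      ring
    rw [h2]
    exact M.add_mem (hmod _) (M.zsmul_mem (hSM α hα α₁ hα₁) _)
  refine ⟨insert e₀ (Finset.univ.biUnion E), ⟨e₀, Finset.mem_insert_self _ _⟩,
    fun e he α hα => ?_, fun J hJ a ha ha0 => ?_⟩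
  · rcases Finset.mem_insert.1 he with rfl | he
    · exact he₀ α hα
    · obtain ⟨J, -, hJ⟩ := Finset.mem_biUnion.1 he
      exact hE1 J e hJ α hα
  · obtain ⟨e, he, α, hα, hlt⟩ := hE2 J hJ a ha ha0
    exact ⟨e, Finset.mem_insert_of_mem (Finset.mem_biUnion.2 ⟨J, Finset.mem_univ _, he⟩), α, hα, hlt⟩

end Vale.Agent.P283.H647
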