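import Mathlib
import Vale.Agent.P283.Bdl.B1

/-!
Discrete valuations from a prime whose localization has a principal maximal ideal.
-/

set_option linter.all false

namespace Vale.Agent.P283.H647

open WithZero

theorem dvr_val {K S : Type} [Field K] [CommRing S] [IsDomain S] [Algebra S K]
    [IsFractionRing S K] [IsNoetherianRing S] (P : Ideal S) [hPp : P.IsPrime] (t : S) (htP : t ∈ P)
    (ht0 : t ≠ 0) (hloc : ∀ p ∈ P, ∃ c, c ∉ P ∧ ∃ s : S, c * p = t * s) :
    ∃ v : AddValuation K (WithTop ℤ), v (algebraMap S K t) = 1 ∧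
      (∀ s : S, 0 ≤ v (algebraMap S K s)) ∧ ∀ s : S, 0 < v (algebraMap S K s) ↔ s ∈ P := by
  classical
  let O := Localization.subalgebra.ofField K P.primeCompl P.primeCompl_le_nonZeroDivisors
  haveI hL : IsLocalization.AtPrime O P :=
    Localization.subalgebra.isLocalization_ofField K P.primeCompl _
  haveI hO1 : IsLocalRing O := IsLocalization.AtPrime.isLocalRing O P
  haveI hO2 : IsNoetherianRing O := IsLocalization.isNoetherianRing P.primeCompl O inferInstance
  haveI hO3 : IsDomain O := inferInstance
  haveI hO4 : IsFractionRing O K := inferInstance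
  have hinj : Function.Injective (algebraMap S O) := IsLocalization.injective O
    P.primeCompl_le_nonZeroDivisors
  have htO : algebraMap S O t ≠ 0 := fun h => ht0 (hinj (by rw [h, map_zero]))
  have hmem : ∀ s : S, algebraMap S O s ∈ IsLocalRing.maximalIdeal O ↔ s ∈ P := fun s =>
    IsLocalization.AtPrime.to_map_mem_maximal_iff O P s
  have hmap : IsLocalRing.maximalIdeal O = Ideal.span {algebraMap S O t} := by
    apply le_antisymm
    · intro z hz
      obtain ⟨p, c, rfl⟩ := IsLocalization.exists_mk'_eq P.primeCompl z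
      have hp : p ∈ P := (IsLocalization.AtPrime.mk'_mem_maximal_iff O P p c).1 hz
      obtain ⟨c', hc', s, hs⟩ := hloc p hp
      rw [Ideal.mem_span_singleton]
      refine ⟨IsLocalization.mk' O s (c * ⟨c', hc'⟩), ?_⟩
      rw [← IsLocalization.mk'_one (M := P.primeCompl) O t, ← IsLocalization.mk'_mul, one_mul,
        IsLocalization.mk'_eq_iff_eq, ← hs]
      congr 1
      simp only [Submonoid.coe_mul]
      ring
    · rw [Ideal.span_le, Set.singleton_subset_iff]
      exact (hmem t).2 htP
  have hnf : ¬ IsField O := by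
    intro h
    have h1 := IsLocalRing.isField_iff_maximalIdeal_eq.1 h
    have h2 : algebraMap S O t ∈ IsLocalRing.maximalIdeal O := (hmem t).2 htP
    rw [h1] at h2
    exact htO ((Submodule.mem_bot O).1 h2)
  have hprin : (IsLocalRing.maximalIdeal O).IsPrincipal := ⟨⟨algebraMap S O t, hmap⟩⟩
  haveI hdvr : IsDiscreteValuationRing O :=
    ((IsDiscreteValuationRing.TFAE O hnf).out 0 4).2 hprin
  let Q : IsDedekindDomain.HeightOneSpectrum O :=
    ⟨IsLocalRing.maximalIdeal O, inferInstance, fun h => hnf
      (IsLocalRing.isField_iff_maximalIdeal_eq.2 h)⟩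
  have hval : ∀ s : S, algebraMap S K s = algebraMap O K (algebraMap S O s) :=
    fun s => IsScalarTower.algebraMap_apply S O K s
  let w := addOf (Q.valuation K)
  refine ⟨w, ?_, ?_, ?_⟩
  · have h1 : Q.valuation K (algebraMap S K t) = exp (-1 : ℤ) := by
      rw [hval, Q.valuation_of_algebraMap]
      exact Q.intValuation_singleton htO hmap
    have h2 : algebraMap S K t ≠ 0 := by
      intro h
      exact ht0 ((IsFractionRing.injective S K) (by rw [h, map_zero]))
    rw [addOf_apply _ h2, h1, log_exp]; rfl
  · intro s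
    by_cases h0 : algebraMap S K s = 0
    · rw [h0, AddValuation.map_zero]; exact le_top
    rw [addOf_apply _ h0]
    have h1 : Q.valuation K (algebraMap S K s) ≤ 1 := by
      rw [hval]; exact Q.valuation_le_one _
    have h2 : Q.valuation K (algebraMap S K s) ≠ 0 := (Valuation.ne_zero_iff _).mpr h0
    have h3 : log (Q.valuation K (algebraMap S K s)) ≤ log (1 : ℤᵐ⁰) :=
      (log_le_log h2 one_ne_zero).mpr h1
    rw [log_one] at h3
    exact_mod_cast (by omega : (0 : ℤ) ≤ -(log (Q.valuation K (algebraMap S K s))))
  · intro s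
    by_cases h0 : algebraMap S K s = 0
    · have h1 : s = 0 := (IsFractionRing.injective S K) (by rw [h0, map_zero])
      rw [h0, AddValuation.map_zero, h1]
      exact ⟨fun _ => P.zero_mem, fun _ => WithTop.coe_lt_top 0⟩
    rw [addOf_apply _ h0]
    have h2 : Q.valuation K (algebraMap S K s) ≠ 0 := (Valuation.ne_zero_iff _).mpr h0
    have h4 : Q.valuation K (algebraMap S K s) < 1 ↔ s ∈ P := by
      rw [hval, Q.valuation_lt_one_iff_mem]
      exact hmem s
    rw [← h4, ← log_lt_log h2 one_ne_zero, log_one]
    constructor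
    · intro h
      have : (0 : ℤ) < -(log (Q.valuation K (algebraMap S K s))) := by exact_mod_cast h
      omega
    · intro h
      exact_mod_cast (by omega : (0 : ℤ) < -(log (Q.valuation K (algebraMap S K s))))

end Vale.Agent.P283.H647
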