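import Mathlib

/-!
Linear inequalities: Farkas lemma by elimination of variables, and an integral version.
-/

set_option linter.all false

namespace Vale.Agent.P283.H647

open Finset

/-- Between finitely many lower and upper bounds. -/
theorem exists_between_finite {P N : Type} [Finite P] [Finite N] (U : P → ℝ) (L : N → ℝ)
    (h : ∀ p n, L n ≤ U p) : ∃ t : ℝ, (∀ p, t ≤ U p) ∧ ∀ n, L n ≤ t := by
  rcases isEmpty_or_nonempty N with hN | hN
  · rcases isEmpty_or_nonempty P with hP | hP
    · exact ⟨0, fun p => (hP.false p).elim, fun n => (hN.false n).elim⟩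
    · exact ⟨⨅ p, U p, fun p => ciInf_le (Set.finite_range U).bddBelow p,
        fun n => (hN.false n).elim⟩
  · exact ⟨⨆ n, L n, fun p => ciSup_le fun n => h p n,
      fun n => le_ciSup (Set.finite_range L).bddAbove n⟩

/-- Farkas lemma for systems of linear inequalities. -/
theorem farkas_aux : ∀ (r : ℕ) (ι : Type) [Fintype ι] (A : ι → Fin r → ℝ) (b : ι → ℝ),
    (∀ x : ι → ℝ, (∀ i, 0 ≤ x i) → (∀ k, ∑ i, x i * A i k = 0) → 0 ≤ ∑ i, x i * b i) →
    ∃ t : Fin r → ℝ, ∀ i, ∑ k, A i k * t k ≤ b i := by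
  intro r
  induction r with
  | zero =>
    intro ι _ A b h
    classical
    refine ⟨fun k => 0, fun i => ?_⟩
    have h1 := h (Pi.single i 1) (fun j => by
      by_cases hj : j = i
      · subst hj; simp
      · simp [Pi.single_eq_of_ne hj]) (fun k => k.elim0)
    have h2 : ∑ j, (Pi.single i (1 : ℝ) : ι → ℝ) j * b j = b i := by
      rw [Finset.sum_eq_single i]
      · simp
      · intro j _ hj
        simp [Pi.single_eq_of_ne hj]
      · intro hi
        exact absurd (Finset.mem_univ i) hi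
    rw [h2] at h1
    simpa using h1
  | succ r ih =>
    intro ι _ A b h
    classical
    set c : ι → ℝ := fun i => A i (Fin.last r) with hc
    let α : ι → ℝ := fun i => if c i = 0 then 1 else 0
    let β : ι → ι → ℝ := fun i j => if 0 < c i ∧ c j < 0 then - c j else 0
    let γ : ι → ι → ℝ := fun i j => if 0 < c i ∧ c j < 0 then c i else 0
    have hα : ∀ i, 0 ≤ α i := by intro i; simp only [α]; split_ifs <;> norm_num
    have hβ : ∀ i j, 0 ≤ β i j := by
      intro i j; simp only [β]; split_ifs with h1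
      · linarith [h1.2]
      · exact le_rfl
    have hγ : ∀ i j, 0 ≤ γ i j := by
      intro i j; simp only [γ]; split_ifs with h1
      · exact h1.1.le
      · exact le_rfl
    have hαc : ∀ i, α i * c i = 0 := by
      intro i; simp only [α]; split_ifs with h1
      · rw [h1]; ring
      · ring
    have hβγ : ∀ i j, β i j * c i + γ i j * c j = 0 := by
      intro i j; simp only [β, γ]; split_ifs with h1
      · ring
      · ring
    let A' : ι ⊕ (ι × ι) → Fin r → ℝ := fun s k =>
      Sum.elim (fun i : ι => α i * A i k.castSucc)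
        (fun p : ι × ι => β p.1 p.2 * A p.1 k.castSucc + γ p.1 p.2 * A p.2 k.castSucc) s
    let b' : ι ⊕ (ι × ι) → ℝ := fun s =>
      Sum.elim (fun i : ι => α i * b i) (fun p : ι × ι => β p.1 p.2 * b p.1 + γ p.1 p.2 * b p.2) s
    let X : (ι ⊕ (ι × ι) → ℝ) → ι → ℝ := fun x' i =>
      x' (Sum.inl i) * α i + ∑ j, x' (Sum.inr (i, j)) * β i j + ∑ j, x' (Sum.inr (j, i)) * γ j i
    have hkey : ∀ (x' : ι ⊕ (ι × ι) → ℝ) (g : ι → ℝ), ∑ i, X x' i * g i
        = ∑ i, x' (Sum.inl i) * (α i * g i)
          + ∑ p : ι × ι, x' (Sum.inr p) * (β p.1 p.2 * g p.1 + γ p.1 p.2 * g p.2) := by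
      intro x' g
      simp only [X, add_mul, Finset.sum_mul, Finset.sum_add_distrib]
      rw [Fintype.sum_prod_type]
      have h1 : ∑ i, ∑ j, x' (Sum.inr (j, i)) * γ j i * g i
          = ∑ i, ∑ j, x' (Sum.inr (i, j)) * γ i j * g j := Finset.sum_comm
      rw [h1, add_assoc, ← Finset.sum_add_distrib]
      congr 1
      · exact Finset.sum_congr rfl fun i _ => by ring
      · refine Finset.sum_congr rfl fun i _ => ?_
        rw [← Finset.sum_add_distrib]
        exact Finset.sum_congr rfl fun j _ => by ring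
    obtain ⟨t', ht'⟩ := ih (ι ⊕ (ι × ι)) A' b' (by
      intro x' hx' hx'A
      have h1 := h (X x') (fun i => by
        have h2 : 0 ≤ x' (Sum.inl i) * α i := mul_nonneg (hx' _) (hα i)
        have h3 : 0 ≤ ∑ j, x' (Sum.inr (i, j)) * β i j :=
          Finset.sum_nonneg fun j _ => mul_nonneg (hx' _) (hβ i j)
        have h4 : 0 ≤ ∑ j, x' (Sum.inr (j, i)) * γ j i :=
          Finset.sum_nonneg fun j _ => mul_nonneg (hx' _) (hγ j i)
        show 0 ≤ x' (Sum.inl i) * α i + ∑ j, x' (Sum.inr (i, j)) * β i j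
          + ∑ j, x' (Sum.inr (j, i)) * γ j i
        linarith) (by
        intro k
        refine Fin.lastCases ?_ (fun k => ?_) k
        · rw [hkey x' (fun i => A i (Fin.last r))]
          have h2 : ∀ i, α i * A i (Fin.last r) = 0 := hαc
          have h3 : ∀ p : ι × ι, β p.1 p.2 * A p.1 (Fin.last r) + γ p.1 p.2 * A p.2 (Fin.last r)
              = 0 := fun p => hβγ p.1 p.2
          simp only [h2, h3, mul_zero, Finset.sum_const_zero, add_zero]
        · rw [hkey x' (fun i => A i k.castSucc)]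
          have h2 := hx'A k
          rw [Fintype.sum_sum_type] at h2
          exact h2)
      rw [hkey x' b] at h1
      rw [Fintype.sum_sum_type]
      exact h1)
    let s : ι → ℝ := fun i => ∑ k, A i (Fin.castSucc k) * t' k
    have hs0 : ∀ i, c i = 0 → s i ≤ b i := by
      intro i hi
      have h1 := ht' (Sum.inl i)
      simp only [A', b', Sum.elim_inl, α, if_pos hi, one_mul] at h1
      exact h1
    have hs1 : ∀ i j, 0 < c i → c j < 0 → (b j - s j) / c j ≤ (b i - s i) / c i := by
      intro i j hi hj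
      have h1 := ht' (Sum.inr (i, j))
      have h2 : ∑ k, A' (Sum.inr (i, j)) k * t' k = (-c j) * s i + c i * s j := by
        simp only [A', Sum.elim_inr, β, γ, if_pos (And.intro hi hj), s, Finset.mul_sum,
          ← Finset.sum_add_distrib]
        exact Finset.sum_congr rfl fun k _ => by ring
      have h3 : b' (Sum.inr (i, j)) = (-c j) * b i + c i * b j := by
        simp only [b', Sum.elim_inr, β, γ, if_pos (And.intro hi hj)]
      rw [h2, h3] at h1
      rw [← neg_div_neg_eq (b j - s j) (c j), div_le_div_iff₀ (by linarith) hi]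
      nlinarith
    obtain ⟨t, ht1, ht2⟩ := exists_between_finite (P := {i : ι // 0 < c i})
      (N := {i : ι // c i < 0}) (fun i => (b i.1 - s i.1) / c i.1)
      (fun j => (b j.1 - s j.1) / c j.1) (fun i j => hs1 i.1 j.1 i.2 j.2)
    refine ⟨Fin.snoc t' t, fun i => ?_⟩
    rw [Fin.sum_univ_castSucc]
    simp only [Fin.snoc_castSucc, Fin.snoc_last]
    show s i + c i * t ≤ b i
    rcases lt_trichotomy (c i) 0 with hi | hi | hi
    · have h1 := ht2 ⟨i, hi⟩
      simp only at h1
      rw [div_le_iff_of_neg hi] at h1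
      linarith
    · have h1 := hs0 i hi
      rw [hi]; linarith
    · have h1 := ht1 ⟨i, hi⟩
      simp only at h1
      rw [le_div_iff₀ hi] at h1
      linarith

/-- Simultaneous Dirichlet approximation. -/
theorem dirichlet {κ : Type} [Fintype κ] (c : κ → ℝ) {δ : ℝ} (hδ : 0 < δ) :
    ∃ k : ℕ, 0 < k ∧ ∃ z : κ → ℤ, ∀ j, |k * c j - z j| < δ := by
  let x : κ → UnitAddCircle := fun j => (c j : UnitAddCircle)
  have h1 : MapClusterPt (0 : κ → UnitAddCircle) Filter.atTop (fun n : ℕ => n • x) :=
    mapClusterPt_zero_atTop_nsmul x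
  have h2 : Metric.ball (0 : κ → UnitAddCircle) δ ∈ nhds (0 : κ → UnitAddCircle) :=
    Metric.ball_mem_nhds _ hδ
  have h3 := h1.frequently h2
  obtain ⟨k, hk, hk'⟩ := (h3.and_eventually (Filter.eventually_gt_atTop 0)).exists
  refine ⟨k, hk', fun j => round ((k : ℝ) * c j), fun j => ?_⟩
  have h4 : ‖(k • x) j‖ < δ := by
    have h5 : dist (k • x) 0 < δ := hk
    rw [dist_zero_right] at h5
    exact lt_of_le_of_lt (norm_le_pi_norm (k • x) j) h5
  have h6 : (k • x) j = (((k : ℝ) * c j : ℝ) : UnitAddCircle) := by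
    simp only [Pi.smul_apply, x]
    rw [← AddCircle.coe_nsmul, nsmul_eq_mul]
  rw [h6, UnitAddCircle.norm_eq] at h4
  exact h4

theorem sum_eq_apply {ι : Type} [Fintype ι] [DecidableEq ι] (φ : (ι → ℝ) →ₗ[ℝ] ℝ) (x : ι → ℝ) :
    ∑ i, x i * φ (Pi.single i 1) = φ x := by
  have h1 : x = ∑ i, x i • (Pi.single i (1 : ℝ) : ι → ℝ) := by
    ext j
    simp only [Finset.sum_apply, Pi.smul_apply, Pi.single_apply, smul_eq_mul, mul_ite, mul_one,
      mul_zero, Finset.sum_ite_eq, Finset.mem_univ, if_true]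
  conv_rhs => rw [h1, map_sum]
  exact Finset.sum_congr rfl fun i _ => by rw [map_smul, smul_eq_mul]

/-- Integral Farkas lemma. -/
theorem int_farkas {ι : Type} [Fintype ι] (Λ : AddSubgroup (ι → ℤ)) (ℓ : ι → ℝ)
    (h : ∀ x ∈ Λ, (∀ i, 0 ≤ x i) → 0 ≤ ∑ i, (x i : ℝ) * ℓ i) :
    ∃ y : ι → ℝ, (∀ x ∈ Λ, ∑ i, (x i : ℝ) * y i = 0) ∧ ∀ i, y i ≤ ℓ i := by
  classical
  let cst : (ι → ℤ) → ι → ℝ := fun x i => (x i : ℝ)
  let W : Submodule ℝ (ι → ℝ) := Submodule.span ℝ (cst '' Λ)
  haveI : Module.Free ℝ W.dualAnnihilator := Module.Free.of_divisionRing ℝ W.dualAnnihilator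
  let b := Module.finBasis ℝ W.dualAnnihilator
  obtain ⟨t, ht⟩ := farkas_aux (Module.finrank ℝ W.dualAnnihilator) ι
    (fun i k => (b k : Module.Dual ℝ (ι → ℝ)) (Pi.single i 1)) ℓ (by
    intro x hx hxA
    have hxW : x ∈ W := by
      rw [← Subspace.dualAnnihilator_dualCoannihilator_eq (W := W), Submodule.mem_dualCoannihilator]
      intro φ hφ
      have h1 := b.sum_repr ⟨φ, hφ⟩
      have h2 : φ = ∑ k, b.repr ⟨φ, hφ⟩ k • (b k : Module.Dual ℝ (ι → ℝ)) := by
        have h3 := congrArg (fun y : W.dualAnnihilator => (y : Module.Dual ℝ (ι → ℝ))) h1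
        simp only [Submodule.coe_sum, Submodule.coe_smul] at h3
        exact h3.symm
      rw [h2]
      simp only [LinearMap.sum_apply, LinearMap.smul_apply, smul_eq_mul]
      refine Finset.sum_eq_zero fun k _ => ?_
      have h3 := hxA k
      rw [sum_eq_apply] at h3
      rw [h3, mul_zero]
    rw [Submodule.mem_span_set'] at hxW
    obtain ⟨n, c, g, hg⟩ := hxW
    have hlam : ∀ j : Fin n, ∃ lam ∈ Λ, cst lam = (g j : ι → ℝ) := fun j => by
      obtain ⟨a, ha, ha'⟩ := (g j).2
      exact ⟨a, ha, ha'⟩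
    choose lam hlam1 hlam2 using hlam
    by_contra hneg
    push Not at hneg
    set η : ℝ := -∑ i, x i * ℓ i with hη
    have hηpos : 0 < η := by linarith
    set C : ℝ := ∑ j, ∑ i, |(lam j i : ℝ)| + 1 with hC
    have hCpos : 0 < C := by
      have : 0 ≤ ∑ j, ∑ i, |(lam j i : ℝ)| :=
        Finset.sum_nonneg fun j _ => Finset.sum_nonneg fun i _ => abs_nonneg _
      linarith
    set Lc : ℝ := ∑ i, |ℓ i| + 1 with hLc
    have hLpos : 0 < Lc := by
      have : 0 ≤ ∑ i, |ℓ i| := Finset.sum_nonneg fun i _ => abs_nonneg _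
      linarith
    set δ : ℝ := min (1 / C) (η / (C * Lc)) / 2 with hδ
    have hδpos : 0 < δ := by
      have : 0 < min (1 / C) (η / (C * Lc)) := lt_min (by positivity) (by positivity)
      linarith
    have hδ1 : δ * C < 1 := by
      have h1 : δ < 1 / C := by
        have := min_le_left (1 / C) (η / (C * Lc))
        have h2 : 0 < 1 / C := by positivity
        linarith
      rwa [lt_div_iff₀ hCpos] at h1
    have hδ2 : δ * C * Lc < η := by
      have h1 : δ < η / (C * Lc) := by
        have := min_le_right (1 / C) (η / (C * Lc))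
        have h2 : 0 < η / (C * Lc) := by positivity
        linarith
      rw [lt_div_iff₀ (by positivity)] at h1
      linarith
    obtain ⟨k, hk, z, hz⟩ := dirichlet c hδpos
    let X : ι → ℤ := ∑ j, z j • lam j
    have hXmem : X ∈ Λ := Λ.sum_mem fun j _ => Λ.zsmul_mem (hlam1 j) _
    have hXapp : ∀ i, (X i : ℝ) = ∑ j, (z j : ℝ) * lam j i := by
      intro i
      simp only [X, Finset.sum_apply, Pi.smul_apply, smul_eq_mul]
      push_cast
      rfl
    have hxapp : ∀ i, x i = ∑ j, c j * lam j i := by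
      intro i
      rw [← hg]
      simp only [Finset.sum_apply, Pi.smul_apply, smul_eq_mul, ← hlam2, cst]
    have hclose : ∀ i, |(X i : ℝ) - k * x i| ≤ δ * C := by
      intro i
      rw [hXapp, hxapp, Finset.mul_sum, ← Finset.sum_sub_distrib]
      refine (Finset.abs_sum_le_sum_abs _ _).trans ?_
      have h1 : ∀ j, |(z j : ℝ) * lam j i - k * (c j * lam j i)| ≤ δ * |(lam j i : ℝ)| := by
        intro j
        have h2 : (z j : ℝ) * lam j i - k * (c j * lam j i) = -((k * c j - z j) * lam j i) := by ring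
        rw [h2, abs_neg, abs_mul]
        exact mul_le_mul_of_nonneg_right (hz j).le (abs_nonneg _)
      refine (Finset.sum_le_sum fun j _ => h1 j).trans ?_
      rw [← Finset.mul_sum]
      refine mul_le_mul_of_nonneg_left ?_ hδpos.le
      have h3 : ∑ j, |(lam j i : ℝ)| ≤ ∑ j, ∑ i, |(lam j i : ℝ)| :=
        Finset.sum_le_sum fun j _ => Finset.single_le_sum (f := fun i => |(lam j i : ℝ)|)
          (fun i _ => abs_nonneg _) (Finset.mem_univ i)
      linarith
    have hXnn : ∀ i, 0 ≤ X i := by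
      intro i
      by_contra hcon
      push Not at hcon
      have h1 : (X i : ℝ) ≤ -1 := by exact_mod_cast (by omega : X i ≤ -1)
      have h2 : 0 ≤ (k : ℝ) * x i := mul_nonneg (by positivity) (hx i)
      have h3 := hclose i
      rw [abs_le] at h3
      linarith [h3.1]
    have h4 := h X hXmem hXnn
    have h5 : ∑ i, (X i : ℝ) * ℓ i ≤ k * ∑ i, x i * ℓ i + δ * C * ∑ i, |ℓ i| := by
      rw [Finset.mul_sum, Finset.mul_sum, ← Finset.sum_add_distrib]
      refine Finset.sum_le_sum fun i _ => ?_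
      have h6 : ((X i : ℝ) - k * x i) * ℓ i ≤ δ * C * |ℓ i| := by
        refine (le_abs_self _).trans ?_
        rw [abs_mul]
        exact mul_le_mul_of_nonneg_right (hclose i) (abs_nonneg _)
      linarith
    have h7 : (1 : ℝ) ≤ k := by exact_mod_cast hk
    have h8 : k * ∑ i, x i * ℓ i ≤ -η := by
      have : ∑ i, x i * ℓ i = -η := by rw [hη]; ring
      rw [this]; nlinarith
    have h9 : δ * C * ∑ i, |ℓ i| ≤ δ * C * Lc := by
      refine mul_le_mul_of_nonneg_left (by rw [hLc]; linarith) (by positivity)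
    linarith)
  refine ⟨fun i => ∑ k, (b k : Module.Dual ℝ (ι → ℝ)) (Pi.single i 1) * t k, ?_, ht⟩
  intro x hx
  have h1 : ∀ k, (b k : Module.Dual ℝ (ι → ℝ)) (cst x) = 0 := by
    intro k
    have h2 := (b k).2
    rw [Submodule.mem_dualAnnihilator] at h2
    exact h2 _ (Submodule.subset_span ⟨x, hx, rfl⟩)
  calc ∑ i, (x i : ℝ) * ∑ k, (b k : Module.Dual ℝ (ι → ℝ)) (Pi.single i 1) * t k
      = ∑ k, (∑ i, cst x i * (b k : Module.Dual ℝ (ι → ℝ)) (Pi.single i 1)) * t k := by
        simp only [Finset.mul_sum, Finset.sum_mul]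
        rw [Finset.sum_comm]
        exact Finset.sum_congr rfl fun k _ => Finset.sum_congr rfl fun i _ => by
          simp only [cst]; ring
    _ = 0 := by
        refine Finset.sum_eq_zero fun k _ => ?_
        rw [sum_eq_apply, h1, zero_mul]

end Vale.Agent.P283.H647
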