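import Vale.Agent.P283.H647.Inv

/-!
Quotients of non-degenerate hypersurfaces: coordinate rings, semi-invariants and norms.
-/

set_option linter.all false

namespace Vale.Agent.P283.H647

open MvPolynomial Finset

namespace IsNonDegQuotient

variable {J d : ℕ} {K L : Type} [Field K] [Field L] [Algebra ℂ K] [Algebra ℂ L] [Algebra K L]
  {x : Fin (d + 1) → L} {f : MvPolynomial (Fin (d + 1)) ℂ}
  {b : Fin (d + 1) → ℚ} {G G₀ : Subgroup (L ≃ₐ[ℂ] L)} {A : Subalgebra ℂ K}
  (H : IsNonDegQuotient J x f b G G₀ A)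
include H

theorem hyp : HypData x f where
  gen := by
    intro g
    have h1 : g ∈ IntermediateField.adjoin ℂ (Set.range x) := by rw [H.generate]; trivial
    rw [IntermediateField.mem_adjoin_range_iff] at h1
    obtain ⟨P, Q, h2⟩ := h1
    by_cases hQ : aeval x Q = 0
    · exact ⟨0, 1, by simp, by rw [h2, hQ]; simp⟩
    · exact ⟨P, Q, hQ, h2⟩
  ker := H.equation
  f0 := H.nonzero
  x0 := H.coordinate

theorem fixK {τ : L ≃ₐ[ℂ] L} (hτ : τ ∈ G) (g : K) : τ (algebraMap K L g) = algebraMap K L g :=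
  (H.field _).1 ⟨g, rfl⟩ τ hτ

theorem finite₀ : Finite G₀ := by
  haveI := H.finite
  exact Finite.of_injective (Subgroup.inclusion H.le) (Subgroup.inclusion_injective H.le)

theorem diagData : DiagData (IntermediateField.fixedField G₀) x f G₀ where
  gen := H.hyp.gen
  ker := H.equation
  f0 := H.nonzero
  x0 := H.coordinate
  fin := H.finite₀
  diag := H.diagonal
  fix := by
    intro g
    constructor
    · rintro ⟨y, rfl⟩ τ hτ
      exact (IntermediateField.mem_fixedField_iff G₀ _).1 y.2 τ hτ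
    · intro h
      exact ⟨⟨g, (IntermediateField.mem_fixedField_iff G₀ g).2 h⟩, rfl⟩

theorem x_mem (j : Fin (d + 1)) : x j ∈ Algebra.adjoin ℂ (Set.range x) :=
  Algebra.subset_adjoin ⟨j, rfl⟩

theorem rY_stable {τ : L ≃ₐ[ℂ] L} (hτ : τ ∈ G) {a : L} (ha : a ∈ Algebra.adjoin ℂ (Set.range x)) :
    τ a ∈ Algebra.adjoin ℂ (Set.range x) := by
  have h1 : Algebra.adjoin ℂ (Set.range x) ≤
      (Algebra.adjoin ℂ (Set.range x)).comap (τ : L →ₐ[ℂ] L) := by
    rw [Algebra.adjoin_le_iff]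
    rintro _ ⟨j, rfl⟩
    obtain ⟨M, -, hM⟩ := H.linear τ hτ
    show τ (x j) ∈ Algebra.adjoin ℂ (Set.range x)
    rw [hM]
    exact Subalgebra.sum_mem _ fun l _ => Subalgebra.smul_mem _ (H.x_mem l) _
  exact h1 ha

/-- functions on `Y` are integral over the functions on `X` -/
theorem rY_integral {y : L} (hy : y ∈ Algebra.adjoin ℂ (Set.range x)) : IsIntegral A y := by
  classical
  have hfin : Finite G := H.finite
  have : Fintype G := Fintype.ofFinite G
  let P : Polynomial L :=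
    ∏ τ : G, (Polynomial.X - Polynomial.C ((τ : L ≃ₐ[ℂ] L) y))
  have hmon : P.Monic := Polynomial.monic_prod_of_monic _ _ fun τ _ => Polynomial.monic_X_sub_C _
  have hcoefY : ∀ n, P.coeff n ∈ Algebra.adjoin ℂ (Set.range x) := by
    have h1 : P ∈ Polynomial.lifts (Algebra.adjoin ℂ (Set.range x)).val.toRingHom := by
      refine Subsemiring.prod_mem _ fun τ _ => ?_
      refine (Polynomial.lifts_iff_coeff_lifts _).mpr fun n => ?_
      rw [Polynomial.coeff_sub]
      have e1 : Polynomial.coeff (Polynomial.X : Polynomial L) n ∈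
          Algebra.adjoin ℂ (Set.range x) := by
        rw [Polynomial.coeff_X]
        split_ifs
        · exact Subalgebra.one_mem _
        · exact Subalgebra.zero_mem _
      have e2 : Polynomial.coeff (Polynomial.C ((τ : L ≃ₐ[ℂ] L) y)) n
          ∈ Algebra.adjoin ℂ (Set.range x) := by
        rw [Polynomial.coeff_C]
        split_ifs
        · exact H.rY_stable τ.2 hy
        · exact Subalgebra.zero_mem _
      exact ⟨⟨_, Subalgebra.sub_mem _ e1 e2⟩, rfl⟩
    intro n
    obtain ⟨c, hc⟩ := (Polynomial.lifts_iff_coeff_lifts _).mp h1 n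
    rw [← hc]
    exact c.2
  have hcoefK : ∀ n, P.coeff n ∈ Set.range (algebraMap K L) := by
    intro n
    rw [H.field]
    intro σ hσ
    have h1 : P.map (σ : L →+* L) = P := by
      simp only [P]
      rw [Polynomial.map_prod]
      refine Fintype.prod_equiv (Equiv.mulLeft (⟨σ, hσ⟩ : G)) _ _ fun τ => ?_
      rw [Polynomial.map_sub, Polynomial.map_X, Polynomial.map_C]
      rfl
    have h2 := congrArg (fun p => Polynomial.coeff p n) h1
    simp only [Polynomial.coeff_map] at h2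
    exact h2
  have hlift : P ∈ Polynomial.lifts (algebraMap A L) := by
    refine (Polynomial.lifts_iff_coeff_lifts _).mpr fun n => ?_
    obtain ⟨c, hc⟩ := hcoefK n
    have hcA : c ∈ A := by
      rw [H.ring, hc]; exact hcoefY n
    exact ⟨⟨c, hcA⟩, hc⟩
  obtain ⟨Q, hQ1, -, hQ2⟩ := Polynomial.lifts_and_natDegree_eq_and_monic hlift hmon
  refine ⟨Q, hQ2, ?_⟩
  rw [← Polynomial.eval_map, hQ1]
  simp only [P]
  rw [Polynomial.eval_prod]
  refine Finset.prod_eq_zero (Finset.mem_univ (1 : G)) ?_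
  simp

/-- The product of powers of the coordinates is semi-invariant. -/
theorem prod_semi (q : ℕ) (bq : Fin (d + 1) → ℕ) (hbq : ∀ j, (bq j : ℚ) = q * b j)
    {τ : L ≃ₐ[ℂ] L} (hτ : τ ∈ G) :
    ∃ κ : ℂ, τ (∏ j, x j ^ bq j) = algebraMap ℂ L κ * ∏ j, x j ^ bq j := by
  classical
  obtain ⟨π, hπ⟩ := H.perm τ hτ
  choose c hc using fun j => (hπ j).2
  let c' : Fin (d + 1) → ℂ := fun j => if h : b j ≠ 0 then c j h else 1
  refine ⟨∏ j, c' j ^ bq j, ?_⟩
  have h1 : ∏ j, x j ^ bq j = ∏ j, x (π j) ^ bq j := by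
    rw [← Equiv.prod_comp π]
    refine Finset.prod_congr rfl fun j _ => ?_
    have h2 : bq (π j) = bq j := by
      have h3 : (bq (π j) : ℚ) = bq j := by rw [hbq, hbq, (hπ j).1]
      exact_mod_cast h3
    rw [h2]
  conv_rhs => rw [h1]
  rw [map_prod, map_prod, ← Finset.prod_mul_distrib]
  refine Finset.prod_congr rfl fun j _ => ?_
  by_cases hb : b j = 0
  · have h2 : bq j = 0 := by
      have h3 : (bq j : ℚ) = 0 := by rw [hbq, hb, mul_zero]
      exact_mod_cast h3
    rw [h2]; simp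
  · have h2 : c' j = c j hb := dif_pos hb
    rw [map_pow, hc j hb, h2, Algebra.smul_def, mul_pow, map_pow]

/-- a power of a semi-invariant function is invariant -/
theorem pow_invariant (F : L) (hF : ∀ τ ∈ G, ∃ κ : ℂ, τ F = algebraMap ℂ L κ * F) :
    F ^ Nat.card G ∈ Set.range (algebraMap K L) := by
  have hfin : Finite G := H.finite
  rw [H.field]
  intro τ hτ
  obtain ⟨κ, hκ⟩ := hF τ hτ
  have h1 : ∀ m : ℕ, (τ ^ m) F = algebraMap ℂ L κ ^ m * F := by
    intro m
    induction m with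
    | zero => simp
    | succ m ih =>
      rw [pow_succ, AlgEquiv.mul_apply, hκ, map_mul, ih, AlgEquiv.commutes]
      ring
  have h2 : τ ^ Nat.card G = 1 := by
    have h3 : (⟨τ, hτ⟩ : G) ^ Nat.card G = 1 := pow_card_eq_one'
    exact congrArg Subtype.val h3
  have h3 := h1 (Nat.card G)
  rw [h2, AlgEquiv.one_apply] at h3
  by_cases hF0 : F = 0
  · rw [hF0, zero_pow Nat.card_pos.ne', map_zero]
  have h4 : algebraMap ℂ L κ ^ Nat.card G = 1 := by
    have h5 : (1 - algebraMap ℂ L κ ^ Nat.card G) * F = 0 := by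
      rw [sub_mul, one_mul, ← h3, sub_self]
    rcases mul_eq_zero.mp h5 with h6 | h6
    · exact (sub_eq_zero.mp h6).symm
    · exact absurd h6 hF0
  rw [map_pow, hκ, mul_pow, h4, one_mul]

/-- The norm of a `G₀`-invariant function. -/
theorem exists_norm (F : L) (hF : ∀ τ ∈ G₀, τ F = F) (hF0 : F ≠ 0) :
    ∃ φ : K, φ ≠ 0 ∧ ∀ (w : AddValuation L (WithTop ℤ)) (v : AddValuation K (WithTop ℤ)) (e : ℕ),
      (∀ f : K, w (algebraMap K L f) = e • v f) →
      (∀ b : ℚ, (∀ τ ∈ G, b ≤ ov w (τ F)) → (J.factorial : ℚ) * b ≤ e * ov v φ) ∧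
      (∀ b : ℚ, (∀ τ ∈ G, (ov w (τ F) : ℚ) < b) → (e : ℚ) * ov v φ < (J.factorial : ℚ) * b) := by
  classical
  haveI : Finite G := H.finite
  let S : Subgroup G := G₀.subgroupOf G
  haveI : Finite (G ⧸ S) := inferInstance
  letI : Fintype (G ⧸ S) := Fintype.ofFinite _
  let rep : G ⧸ S → (L ≃ₐ[ℂ] L) := fun c => ((Quotient.out c : G) : L ≃ₐ[ℂ] L)
  have hrep : ∀ c, rep c ∈ G := fun c => (Quotient.out c : G).2
  let P : L := ∏ c : G ⧸ S, rep c F
  have hP0 : P ≠ 0 := Finset.prod_ne_zero_iff.2 fun c _ => by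
    simpa using hF0
  have hPinv : ∀ τ ∈ G, τ P = P := by
    intro τ hτ
    simp only [P]
    rw [map_prod]
    apply Fintype.prod_equiv (MulAction.toPerm (⟨τ, hτ⟩ : G))
    intro c
    simp only [MulAction.toPerm_apply]
    have h1 : (QuotientGroup.mk (⟨τ, hτ⟩ * Quotient.out c : G) : G ⧸ S)
        = QuotientGroup.mk (Quotient.out ((⟨τ, hτ⟩ : G) • c)) := by
      rw [QuotientGroup.out_eq']
      conv_rhs => rw [← QuotientGroup.out_eq' c]
      rfl
    have h2 := QuotientGroup.eq.1 h1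
    have h3 : (((⟨τ, hτ⟩ * Quotient.out c : G)⁻¹ * Quotient.out ((⟨τ, hτ⟩ : G) • c) : G) :
        L ≃ₐ[ℂ] L) ∈ G₀ := Subgroup.mem_subgroupOf.1 h2
    have h4 := hF _ h3
    simp only [Subgroup.coe_mul, InvMemClass.coe_inv, AlgEquiv.mul_apply] at h4
    have h5 : (τ * rep c) ((τ * rep c)⁻¹ (rep ((⟨τ, hτ⟩ : G) • c) F)) = (τ * rep c) F :=
      congrArg (τ * rep c) h4
    rw [← AlgEquiv.mul_apply, mul_inv_cancel, AlgEquiv.one_apply] at h5
    rw [h5]
    rfl
  set j : ℕ := Nat.card (G ⧸ S) with hj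
  have hj0 : 0 < j := Nat.card_pos
  have hjJ : j ≤ J := H.index
  obtain ⟨M, hM⟩ : j ∣ J.factorial := Nat.dvd_factorial hj0 hjJ
  have hM0 : 0 < M := by
    rcases Nat.eq_zero_or_pos M with h | h
    · rw [h, mul_zero] at hM
      exact absurd hM (Nat.factorial_ne_zero J)
    · exact h
  obtain ⟨φ, hφ⟩ := (H.field (P ^ M)).2 fun τ hτ => by rw [map_pow, hPinv τ hτ]
  have hφ0 : φ ≠ 0 := by
    rintro rfl
    rw [map_zero] at hφ
    exact pow_ne_zero M hP0 hφ.symm
  refine ⟨φ, hφ0, ?_⟩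
  intro w v e hvw
  have key : (e : ℚ) * ov v φ = M * ∑ c, (ov w (rep c F) : ℚ) := by
    have h1 := hvw φ
    have h2 : ov w (algebraMap K L φ) = e * ov v φ := by
      apply ov_eq_of
      rw [h1, ← coe_ov v hφ0, ← WithTop.coe_nsmul]
      simp
    have h3 : (e : ℤ) * ov v φ = M * ∑ c, ov w (rep c F) := by
      rw [← h2, hφ, ov_pow w hP0]
      congr 1
      exact ov_prod _ _ fun c _ => by simpa using hF0
    exact_mod_cast h3
  have hcard : (Fintype.card (G ⧸ S) : ℚ) = j := by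
    rw [hj, Nat.card_eq_fintype_card]
  have hMJ : (J.factorial : ℚ) = M * j := by
    rw [hM]; push_cast; ring
  constructor
  · intro b hb
    rw [key, hMJ, mul_assoc]
    apply mul_le_mul_of_nonneg_left _ (by positivity)
    rw [← hcard]
    have := Finset.card_nsmul_le_sum (Finset.univ : Finset (G ⧸ S))
      (fun c => (ov w (rep c F) : ℚ)) b fun c _ => hb _ (hrep c)
    simpa using this
  · intro b hb
    rw [key, hMJ, mul_assoc]
    apply mul_lt_mul_of_pos_left _ (by exact_mod_cast hM0)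
    rw [← hcard]
    haveI : Nonempty (G ⧸ S) := ⟨QuotientGroup.mk 1⟩
    have := Finset.sum_lt_sum_of_nonempty (s := (Finset.univ : Finset (G ⧸ S)))
      (f := fun c => (ov w (rep c F) : ℚ)) (g := fun _ => b) Finset.univ_nonempty
      fun c _ => hb _ (hrep c)
    simpa using this

/-- valuations which are nonnegative on `A` are nonnegative on the coordinates -/
theorem nonneg_x [IsScalarTower ℂ K L] {w : AddValuation L (WithTop ℤ)}
    (hA : ∀ a ∈ A, 0 ≤ w (algebraMap K L a)) (j : Fin (d + 1)) : 0 ≤ ov w (x j) := by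
  have h1 := nonneg_of_integral hA (H.rY_integral (H.x_mem j))
  rw [← coe_ov w (H.coordinate j)] at h1
  exact_mod_cast h1

theorem nonneg_A {w : AddValuation L (WithTop ℤ)}
    (hc : ∀ c : ℂ, c ≠ 0 → w (algebraMap ℂ L c) = 0)
    (hx : ∀ j, 0 ≤ ov w (x j)) : ∀ a ∈ A, 0 ≤ w (algebraMap K L a) := by
  intro a ha
  rw [H.ring, Algebra.adjoin_range_eq_range_aeval] at ha
  obtain ⟨P, hP⟩ := ha
  rw [← hP]
  show 0 ≤ w (aeval x P)
  rw [P.as_sum, map_sum]
  refine AddValuation.map_le_sum w fun α hα => ?_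
  rw [aeval_monomial, Finsupp.prod_fintype _ _ (by simp), AddValuation.map_mul,
    hc _ (mem_support_iff.1 hα), zero_add]
  have h0 : (∏ i, x i ^ α i) ≠ 0 :=
    Finset.prod_ne_zero_iff.2 fun i _ => pow_ne_zero _ (H.coordinate i)
  rw [← coe_ov w h0, ov_prod _ _ fun i _ => pow_ne_zero _ (H.coordinate i)]
  have h1 : 0 ≤ ∑ i, ov w (x i ^ α i) := Finset.sum_nonneg fun i _ => by
    rw [ov_pow w (H.coordinate i)]
    exact mul_nonneg (by positivity) (hx i)
  exact_mod_cast h1

end IsNonDegQuotient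

end Vale.Agent.P283.H647
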