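import Vale.Agent.P283.H647.Gen

/-!
Values of polynomials and initial forms.
-/

set_option linter.all false

namespace Vale.Agent.P283.H647

open MvPolynomial Finset

variable {N : ℕ}

/-- `m` is the least weight of a term of `f`. -/
def IsMin (f : MvPolynomial (Fin N) ℂ) (b : Fin N → ℕ) (m : ℕ) : Prop :=
  (∃ α ∈ f.support, wt b α = m) ∧ ∀ β ∈ f.support, m ≤ wt b β

theorem exists_isMin {f : MvPolynomial (Fin N) ℂ} (hf : f ≠ 0) (b : Fin N → ℕ) :
    ∃ m, IsMin f b m := by
  obtain ⟨α, hα, hmin⟩ := f.support.exists_min_image (fun e => wt b e)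
    (Finset.nonempty_iff_ne_empty.2 fun h => hf (support_eq_empty.1 h))
  exact ⟨wt b α, ⟨α, hα, rfl⟩, hmin⟩

theorem wt_add (b : Fin N → ℕ) (α β : Fin N →₀ ℕ) : wt b (α + β) = wt b α + wt b β := by
  unfold wt
  rw [← Finset.sum_add_distrib]
  exact Finset.sum_congr rfl fun i _ => by rw [Finsupp.add_apply, mul_add]

theorem coeff_inForm {f : MvPolynomial (Fin N) ℂ} {b : Fin N → ℕ} {m : ℕ} (hm : IsMin f b m)
    (α : Fin N →₀ ℕ) : (inForm f b).coeff α = if wt b α = m then f.coeff α else 0 := by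
  classical
  unfold inForm
  rw [coeff_sum]
  simp only [coeff_monomial, Finset.sum_ite_eq']
  obtain ⟨⟨β, hβ, hβ'⟩, hmin⟩ := hm
  by_cases hα : α ∈ f.support
  · by_cases hw : wt b α = m
    · rw [if_pos hw, if_pos]
      rw [Finset.mem_filter]
      exact ⟨hα, fun γ hγ => by rw [hw]; exact hmin γ hγ⟩
    · rw [if_neg hw, if_neg]
      rw [Finset.mem_filter]
      rintro ⟨-, h⟩
      exact hw (le_antisymm (by rw [← hβ']; exact h β hβ) (hmin α hα))
  · rw [notMem_support_iff.1 hα, if_neg, ite_self]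
    rw [Finset.mem_filter]; exact fun h => hα h.1

theorem coeff_logd (f : MvPolynomial (Fin N) ℂ) (i : Fin N) (α : Fin N →₀ ℕ) :
    (X i * pderiv i f).coeff α = α i * f.coeff α := by
  classical
  induction f using MvPolynomial.induction_on' with
  | monomial u a =>
    rw [X_mul_pderiv_monomial, coeff_smul, coeff_monomial, nsmul_eq_mul]
    split_ifs with h
    · rw [h]
    · simp
  | add p q hp hq => rw [map_add, mul_add, coeff_add, coeff_add, hp, hq]; ring

/-- All terms have weight `m`. -/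
def Homog (b : Fin N → ℕ) (P : MvPolynomial (Fin N) ℂ) (m : ℕ) : Prop :=
  ∀ α ∈ P.support, wt b α = m

/-- All terms have weight at least `m`. -/
def AtLeast (b : Fin N → ℕ) (P : MvPolynomial (Fin N) ℂ) (m : ℕ) : Prop :=
  ∀ α ∈ P.support, m ≤ wt b α

theorem Homog.atLeast {b : Fin N → ℕ} {P : MvPolynomial (Fin N) ℂ} {m : ℕ} (h : Homog b P m) :
    AtLeast b P m := fun α hα => (h α hα).ge

theorem Homog.mul {b : Fin N → ℕ} {P Q : MvPolynomial (Fin N) ℂ} {m n : ℕ} (h : Homog b P m)
    (h' : Homog b Q n) : Homog b (P * Q) (m + n) := by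
  classical
  intro α hα
  obtain ⟨β, hβ, γ, hγ, rfl⟩ := Finset.mem_add.1 (support_mul P Q hα)
  rw [wt_add, h β hβ, h' γ hγ]

theorem Homog.sub {b : Fin N → ℕ} {P Q : MvPolynomial (Fin N) ℂ} {m : ℕ} (h : Homog b P m)
    (h' : Homog b Q m) : Homog b (P - Q) m := by
  classical
  intro α hα
  rcases Finset.mem_union.1 (support_sub (Fin N) P Q hα) with h1 | h1
  · exact h α h1
  · exact h' α h1

theorem inForm_homog {f : MvPolynomial (Fin N) ℂ} {b : Fin N → ℕ} {m : ℕ} (hm : IsMin f b m) :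
    Homog b (inForm f b) m := by
  intro α hα
  by_contra h
  rw [mem_support_iff, coeff_inForm hm, if_neg h] at hα
  exact hα rfl

theorem logd_inForm_homog {f : MvPolynomial (Fin N) ℂ} {b : Fin N → ℕ} {m : ℕ}
    (hm : IsMin f b m) (i : Fin N) : Homog b (X i * pderiv i (inForm f b)) m := by
  intro α hα
  by_contra h
  rw [mem_support_iff, coeff_logd, coeff_inForm hm, if_neg h, mul_zero] at hα
  exact hα rfl

theorem diff_atLeast {f : MvPolynomial (Fin N) ℂ} {b : Fin N → ℕ} {m : ℕ} (hm : IsMin f b m) :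
    AtLeast b (f - inForm f b) (m + 1) := by
  intro α hα
  rw [mem_support_iff, coeff_sub, coeff_inForm hm] at hα
  by_cases h : wt b α = m
  · rw [if_pos h, sub_self] at hα; exact absurd rfl hα
  · rw [if_neg h, sub_zero] at hα
    have := hm.2 α (mem_support_iff.2 hα)
    omega

theorem logd_diff_atLeast {f : MvPolynomial (Fin N) ℂ} {b : Fin N → ℕ} {m : ℕ}
    (hm : IsMin f b m) (i : Fin N) :
    AtLeast b (X i * pderiv i f - X i * pderiv i (inForm f b)) (m + 1) := by
  intro α hα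
  rw [mem_support_iff, coeff_sub, coeff_logd, coeff_logd, coeff_inForm hm] at hα
  by_cases h : wt b α = m
  · rw [if_pos h, sub_self] at hα; exact absurd rfl hα
  · rw [if_neg h, mul_zero, sub_zero] at hα
    have := hm.2 α (mem_support_iff.2 (right_ne_zero_of_mul hα))
    omega

section Val

variable {L : Type} [Field L] [Algebra ℂ L] (w : AddValuation L (WithTop ℤ))
  (hc : ∀ c : ℂ, c ≠ 0 → w (algebraMap ℂ L c) = 0) (x : Fin N → L) (b : Fin N → ℕ)
  (hb : ∀ j, w (x j) = ((b j : ℤ) : WithTop ℤ))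
include hc hb

theorem val_mono (α : Fin N →₀ ℕ) : w (∏ i, x i ^ α i) = ((wt b α : ℤ) : WithTop ℤ) := by
  have h0 : ∀ j, x j ≠ 0 := fun j => ne_zero_of_eq w (hb j)
  have h1 : ∀ j, ov w (x j) = b j := fun j => ov_eq_of w (hb j)
  have hp : (∏ i, x i ^ α i) ≠ 0 := Finset.prod_ne_zero_iff.2 fun i _ => pow_ne_zero _ (h0 i)
  rw [← coe_ov w hp, ov_prod _ _ fun i _ => pow_ne_zero _ (h0 i)]
  congr 1
  unfold wt
  push_cast
  refine Finset.sum_congr rfl fun i _ => ?_
  rw [ov_pow w (h0 i), h1]; ring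

theorem val_lower {P : MvPolynomial (Fin N) ℂ} {m : ℕ} (hP : AtLeast b P m) :
    ((m : ℤ) : WithTop ℤ) ≤ w (aeval x P) := by
  rw [P.as_sum, map_sum]
  refine AddValuation.map_le_sum w fun α hα => ?_
  rw [aeval_monomial, Finsupp.prod_fintype _ _ (by simp), AddValuation.map_mul,
    hc _ (mem_support_iff.1 hα), zero_add, val_mono w hc x b hb]
  exact_mod_cast hP α hα

/-- If weighted homogeneous polynomials have no common zero in the torus, then one of them has the
least possible value. -/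
theorem init_exists (hn : ∃ t, w t = 1) {κ : Type} (P : κ → MvPolynomial (Fin N) ℂ) (m : κ → ℕ)
    (hP : ∀ k, Homog b (P k) (m k)) (hno : ∀ ξ : Fin N → ℂ, (∀ i, ξ i ≠ 0) →
      ∃ k, eval ξ (P k) ≠ 0) : ∃ k, w (aeval x (P k)) = ((m k : ℤ) : WithTop ℤ) := by
  classical
  by_contra hcon
  push Not at hcon
  obtain ⟨t, ht⟩ := hn
  have ht0 : t ≠ 0 := ne_zero_of_eq w (n := 1) (by simpa using ht)
  have hto : ov w t = 1 := ov_eq_of w (n := 1) (by simpa using ht)
  have hx0 : ∀ j, x j ≠ 0 := fun j => ne_zero_of_eq w (hb j)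
  have hxo : ∀ j, ov w (x j) = b j := fun j => ov_eq_of w (hb j)
  set ξ : Fin N → L := fun j => x j * (t ^ b j)⁻¹ with hξ
  have hξ0 : ∀ j, ξ j ≠ 0 := fun j => mul_ne_zero (hx0 j) (inv_ne_zero (pow_ne_zero _ ht0))
  have hξv : ∀ j, w (ξ j) = ((((fun _ => 0) : Fin N → ℕ) j : ℤ) : WithTop ℤ) := by
    intro j
    rw [← coe_ov w (hξ0 j), hξ, ov_mul w (hx0 j) (inv_ne_zero (pow_ne_zero _ ht0)), ov_inv,
      ov_pow w ht0, hto, hxo]
    simp
  have hnn : ∀ Q : MvPolynomial (Fin N) ℂ, 0 ≤ w (aeval ξ Q) := by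
    intro Q
    have := val_lower w hc ξ (fun _ => 0) hξv (P := Q) (m := 0) (fun α _ => Nat.zero_le _)
    simpa using this
  -- homogeneity
  have hhom : ∀ k, aeval x (P k) = t ^ m k * aeval ξ (P k) := by
    intro k
    have h1 : aeval x (P k) = ∑ α ∈ (P k).support, algebraMap ℂ L ((P k).coeff α) * ∏ i, x i ^ α i := by
      conv_lhs => rw [(P k).as_sum, map_sum]
      refine Finset.sum_congr rfl fun α _ => ?_
      rw [aeval_monomial, Finsupp.prod_fintype _ _ (by simp)]
    have h2 : aeval ξ (P k) = ∑ α ∈ (P k).support, algebraMap ℂ L ((P k).coeff α) * ∏ i, ξ i ^ α i := by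
      conv_lhs => rw [(P k).as_sum, map_sum]
      refine Finset.sum_congr rfl fun α _ => ?_
      rw [aeval_monomial, Finsupp.prod_fintype _ _ (by simp)]
    rw [h1, h2, Finset.mul_sum]
    refine Finset.sum_congr rfl fun α hα => ?_
    have h3 : ∏ i, x i ^ α i = t ^ m k * ∏ i, ξ i ^ α i := by
      have h4 : ∏ i, x i ^ α i = (∏ i, (t ^ b i) ^ α i) * ∏ i, ξ i ^ α i := by
        rw [← Finset.prod_mul_distrib]
        refine Finset.prod_congr rfl fun i _ => ?_
        rw [← mul_pow, hξ]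
        congr 1
        field_simp
      rw [h4]
      congr 1
      have h5 : ∏ i, (t ^ b i) ^ α i = t ^ wt b α := by
        unfold wt
        rw [← Finset.prod_pow_eq_pow_sum]
        exact Finset.prod_congr rfl fun i _ => by rw [← pow_mul]
      rw [h5, hP k α hα]
    rw [h3]; ring
  -- the ideal of polynomials with positive value
  let I : Ideal (MvPolynomial (Fin N) ℂ) :=
    { carrier := {Q | 0 < w (aeval ξ Q)}
      zero_mem' := by simp
      add_mem' := by
        intro a b ha hb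
        simp only [Set.mem_setOf_eq] at ha hb ⊢
        rw [map_add]
        exact lt_of_lt_of_le (lt_min ha hb) (AddValuation.map_add w _ _)
      smul_mem' := by
        intro c a ha
        simp only [Set.mem_setOf_eq] at ha ⊢
        rw [smul_eq_mul, map_mul, AddValuation.map_mul]
        exact lt_of_lt_of_le ha (le_add_of_nonneg_left (hnn c)) }
  have hPI : ∀ k, P k ∈ I := by
    intro k
    show 0 < w (aeval ξ (P k))
    have h1 : ((m k : ℤ) : WithTop ℤ) ≤ w (aeval x (P k)) :=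
      val_lower w hc x b hb (hP k).atLeast
    have h2 := lt_of_le_of_ne h1 (Ne.symm (hcon k))
    by_cases h0 : aeval ξ (P k) = 0
    · rw [h0, AddValuation.map_zero]; exact WithTop.coe_lt_top 0
    · have h3 : aeval x (P k) ≠ 0 := by
        rw [hhom]; exact mul_ne_zero (pow_ne_zero _ ht0) h0
      rw [← coe_ov w h3, WithTop.coe_lt_coe, hhom, ov_mul w (pow_ne_zero _ ht0) h0,
        ov_pow w ht0, hto] at h2
      rw [← coe_ov w h0]
      have h4 : 0 < ov w (aeval ξ (P k)) := by
        have : (m k : ℤ) < (m k : ℤ) * 1 + ov w (aeval ξ (P k)) := h2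
        omega
      exact_mod_cast h4
  -- Nullstellensatz
  have hrad : (∏ i, X i : MvPolynomial (Fin N) ℂ) ∈ (Ideal.span (Set.range P)).radical := by
    rw [← MvPolynomial.vanishingIdeal_zeroLocus_eq_radical (K := ℂ)]
    rw [MvPolynomial.mem_vanishingIdeal_iff]
    intro ξ' hξ'
    rw [MvPolynomial.mem_zeroLocus_iff] at hξ'
    rw [map_prod]
    by_contra hne
    rw [← ne_eq, Finset.prod_ne_zero_iff] at hne
    obtain ⟨k, hk⟩ := hno ξ' (fun i => by
      have := hne i (Finset.mem_univ i)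
      simpa using this)
    apply hk
    have := hξ' (P k) (Ideal.subset_span ⟨k, rfl⟩)
    simpa using this
  obtain ⟨T, hT⟩ := hrad
  have h1 : Ideal.span (Set.range P) ≤ I := by
    rw [Ideal.span_le]
    rintro _ ⟨k, rfl⟩
    exact hPI k
  have h2 : 0 < w (aeval ξ ((∏ i, X i : MvPolynomial (Fin N) ℂ) ^ T)) := h1 hT
  have h3 : aeval ξ ((∏ i, X i : MvPolynomial (Fin N) ℂ) ^ T) = (∏ i, ξ i) ^ T := by
    rw [map_pow, map_prod]; simp
  have h4 : (∏ i, ξ i) ≠ 0 := Finset.prod_ne_zero_iff.2 fun i _ => hξ0 i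
  have h5 : ∀ j, ov w (ξ j) = 0 := fun j => by
    have := ov_eq_of w (hξv j)
    simpa using this
  rw [h3, ← coe_ov w (pow_ne_zero _ h4), ov_pow w h4, ov_prod _ _ fun i _ => hξ0 i] at h2
  simp only [h5, Finset.sum_const_zero, mul_zero] at h2
  exact absurd h2 (by simp)

end Val

end Vale.Agent.P283.H647
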