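import Vale.Agent.P283.H647.Dvr
import Vale.Agent.P283.H647.Init

/-!
Divisorial valuations of a hypersurface in a torus, along the coordinate hyperplane `Y₀ = 0`.
-/

set_option linter.all false

namespace Vale.Agent.P283.H647

open MvPolynomial Finset

variable {e : ℕ}

/-- Setting the first variable equal to zero. -/
noncomputable def red (e : ℕ) : MvPolynomial (Fin (e + 2)) ℂ →ₐ[ℂ] MvPolynomial (Fin (e + 2)) ℂ :=
  aeval (fun k => if k = 0 then 0 else X k)

theorem red_X0 : red e (X 0) = 0 := by simp [red]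

theorem red_X {k : Fin (e + 2)} (hk : k ≠ 0) : red e (X k) = X k := by simp [red, hk]

theorem sub_red_dvd (P : MvPolynomial (Fin (e + 2)) ℂ) : X 0 ∣ P - red e P := by
  induction P using MvPolynomial.induction_on with
  | C a => simp [red]
  | add p q hp hq =>
    rw [map_add]
    have : p + q - (red e p + red e q) = (p - red e p) + (q - red e q) := by ring
    rw [this]; exact dvd_add hp hq
  | mul_X p k hp =>
    rw [map_mul]
    by_cases hk : k = 0
    · subst hk
      rw [red_X0, mul_zero, sub_zero]; exact dvd_mul_left _ _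
    · rw [red_X hk, ← sub_mul]; exact dvd_mul_of_dvd_left hp _

theorem red_monomial (α : Fin (e + 2) →₀ ℕ) (a : ℂ) :
    red e (monomial α a) = if α 0 = 0 then monomial α a else 0 := by
  unfold red
  rw [aeval_monomial, Finsupp.prod_fintype _ _ (by simp)]
  split_ifs with h
  · rw [monomial_eq, Finsupp.prod_fintype _ _ (by simp)]
    congr 1
    refine Finset.prod_congr rfl fun k _ => ?_
    by_cases hk : k = 0
    · subst hk; rw [h]; simp
    · rw [if_neg hk]
  · rw [Finset.prod_eq_zero (Finset.mem_univ (0 : Fin (e + 2))), mul_zero]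
    simp [h]

theorem coeff_red (P : MvPolynomial (Fin (e + 2)) ℂ) (α : Fin (e + 2) →₀ ℕ) :
    (red e P).coeff α = if α 0 = 0 then P.coeff α else 0 := by
  classical
  induction P using MvPolynomial.induction_on' with
  | monomial u a =>
    rw [red_monomial]
    by_cases hu : u 0 = 0
    · rw [if_pos hu]
      by_cases hα : α 0 = 0
      · rw [if_pos hα]
      · rw [if_neg hα, coeff_monomial, if_neg]
        rintro rfl; exact hα hu
    · rw [if_neg hu]
      by_cases hα : α 0 = 0
      · rw [if_pos hα, coeff_zero, coeff_monomial, if_neg]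
        rintro rfl; exact hu hα
      · rw [if_neg hα, coeff_zero]
  | add p q hp hq =>
    rw [map_add, coeff_add, coeff_add, hp, hq]
    split_ifs <;> simp

theorem coeff_pderiv' {N : ℕ} (P : MvPolynomial (Fin N) ℂ) (i : Fin N) (α : Fin N →₀ ℕ) :
    (pderiv i P).coeff α = (α i + 1) * P.coeff (α + Finsupp.single i 1) := by
  have h1 := coeff_logd P i (α + Finsupp.single i 1)
  rw [add_comm α, coeff_X_mul] at h1
  rw [h1, Finsupp.add_apply, Finsupp.single_eq_same, add_comm (Finsupp.single i 1) α]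
  push_cast
  ring

theorem red_pderiv {i : Fin (e + 2)} (hi : i ≠ 0) (P : MvPolynomial (Fin (e + 2)) ℂ) :
    red e (pderiv i P) = pderiv i (red e P) := by
  ext α
  rw [coeff_red, coeff_pderiv', coeff_pderiv', coeff_red]
  have h1 : (α + Finsupp.single i 1 : Fin (e + 2) →₀ ℕ) 0 = α 0 := by
    rw [Finsupp.add_apply, Finsupp.single_apply, if_neg hi, add_zero]
  rw [h1]
  split_ifs <;> simp

theorem not_dvd_pderiv {N : ℕ} {h : MvPolynomial (Fin N) ℂ} {i : Fin N}
    (hi : pderiv i h ≠ 0) : ¬ h ∣ pderiv i h := by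
  rintro ⟨G, hG⟩
  have hh : h ≠ 0 := by rintro rfl; simp at hi
  have hG0 : G ≠ 0 := by rintro rfl; rw [mul_zero] at hG; exact hi hG
  have h1 : degreeOf i (pderiv i h) = degreeOf i h + degreeOf i G := by
    rw [hG, degreeOf_mul_eq hh hG0]
  have h3 : 0 < degreeOf i h := by
    obtain ⟨α, hα⟩ := support_nonempty.2 hi
    rw [mem_support_iff, coeff_pderiv'] at hα
    have h4 : α + Finsupp.single i 1 ∈ h.support := mem_support_iff.2 (right_ne_zero_of_mul hα)
    have h5 := monomial_le_degreeOf i h4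
    simp at h5
    omega
  have h2 : degreeOf i (pderiv i h) < degreeOf i h := by
    rw [degreeOf_lt_iff h3]
    intro α hα
    rw [mem_support_iff, coeff_pderiv'] at hα
    have h4 : α + Finsupp.single i 1 ∈ h.support := mem_support_iff.2 (right_ne_zero_of_mul hα)
    have h5 := monomial_le_degreeOf i h4
    simp at h5
    omega
  omega

variable {K : Type} [Field K] [Algebra ℂ K]

/-- A hypersurface in a torus meeting the hyperplane `Y₀ = 0` transversally along the zero set of
`h`. -/
structure TorusHyp (y : Fin (e + 2) → K) (F h g₀ : MvPolynomial (Fin (e + 2)) ℂ) : Prop where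
  y0 : ∀ k, y k ≠ 0
  gen : ∀ g : K, ∃ P Q : MvPolynomial (Fin (e + 2)) ℂ, aeval y Q ≠ 0 ∧ g = aeval y P / aeval y Q
  eqn : aeval y F = 0
  ker : ∀ P : MvPolynomial (Fin (e + 2)) ℂ, aeval y P = 0 → F ∣ P
  fac : red e F = h * g₀
  redh : red e h = h
  redg : red e g₀ = g₀
  irr : Irreducible h
  nomon : ∀ t : Fin (e + 2) →₀ ℕ, ¬ h ∣ monomial t 1
  sq : ¬ h ∣ g₀

theorem TorusHyp.exists_partial {y : Fin (e + 2) → K} {F h g₀ : MvPolynomial (Fin (e + 2)) ℂ}
    (H : TorusHyp y F h g₀) : ∃ i : Fin (e + 2), i ≠ 0 ∧ pderiv i h ≠ 0 := by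
  obtain ⟨α, hα, hα0⟩ : ∃ α ∈ h.support, α ≠ 0 := by
    by_contra hno
    push Not at hno
    have h1 : h = C (h.coeff 0) := by
      ext β
      rw [coeff_C]
      split_ifs with hβ
      · rw [hβ]
      · by_contra hne
        exact hβ (hno β (mem_support_iff.2 hne)).symm
    have h2 : h.coeff 0 ≠ 0 := by
      intro h0
      rw [h0, map_zero] at h1
      exact H.irr.ne_zero h1
    apply H.irr.not_isUnit
    rw [h1]
    exact (isUnit_iff_ne_zero.2 h2).map C
  have h0 : α 0 = 0 := by
    by_contra hne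
    have h1 := coeff_red h α
    rw [H.redh, if_neg hne] at h1
    exact mem_support_iff.1 hα h1
  obtain ⟨i, hi⟩ : ∃ i, α i ≠ 0 := by
    by_contra hno
    push Not at hno
    exact hα0 (Finsupp.ext hno)
  refine ⟨i, fun h => hi (by rw [h]; exact h0), ?_⟩
  intro hz
  have h1 := coeff_logd h i α
  rw [hz, mul_zero, coeff_zero] at h1
  exact mul_ne_zero (Nat.cast_ne_zero.2 hi) (mem_support_iff.1 hα) h1.symm

theorem TorusHyp.exists_val {y : Fin (e + 2) → K} {F h g₀ : MvPolynomial (Fin (e + 2)) ℂ}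
    (H : TorusHyp y F h g₀) : ∃ v : AddValuation K (WithTop ℤ), v (y 0) = 1 ∧
      (∀ P : MvPolynomial (Fin (e + 2)) ℂ, 0 ≤ v (aeval y P)) ∧
      ∀ P : MvPolynomial (Fin (e + 2)) ℂ, 0 < v (aeval y P) ↔ h ∣ red e P := by
  classical
  have hprime : Prime h := H.irr.prime
  let φ : MvPolynomial (Fin (e + 2)) ℂ →ₐ[ℂ] K := aeval y
  let S : Subalgebra ℂ K := φ.range
  let φ' : MvPolynomial (Fin (e + 2)) ℂ →ₐ[ℂ] S := φ.rangeRestrict
  have hsurj : Function.Surjective φ' := φ.rangeRestrict_surjective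
  have hφ' : ∀ P, ((φ' P : S) : K) = aeval y P := fun P => rfl
  haveI : IsNoetherianRing S :=
    isNoetherianRing_of_surjective (MvPolynomial (Fin (e + 2)) ℂ) S φ'.toRingHom hsurj
  haveI : IsFractionRing S K := IsFractionRing.of_field S K fun z => by
    obtain ⟨P, Q, -, h1⟩ := H.gen z
    exact ⟨φ' P, φ' Q, h1⟩
  let 𝔓 : Ideal (MvPolynomial (Fin (e + 2)) ℂ) := Ideal.comap (red e) (Ideal.span {h})
  have h𝔓 : ∀ P, P ∈ 𝔓 ↔ h ∣ red e P := fun P => by
    rw [Ideal.mem_comap, Ideal.mem_span_singleton]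
  haveI hsp : (Ideal.span {h}).IsPrime := (Ideal.span_singleton_prime hprime.ne_zero).2 hprime
  haveI h𝔓p : 𝔓.IsPrime := Ideal.comap_isPrime (red e) (Ideal.span {h})
  have hker : ∀ P, aeval y P = 0 → h ∣ red e P := by
    intro P hP
    obtain ⟨G, rfl⟩ := H.ker P hP
    rw [map_mul, H.fac]
    exact dvd_mul_of_dvd_left (dvd_mul_right _ _) _
  have hkerle : RingHom.ker (φ' : _ →+* S) ≤ 𝔓 := by
    intro P hP
    rw [h𝔓]
    apply hker
    rw [← hφ' P]
    have h1 : φ' P = 0 := hP
    rw [h1]; rfl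
  let P₀ : Ideal S := 𝔓.map (φ' : _ →+* S)
  haveI hP₀ : P₀.IsPrime := Ideal.map_isPrime_of_surjective hsurj hkerle
  have hmem : ∀ P, φ' P ∈ P₀ ↔ h ∣ red e P := by
    intro P
    constructor
    · intro h1
      obtain ⟨P', hP', h2⟩ := (Ideal.mem_map_iff_of_surjective _ hsurj).1 h1
      have h3 : h ∣ red e (P' - P) := by
        apply hker
        rw [map_sub, ← hφ', ← hφ']
        have h4 : φ' P' = φ' P := h2
        rw [h4, sub_self]
      rw [map_sub] at h3
      have h4 := (h𝔓 P').1 hP'
      have h5 : red e P = red e P' - (red e P' - red e P) := by ring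
      rw [h5]; exact dvd_sub h4 h3
    · intro h1
      exact Ideal.mem_map_of_mem _ ((h𝔓 P).2 h1)
  obtain ⟨F₁, hF₁⟩ := sub_red_dvd F
  obtain ⟨v, hv1, hv2, hv3⟩ := dvr_val (K := K) P₀ (φ' (X 0)) ((hmem _).2 (by rw [red_X0]; exact dvd_zero _))
    (by
      intro h0
      have h1 := congrArg Subtype.val h0
      rw [hφ', aeval_X] at h1
      exact H.y0 0 h1) (by
      intro p hp
      obtain ⟨P, rfl⟩ := hsurj p
      obtain ⟨G, hG⟩ := (hmem P).1 hp
      obtain ⟨P₁, hP₁⟩ := sub_red_dvd P
      refine ⟨φ' g₀, fun h1 => H.sq ?_, φ' (g₀ * P₁ - F₁ * G), ?_⟩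
      · have := (hmem g₀).1 h1
        rwa [H.redg] at this
      · apply Subtype.ext
        have e1 : ((φ' g₀ * φ' P : S) : K) = aeval y g₀ * aeval y P := rfl
        have e2 : ((φ' (X 0) * φ' (g₀ * P₁ - F₁ * G) : S) : K) =
          aeval y (X 0) * aeval y (g₀ * P₁ - F₁ * G) := rfl
        rw [e1, e2, ← map_mul, ← map_mul]
        have e3 : aeval y (g₀ * P - X 0 * (g₀ * P₁ - F₁ * G)) = 0 := by
          have e4 : g₀ * P - X 0 * (g₀ * P₁ - F₁ * G) = F * G := by
            have e5 : P = red e P + X 0 * P₁ := by rw [← hP₁]; ring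
            have e6 : F = red e F + X 0 * F₁ := by rw [← hF₁]; ring
            rw [e5, hG, e6, H.fac]; ring
          rw [e4, map_mul, H.eqn, zero_mul]
        rw [map_sub, sub_eq_zero] at e3
        exact e3)
  refine ⟨v, ?_, ?_, ?_⟩
  · have : algebraMap S K (φ' (X 0)) = y 0 := by
      show ((φ' (X 0) : S) : K) = y 0
      rw [hφ', aeval_X]
    rw [← this]; exact hv1
  · intro P; exact hv2 (φ' P)
  · intro P
    rw [← hmem P]
    exact hv3 (φ' P)

/-- The divisorial valuation with parameters. -/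
theorem TorusHyp.main {y : Fin (e + 2) → K} {F h g₀ : MvPolynomial (Fin (e + 2)) ℂ}
    (H : TorusHyp y F h g₀) : ∃ (v : AddValuation K (WithTop ℤ)) (i : Fin (e + 2)), i ≠ 0 ∧
      Q.IsDivisorial (e + 1) v ∧ v (y 0) = 1 ∧ (∀ k, k ≠ 0 → v (y k) = 0) ∧
      v (aeval y (pderiv i F)) = 0 ∧
      ∀ P : MvPolynomial (Fin e) ℂ, P ≠ 0 → v (aeval (fun k => y (i.succAbove k.succ)) P) = 0 := by
  obtain ⟨v, hv1, hv2, hv3⟩ := H.exists_val
  obtain ⟨i, hi, hi'⟩ := H.exists_partial
  have hprime : Prime h := H.irr.prime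
  have hzero : ∀ P, ¬ h ∣ red e P → v (aeval y P) = 0 := by
    intro P hP
    refine le_antisymm (not_lt.1 fun h1 => hP ((hv3 P).1 h1)) (hv2 P)
  have hres : ∀ P : MvPolynomial (Fin e) ℂ, P ≠ 0 →
      v (aeval (fun k => y (i.succAbove k.succ)) P) = 0 := by
    intro P hP
    let ρ : Fin e → Fin (e + 2) := fun k => i.succAbove k.succ
    have hρ : Function.Injective ρ := fun a b hab =>
      Fin.succ_injective _ (Fin.succAbove_right_injective hab)
    have hρ0 : ∀ k, ρ k ≠ 0 := by
      intro k hk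
      have h1 : i.succAbove 0 = 0 := Fin.succAbove_ne_zero_zero hi
      rw [← h1] at hk
      exact Fin.succ_ne_zero _ (Fin.succAbove_right_injective hk)
    have h1 : aeval (fun k => y (i.succAbove k.succ)) P = aeval y (rename ρ P) := by
      rw [aeval_rename]; rfl
    rw [h1]
    apply hzero
    have hP' : rename ρ P ≠ 0 := fun h0 => hP (rename_injective ρ hρ (by rw [h0, map_zero]))
    have hred : red e (rename ρ P) = rename ρ P := by
      induction P using MvPolynomial.induction_on with
      | C a => simp [red]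
      | add p q hp hq =>
        have key : ∀ R : MvPolynomial (Fin e) ℂ, red e (rename ρ R) = rename ρ R := by
          intro R
          induction R using MvPolynomial.induction_on with
          | C a => simp [red]
          | add p q hp hq => rw [map_add, map_add, hp, hq]
          | mul_X p k hp => rw [map_mul, map_mul, hp, rename_X, red_X (hρ0 k)]
        exact key _
      | mul_X p k hp =>
        have key : ∀ R : MvPolynomial (Fin e) ℂ, red e (rename ρ R) = rename ρ R := by
          intro R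
          induction R using MvPolynomial.induction_on with
          | C a => simp [red]
          | add p q hp hq => rw [map_add, map_add, hp, hq]
          | mul_X p k hp => rw [map_mul, map_mul, hp, rename_X, red_X (hρ0 k)]
        exact key _
    rw [hred]
    rintro ⟨G, hG⟩
    have hG0 : G ≠ 0 := by rintro rfl; rw [mul_zero] at hG; exact hP' hG
    have h2 : degreeOf i (rename ρ P) = degreeOf i h + degreeOf i G := by
      rw [hG, degreeOf_mul_eq H.irr.ne_zero hG0]
    have h3 : degreeOf i (rename ρ P) = 0 := by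
      rw [← Nat.le_zero, degreeOf_le_iff]
      intro α hα
      rw [Nat.le_zero]
      rw [mem_support_iff] at hα
      obtain ⟨β, rfl, -⟩ := coeff_rename_ne_zero ρ P α hα
      rw [Finsupp.mapDomain_notin_range]
      rintro ⟨k, hk⟩
      exact Fin.succAbove_ne i _ hk
    have h4 : 0 < degreeOf i h := by
      obtain ⟨α, hα⟩ := support_nonempty.2 hi'
      rw [mem_support_iff, coeff_pderiv'] at hα
      have h4 : α + Finsupp.single i 1 ∈ h.support := mem_support_iff.2 (right_ne_zero_of_mul hα)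
      have h5 := monomial_le_degreeOf i h4
      simp at h5
      omega
    omega
  refine ⟨v, i, hi, ⟨?_, ⟨_, hv1⟩, ⟨fun k => y (i.succAbove k.succ), hres⟩⟩, hv1, ?_, ?_, hres⟩
  · intro c hc
    have h1 : algebraMap ℂ K c = aeval y (C c : MvPolynomial (Fin (e + 2)) ℂ) := by simp
    rw [h1]
    apply hzero
    intro h2
    apply H.nomon 0
    have h3 : red e (C c) = C c := by simp [red]
    rw [h3] at h2
    have h4 : (monomial (0 : Fin (e + 2) →₀ ℕ) (1 : ℂ) : MvPolynomial (Fin (e + 2)) ℂ) =
        C c * C c⁻¹ := by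
      rw [← C_mul, mul_inv_cancel₀ hc]; rfl
    rw [h4]; exact dvd_mul_of_dvd_left h2 _
  · intro k hk
    have h1 : y k = aeval y (X k : MvPolynomial (Fin (e + 2)) ℂ) := by simp
    rw [h1]
    apply hzero
    rw [red_X hk]
    exact H.nomon (Finsupp.single k 1)
  · apply hzero
    rw [red_pderiv hi, H.fac, Derivation.leibniz, smul_eq_mul, smul_eq_mul]
    intro h1
    have h2 : h ∣ g₀ * pderiv i h := by
      have h3 : g₀ * pderiv i h = (h * pderiv i g₀ + g₀ * pderiv i h) - h * pderiv i g₀ := by ring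
      rw [h3]; exact dvd_sub h1 (dvd_mul_right _ _)
    rcases hprime.dvd_or_dvd h2 with h3 | h3
    · exact H.sq h3
    · exact not_dvd_pderiv hi' h3

end Vale.Agent.P283.H647
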