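import Vale.Agent.P283.H647.Psi

/-!
Invariance of residue forms under linear automorphisms.
-/

set_option linter.all false

namespace Vale.Agent.P283.H647

open MvPolynomial Finset
open scoped KaehlerDifferential

section Der

variable {K L : Type} [Field K] [Field L] [Algebra ℂ K] [Algebra ℂ L] [Algebra K L]
  [IsScalarTower ℂ K L] {d : ℕ}

theorem der_zero_of_alg [Algebra.IsAlgebraic K L] (δ : Derivation ℂ L L)
    (hδ : ∀ g : K, δ (algebraMap K L g) = 0) (a : L) : δ a = 0 := by
  haveI : CharZero K := charZero_of_injective_algebraMap (algebraMap ℂ K).injective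
  haveI : Algebra.IsSeparable K L := inferInstance
  haveI : Algebra.FormallyUnramified K L := Algebra.FormallyUnramified.of_isSeparable K L
  let δl : L →ₗ[K] L :=
    { toFun := δ
      map_add' := map_add δ
      map_smul' := fun k a => by
        rw [Algebra.smul_def, Derivation.leibniz, hδ, smul_zero, add_zero, smul_eq_mul,
          RingHom.id_apply, Algebra.smul_def] }
  let δ' : Derivation K L L := Derivation.mk' δl (fun a b => δ.leibniz a b)
  have h1 : δ' = 0 := by
    have h2 := δ'.liftKaehlerDifferential_comp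
    rw [← h2]
    have h3 : δ'.liftKaehlerDifferential = 0 := LinearMap.ext fun y => by
      have : y = 0 := Subsingleton.elim _ _
      rw [this, map_zero, map_zero]
    rw [h3]
    rfl
  have h2 : δ' a = 0 := by rw [h1]; rfl
  exact h2

theorem der_comm [Algebra.IsAlgebraic K L] {D : Fin d → Derivation ℂ K K}
    {D' : Fin d → Derivation ℂ L L}
    (hD' : ∀ i (f : K), D' i (algebraMap K L f) = algebraMap K L (D i f)) (τ : L ≃ₐ[ℂ] L)
    (hτ : ∀ g : K, τ (algebraMap K L g) = algebraMap K L g) (i : Fin d) (a : L) :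
    D' i (τ a) = τ (D' i a) := by
  let δ₁ : Derivation ℂ L L := Derivation.mk'
    (τ.symm.toLinearMap ∘ₗ (D' i : L →ₗ[ℂ] L) ∘ₗ τ.toLinearMap) (fun a b => by
      simp only [LinearMap.comp_apply, AlgEquiv.toLinearMap_apply, map_mul, Derivation.coeFn_coe,
        Derivation.leibniz, smul_eq_mul, map_add, AlgEquiv.symm_apply_apply])
  have hδ₁ : ∀ a, δ₁ a = τ.symm (D' i (τ a)) := fun a => rfl
  have h1 : ∀ a, (δ₁ - D' i) a = 0 := der_zero_of_alg (K := K) (δ₁ - D' i) fun g => by
    rw [Derivation.sub_apply, hδ₁, hτ, hD', sub_eq_zero, AlgEquiv.symm_apply_eq, hτ]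
  have h2 := h1 a
  rw [Derivation.sub_apply, hδ₁, sub_eq_zero, AlgEquiv.symm_apply_eq] at h2
  exact h2

theorem jac_comm {D' : Fin d → Derivation ℂ L L} (τ : L ≃ₐ[ℂ] L)
    (hτ : ∀ i a, D' i (τ a) = τ (D' i a)) (g : Fin d → L) :
    Q.jac D' (fun i => τ (g i)) = τ (Q.jac D' g) := by
  unfold Q.jac
  rw [AlgEquiv.map_det]
  congr 1
  ext i j
  simp [hτ]

end Der

section Lsub

variable {N : ℕ}

/-- Substitution of linear forms. -/
noncomputable def lsub (M : Matrix (Fin N) (Fin N) ℂ) :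
    MvPolynomial (Fin N) ℂ →ₐ[ℂ] MvPolynomial (Fin N) ℂ :=
  aeval fun j => ∑ l, C (M j l) * X l

theorem lsub_X (M : Matrix (Fin N) (Fin N) ℂ) (j : Fin N) :
    lsub M (X j) = ∑ l, C (M j l) * X l := by
  unfold lsub
  rw [aeval_X]

theorem lsub_mul (M M' : Matrix (Fin N) (Fin N) ℂ) (P : MvPolynomial (Fin N) ℂ) :
    lsub M' (lsub M P) = lsub (M * M') P := by
  have h1 : (lsub M').comp (lsub M) = lsub (M * M') := by
    apply MvPolynomial.algHom_ext
    intro j
    rw [AlgHom.comp_apply, lsub_X, lsub_X, map_sum]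
    simp only [map_mul, lsub_X, ← algebraMap_eq, AlgHom.commutes, Matrix.mul_apply, map_sum,
      Finset.mul_sum, Finset.sum_mul]
    rw [Finset.sum_comm]
    refine Finset.sum_congr rfl fun l _ => Finset.sum_congr rfl fun k _ => ?_
    ring
  exact DFunLike.congr_fun h1 P

theorem lsub_one (P : MvPolynomial (Fin N) ℂ) : lsub (1 : Matrix (Fin N) (Fin N) ℂ) P = P := by
  have h1 : lsub (1 : Matrix (Fin N) (Fin N) ℂ) = AlgHom.id ℂ _ := by
    apply MvPolynomial.algHom_ext
    intro j
    rw [lsub_X]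
    simp [Matrix.one_apply]
  rw [h1]; rfl

theorem lsub_injective {M : Matrix (Fin N) (Fin N) ℂ} (hM : M.det ≠ 0) :
    Function.Injective (lsub M) := by
  intro P P' h
  have h1 := congrArg (lsub M⁻¹) h
  rw [lsub_mul, lsub_mul, Matrix.mul_nonsing_inv _ (isUnit_iff_ne_zero.2 hM), lsub_one,
    lsub_one] at h1
  exact h1

theorem totalDegree_lsub (M : Matrix (Fin N) (Fin N) ℂ) (P : MvPolynomial (Fin N) ℂ) :
    (lsub M P).totalDegree ≤ P.totalDegree := by
  have h1 : lsub M P = ∑ α ∈ P.support, C (P.coeff α) * ∏ j, (∑ l, C (M j l) * X l) ^ α j := by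
    conv_lhs => rw [P.as_sum, map_sum]
    refine Finset.sum_congr rfl fun α _ => ?_
    unfold lsub
    rw [aeval_monomial, Finsupp.prod_fintype _ _ (by simp), algebraMap_eq]
  rw [h1]
  refine (totalDegree_finset_sum _ _).trans (Finset.sup_le fun α hα => ?_)
  have h2 : ∀ j, (∑ l, C (M j l) * X l : MvPolynomial (Fin N) ℂ).totalDegree ≤ 1 := by
    intro j
    refine (totalDegree_finset_sum _ _).trans (Finset.sup_le fun l _ => ?_)
    refine (totalDegree_mul _ _).trans ?_
    rw [totalDegree_C, totalDegree_X, zero_add]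
  refine (totalDegree_mul _ _).trans ?_
  rw [totalDegree_C, zero_add]
  refine (totalDegree_finset_prod _ _).trans ?_
  have h3 : ∑ j, α j ≤ P.totalDegree := by
    have h4 := le_totalDegree hα
    rwa [Finsupp.sum_fintype _ _ (by simp)] at h4
  refine le_trans (Finset.sum_le_sum fun j _ => ?_) h3
  refine (totalDegree_pow _ _).trans ?_
  calc α j * _ ≤ α j * 1 := Nat.mul_le_mul_left _ (h2 j)
    _ = α j := mul_one _

/-- chain rule -/
theorem der_aeval' {B : Type} [CommRing B] [Algebra ℂ B] (δ : Derivation ℂ B B) (x : Fin N → B)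
    (P : MvPolynomial (Fin N) ℂ) :
    δ (aeval x P) = ∑ j, aeval x (pderiv j P) * δ (x j) := by
  induction P using MvPolynomial.induction_on with
  | C a => simp
  | add p q hp hq =>
    simp only [map_add, hp, hq, add_mul, Finset.sum_add_distrib]
  | mul_X p i hp =>
    have h1 : ∀ j, aeval x (pderiv j (p * X i)) * δ (x j) =
        aeval x (pderiv j p) * δ (x j) * x i + (if j = i then aeval x p * δ (x i) else 0) := by
      intro j
      rw [Derivation.leibniz, smul_eq_mul, smul_eq_mul, map_add, map_mul, map_mul, aeval_X,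
        pderiv_X]
      by_cases hj : j = i
      · subst hj; simp; ring
      · rw [Pi.single_eq_of_ne (fun h => hj h.symm)]; simp [hj]; ring
    rw [Finset.sum_congr rfl fun j _ => h1 j, Finset.sum_add_distrib, Finset.sum_ite_eq']
    simp only [Finset.mem_univ, if_true]
    rw [map_mul, aeval_X, Derivation.leibniz, smul_eq_mul, smul_eq_mul, hp, ← Finset.sum_mul]
    ring

theorem pderiv_lsub (M : Matrix (Fin N) (Fin N) ℂ) (P : MvPolynomial (Fin N) ℂ) (l : Fin N) :
    pderiv l (lsub M P) = ∑ j, lsub M (pderiv j P) * C (M j l) := by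
  unfold lsub
  rw [der_aeval']
  refine Finset.sum_congr rfl fun j _ => ?_
  congr 1
  rw [map_sum, Finset.sum_eq_single l]
  · rw [Derivation.leibniz, pderiv_C, smul_zero, add_zero, pderiv_X_self, smul_eq_mul, mul_one]
  · intro k _ hk
    rw [Derivation.leibniz, pderiv_C, smul_zero, add_zero, pderiv_X_of_ne hk, smul_zero]
  · intro h; exact absurd (Finset.mem_univ _) h

end Lsub

section Semi

variable {d : ℕ} {L : Type} [Field L] [Algebra ℂ L] {x : Fin (d + 1) → L}
  {f : MvPolynomial (Fin (d + 1)) ℂ}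

theorem aeval_lsub (τ : L ≃ₐ[ℂ] L) {M : Matrix (Fin (d + 1)) (Fin (d + 1)) ℂ}
    (hτ : ∀ j, τ (x j) = ∑ l, M j l • x l) (P : MvPolynomial (Fin (d + 1)) ℂ) :
    aeval x (lsub M P) = τ (aeval x P) := by
  have h1 : (aeval x).comp (lsub M) = (τ : L →ₐ[ℂ] L).comp (aeval x) := by
    apply MvPolynomial.algHom_ext
    intro j
    rw [AlgHom.comp_apply, AlgHom.comp_apply, lsub_X, aeval_X, map_sum]
    show _ = τ (x j)
    rw [hτ]
    simp only [map_mul, aeval_X, Algebra.smul_def, ← algebraMap_eq, AlgHom.commutes]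
  exact DFunLike.congr_fun h1 P

theorem HypData.lsub_f (H : HypData x f) (τ : L ≃ₐ[ℂ] L)
    {M : Matrix (Fin (d + 1)) (Fin (d + 1)) ℂ} (hM : M.det ≠ 0)
    (hτ : ∀ j, τ (x j) = ∑ l, M j l • x l) : ∃ c : ℂ, c ≠ 0 ∧ lsub M f = C c * f := by
  have h1 : aeval x (lsub M f) = 0 := by rw [aeval_lsub τ hτ, H.eqn, map_zero]
  obtain ⟨g, hg⟩ := (H.ker _).1 h1
  have h2 : lsub M f ≠ 0 := fun h0 => H.f0 (lsub_injective hM (by rw [h0, map_zero]))
  have hg0 : g ≠ 0 := by rintro rfl; rw [mul_zero] at hg; exact h2 hg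
  have h3 := totalDegree_lsub M f
  rw [hg, totalDegree_mul_of_isDomain H.f0 hg0] at h3
  have h4 : g.totalDegree = 0 := by omega
  rw [totalDegree_eq_zero_iff_eq_C] at h4
  refine ⟨g.coeff 0, ?_, ?_⟩
  · intro h0
    rw [h0, map_zero] at h4
    exact hg0 h4
  · rw [← h4, hg, mul_comm]

/-- The coefficient of the residue form is semi-invariant. -/
theorem HypData.semi_h (H : HypData x f) {D' : Fin d → Derivation ℂ L L} {h : L}
    (R : ResForm x f D' h) (τ : L ≃ₐ[ℂ] L) (hcomm : ∀ i a, D' i (τ a) = τ (D' i a))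
    {M : Matrix (Fin (d + 1)) (Fin (d + 1)) ℂ} (hM : M.det ≠ 0)
    (hτ : ∀ j, τ (x j) = ∑ l, M j l • x l) {c : ℂ} (hc : c ≠ 0) (hcf : lsub M f = C c * f) :
    algebraMap ℂ L M.det * τ h = algebraMap ℂ L c * h := by
  classical
  set θ : Fin (d + 1) → L := fun j => aeval x (pderiv j f) with hθ
  set Ξ : Matrix (Fin d) (Fin (d + 1)) L := Matrix.of fun k j => D' k (x j) with hΞ
  have h1 : ∀ k, ∑ j, θ j * Ξ k j = 0 := by
    intro k
    have h2 := der_aeval (D' k) x f
    rw [H.eqn, map_zero] at h2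
    exact h2.symm
  obtain ⟨i, hi⟩ := R.smooth
  let U : Fin d → Fin (d + 1) → L := fun l j => algebraMap ℂ L (M (i.succAbove l) j)
  have hU : Q.jac D' (fun l => τ (x (i.succAbove l))) =
      (Matrix.of fun l k : Fin d => ∑ j, U l j * Ξ k j).det := by
    unfold Q.jac
    congr 1
    ext l k
    simp only [Matrix.of_apply, hτ, map_sum, Derivation.map_smul, U, hΞ]
    simp only [Algebra.smul_def]
  obtain ⟨i₀, hi₀⟩ := R.smooth
  have h3 := det_formula θ Ξ h1 U (fun j => if j = i₀ then 1 else 0)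
  have h4 : (∑ i' : Fin (d + 1), (-1) ^ (i' : ℕ) * (if i' = i₀ then (1 : L) else 0) *
        (Matrix.of fun l k : Fin d => Ξ k (i'.succAbove l)).det) =
      (-1) ^ (i₀ : ℕ) * Q.jac D' (x ∘ i₀.succAbove) := by
    rw [Finset.sum_eq_single i₀]
    · simp only [if_true, mul_one]; rfl
    · intro j _ hj; simp [hj]
    · intro h; exact absurd (Finset.mem_univ _) h
  have h5 : (∑ j, θ j * (if j = i₀ then (1 : L) else 0)) = θ i₀ := by simp
  rw [h4, h5, ← hU] at h3
  have e1 : ((-1 : L) ^ (i₀ : ℕ)) * (-1) ^ (i₀ : ℕ) = 1 := by rw [← mul_pow]; simp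
  -- `h • jac = det`
  have h6 : h * Q.jac D' (fun l => τ (x (i.succAbove l))) =
      (Matrix.of (Fin.cons θ U : Fin (d + 1) → Fin (d + 1) → L)).det := by
    have h7 := R.res i₀
    apply mul_left_cancel₀ hi₀
    calc θ i₀ * (h * Q.jac D' (fun l => τ (x (i.succAbove l))))
        = h * (θ i₀ * Q.jac D' (fun l => τ (x (i.succAbove l)))) := by ring
      _ = (Matrix.of (Fin.cons θ U : Fin (d + 1) → Fin (d + 1) → L)).det *
          ((-1) ^ (i₀ : ℕ) * (h * Q.jac D' (x ∘ i₀.succAbove))) := by rw [← h3]; ring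
      _ = (Matrix.of (Fin.cons θ U : Fin (d + 1) → Fin (d + 1) → L)).det *
          ((-1) ^ (i₀ : ℕ) * (-1) ^ (i₀ : ℕ) * θ i₀) := by rw [h7]; simp only [hθ]; ring
      _ = _ := by rw [e1]; ring
  -- the gradient
  have h7 : ∀ l, algebraMap ℂ L c * θ l = ∑ j, τ (θ j) * algebraMap ℂ L (M j l) := by
    intro l
    have h8 : aeval x (pderiv l (lsub M f)) = aeval x (pderiv l (C c * f)) := by rw [hcf]
    rw [pderiv_lsub, map_sum, Derivation.leibniz, pderiv_C, smul_zero, add_zero, smul_eq_mul,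
      map_mul, aeval_C] at h8
    simp only [hθ]
    rw [← h8]
    refine Finset.sum_congr rfl fun j _ => ?_
    rw [map_mul, aeval_lsub τ hτ, aeval_C]
  have h8 : algebraMap ℂ L c * (Matrix.of (Fin.cons θ U : Fin (d + 1) → Fin (d + 1) → L)).det =
      τ (θ i) * ((-1) ^ (i : ℕ) * algebraMap ℂ L M.det) := by
    let A₁ : Matrix (Fin (d + 1)) (Fin (d + 1)) L :=
      Matrix.of (Fin.cons (fun j => algebraMap ℂ L (M i j)) U : Fin (d + 1) → Fin (d + 1) → L)
    let cc : Fin (d + 1) → L := Fin.cons (τ (θ i)) (fun l => τ (θ (i.succAbove l)))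
    have k1 : A₁.updateRow 0 (algebraMap ℂ L c • θ) = A₁.updateRow 0 (∑ k, cc k • A₁ k) := by
      congr 1
      funext j
      rw [Finset.sum_apply, Fin.sum_univ_succ, Pi.smul_apply, smul_eq_mul, h7,
        Fin.sum_univ_succAbove _ i]
      simp only [cc, A₁, U, Pi.smul_apply, Matrix.of_apply, smul_eq_mul, Fin.cons_zero,
        Fin.cons_succ]
    have k2 : A₁.updateRow 0 θ =
        (Matrix.of (Fin.cons θ U : Fin (d + 1) → Fin (d + 1) → L)) := by
      ext l j
      rw [Matrix.updateRow_apply]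
      refine Fin.cases ?_ (fun l => ?_) l
      · rw [if_pos rfl, Matrix.of_apply, Fin.cons_zero]
      · rw [if_neg (Fin.succ_ne_zero l), Matrix.of_apply, Fin.cons_succ]
        simp only [A₁, Matrix.of_apply, Fin.cons_succ]
    have k3 := congrArg Matrix.det k1
    rw [Matrix.det_updateRow_smul, k2, Matrix.det_updateRow_sum, smul_eq_mul] at k3
    rw [k3]
    simp only [cc, Fin.cons_zero]
    congr 1
    -- expand both along the row
    have k4 : A₁.det = ∑ j : Fin (d + 1), (-1) ^ (j : ℕ) * algebraMap ℂ L (M i j) *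
        ((M.map (algebraMap ℂ L)).submatrix i.succAbove j.succAbove).det := by
      rw [Matrix.det_succ_row_zero]
      refine Finset.sum_congr rfl fun j _ => ?_
      simp only [A₁, Matrix.of_apply, Fin.cons_zero]
      congr 1
    have k5 : algebraMap ℂ L M.det = ∑ j : Fin (d + 1), (-1) ^ ((i : ℕ) + (j : ℕ)) *
        algebraMap ℂ L (M i j) *
        ((M.map (algebraMap ℂ L)).submatrix i.succAbove j.succAbove).det := by
      rw [RingHom.map_det, RingHom.mapMatrix_apply, Matrix.det_succ_row _ i]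
      rfl
    rw [k4, k5, Finset.mul_sum]
    refine Finset.sum_congr rfl fun j _ => ?_
    have k6 : ((-1 : L) ^ (i : ℕ)) * (-1) ^ (i : ℕ) = 1 := by rw [← mul_pow]; simp
    rw [pow_add]
    linear_combination (-((-1) ^ (j : ℕ) * algebraMap ℂ L (M i j) *
      ((M.map (algebraMap ℂ L)).submatrix i.succAbove j.succAbove).det)) * k6
  -- `τ h • jac`
  have h9 : τ h * Q.jac D' (fun l => τ (x (i.succAbove l))) = (-1) ^ (i : ℕ) * τ (θ i) := by
    have k1 := congrArg τ (R.res i)
    rw [map_mul, ← jac_comm τ hcomm, map_mul, map_pow, map_neg, map_one] at k1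
    exact k1
  have hj : Q.jac D' (fun l => τ (x (i.succAbove l))) ≠ 0 := by
    intro h0
    rw [h0, mul_zero] at h9
    exact mul_ne_zero (pow_ne_zero _ (by norm_num)) ((map_ne_zero τ).2 hi) h9.symm
  apply mul_right_cancel₀ hj
  calc algebraMap ℂ L M.det * τ h * Q.jac D' (fun l => τ (x (i.succAbove l)))
      = algebraMap ℂ L M.det * (τ h * Q.jac D' (fun l => τ (x (i.succAbove l)))) := by ring
    _ = τ (θ i) * ((-1) ^ (i : ℕ) * algebraMap ℂ L M.det) := by rw [h9]; ring
    _ = algebraMap ℂ L c * (h * Q.jac D' (fun l => τ (x (i.succAbove l)))) := by rw [← h8, ← h6]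
    _ = algebraMap ℂ L c * h * Q.jac D' (fun l => τ (x (i.succAbove l))) := by ring

end Semi

end Vale.Agent.P283.H647
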