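import Mathlib

/-!
A uniform Kronecker theorem: if a point `t` pairs integrally with the small vectors of a lattice
`M ⊆ ℤ^ι` of finite index, then it is close to the dual lattice of `M`.
-/

set_option linter.all false

namespace Vale.Agent.P283.H647

open Finset Complex

theorem finite_quotient {ι : Type} [Fintype ι] (M : AddSubgroup (ι → ℤ)) (r : ℕ) (hr : 0 < r)
    (hM : ∀ u : ι → ℤ, (r : ℤ) • u ∈ M) : Finite ((ι → ℤ) ⧸ M) := by
  haveI : NeZero r := ⟨hr.ne'⟩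
  refine Finite.of_surjective
    (fun a : ι → Fin r => (QuotientAddGroup.mk (fun j => ((a j : ℕ) : ℤ)) : (ι → ℤ) ⧸ M)) ?_
  intro g
  obtain ⟨u, rfl⟩ := QuotientAddGroup.mk_surjective g
  have hr' : (0 : ℤ) < r := by exact_mod_cast hr
  refine ⟨fun j => ⟨(u j % r).toNat, ?_⟩, ?_⟩
  · have h1 := Int.emod_lt_of_pos (u j) hr'
    have h2 := Int.emod_nonneg (u j) hr'.ne'
    omega
  · rw [QuotientAddGroup.eq]
    have h3 : (-(fun j => (((u j % r).toNat : ℕ) : ℤ)) + u : ι → ℤ)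
        = (r : ℤ) • (fun j => u j / r) := by
      ext j
      have h2 := Int.emod_nonneg (u j) hr'.ne'
      have h4 := Int.emod_add_mul_ediv (u j) r
      simp only [Pi.add_apply, Pi.neg_apply, Pi.smul_apply, smul_eq_mul, Int.toNat_of_nonneg h2]
      linarith
    rw [h3]
    exact hM _

/-- the weights -/
noncomputable def wK (K : ℕ) (s : ℕ) : ℝ := (K.choose s : ℝ) / 2 ^ K

theorem wK_nonneg (K s : ℕ) : 0 ≤ wK K s := by unfold wK; positivity

theorem sum_wK (K : ℕ) : ∑ s ∈ range (K + 1), wK K s = 1 := by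
  unfold wK
  rw [← Finset.sum_div]
  have h1 : ∑ s ∈ range (K + 1), (K.choose s : ℝ) = 2 ^ K := by
    have := Nat.sum_range_choose K
    exact_mod_cast this
  rw [h1, div_self (by positivity)]

theorem half_pow (K : ℕ) (z : ℂ) :
    ((1 + z) / 2) ^ K = ∑ s ∈ range (K + 1), (wK K s : ℂ) * z ^ s := by
  rw [div_pow, add_comm, add_pow, Finset.sum_div]
  refine Finset.sum_congr rfl fun s _ => ?_
  unfold wK
  push_cast
  ring

theorem pos_sum {ι : Type} [Fintype ι] [DecidableEq ι] (K : ℕ) :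
    (1 : ℝ) / (K + 1) ^ Fintype.card ι ≤
      ∑ s ∈ Fintype.piFinset (fun _ : ι => range (K + 1)), (∏ j, wK K (s j)) ^ 2 := by
  have h1 : ∑ s ∈ Fintype.piFinset (fun _ : ι => range (K + 1)), ∏ j, wK K (s j) = 1 := by
    rw [← Finset.prod_univ_sum (fun _ : ι => range (K + 1)) (fun _ s => wK K s)]
    simp only [sum_wK, Finset.prod_const_one]
  have h2 := sq_sum_le_card_mul_sum_sq (s := Fintype.piFinset (fun _ : ι => range (K + 1)))
    (f := fun s => ∏ j, wK K (s j))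
  rw [h1] at h2
  have h3 : ((Fintype.piFinset (fun _ : ι => range (K + 1))).card : ℝ)
      = ((K : ℝ) + 1) ^ Fintype.card ι := by
    rw [Fintype.card_piFinset]
    simp
  rw [h3] at h2
  rw [div_le_iff₀ (by positivity)]
  linarith

section Main

variable {ι : Type} [Fintype ι] [DecidableEq ι] (M : AddSubgroup (ι → ℤ)) (t : ι → ℝ)

/-- the phases -/
noncomputable def tau (j : ι) : ℂ := cexp (2 * Real.pi * I * t j)

theorem tau_ne (j : ι) : tau t j ≠ 0 := Complex.exp_ne_zero _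

theorem norm_tau (j : ι) : ‖tau t j‖ = 1 := by
  unfold tau
  have : (2 * Real.pi * I * t j : ℂ) = ((2 * Real.pi * t j : ℝ) : ℂ) * I := by push_cast; ring
  rw [this, Complex.norm_exp_ofReal_mul_I]

theorem tau_pow {u : ι → ℤ} {z : ℤ} (h : ∑ j, t j * u j = z) : ∏ j, tau t j ^ u j = 1 := by
  unfold tau
  have h1 : ∀ j, cexp (2 * Real.pi * I * t j) ^ u j = cexp (2 * Real.pi * I * (t j * u j)) := by
    intro j
    rw [← Complex.exp_int_mul]
    congr 1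
    ring
  simp only [h1]
  rw [← Complex.exp_sum, ← Finset.mul_sum]
  have h2 : (∑ j, (t j : ℂ) * (u j : ℂ)) = (z : ℂ) := by
    have := congrArg (fun x : ℝ => (x : ℂ)) h
    push_cast at this
    exact this
  rw [h2, Complex.exp_eq_one_iff]
  exact ⟨z, by ring⟩

/-- the quotients of characters and phases -/
noncomputable def zz (ψ : AddChar ((ι → ℤ) ⧸ M) ℂ) (j : ι) : ℂ :=
  ψ (QuotientAddGroup.mk (Pi.single j 1)) / tau t j

theorem char_single (ψ : AddChar ((ι → ℤ) ⧸ M) ℂ) (hψ : ∀ g, ψ g ≠ 0) (u : ι → ℤ) :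
    ∏ j, ψ (QuotientAddGroup.mk (Pi.single j 1)) ^ u j = ψ (QuotientAddGroup.mk u) := by
  have h1 : ∀ (g : (ι → ℤ) ⧸ M) (n : ℤ), ψ g ^ n = ψ (n • g) := by
    intro g n
    rw [AddChar.map_zsmul_eq_zpow]
  simp only [h1]
  have h2 : ∏ j, ψ (u j • (QuotientAddGroup.mk (Pi.single j 1) : (ι → ℤ) ⧸ M))
      = ψ (∑ j, u j • (QuotientAddGroup.mk (Pi.single j 1) : (ι → ℤ) ⧸ M)) := by
    have h4 : ∀ (s : Finset ι) (g : ι → (ι → ℤ) ⧸ M), ∏ j ∈ s, ψ (g j) = ψ (∑ j ∈ s, g j) := by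
      intro s g
      induction s using Finset.induction_on with
      | empty => simp
      | insert a s ha ih =>
        rw [Finset.prod_insert ha, Finset.sum_insert ha, AddChar.map_add_eq_mul, ih]
    exact h4 _ _
  rw [h2]
  congr 1
  have h3 : u = ∑ j, u j • (Pi.single j 1 : ι → ℤ) := by
    ext i
    simp [Finset.sum_apply, Pi.single_apply]
  conv_rhs => rw [h3]
  rw [← QuotientAddGroup.coe_mk'] 
  simp only [map_sum, map_zsmul]

/-- the averaged trigonometric polynomial -/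
noncomputable def AA (K : ℕ) (ψ : AddChar ((ι → ℤ) ⧸ M) ℂ) : ℂ := ∏ j, ((1 + zz M t ψ j) / 2) ^ K

theorem AA_eq (K : ℕ) (ψ : AddChar ((ι → ℤ) ⧸ M) ℂ) :
    AA M t K ψ = ∑ s ∈ Fintype.piFinset (fun _ : ι => range (K + 1)),
      ((∏ j, wK K (s j) : ℝ) : ℂ) * ∏ j, zz M t ψ j ^ s j := by
  unfold AA
  simp only [half_pow]
  rw [Finset.prod_univ_sum]
  refine Finset.sum_congr rfl fun s _ => ?_
  rw [Finset.prod_mul_distrib]
  push_cast
  rfl

variable [Finite ((ι → ℤ) ⧸ M)]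

theorem norm_zz (ψ : AddChar ((ι → ℤ) ⧸ M) ℂ) (j : ι) : ‖zz M t ψ j‖ = 1 := by
  unfold zz
  rw [norm_div, norm_tau, AddChar.norm_apply, div_one]

theorem char_ne (ψ : AddChar ((ι → ℤ) ⧸ M) ℂ) (g : (ι → ℤ) ⧸ M) : ψ g ≠ 0 := by
  intro h
  have := AddChar.norm_apply ψ g
  rw [h, norm_zero] at this
  exact zero_ne_one this

theorem zz_prod (ψ : AddChar ((ι → ℤ) ⧸ M) ℂ) (u : ι → ℤ) :
    ∏ j, zz M t ψ j ^ u j = ψ (QuotientAddGroup.mk u) / ∏ j, tau t j ^ u j := by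
  unfold zz
  simp only [div_zpow, Finset.prod_div_distrib]
  rw [char_single M ψ (char_ne M ψ)]

theorem norm_sq_AA (K : ℕ) (ψ : AddChar ((ι → ℤ) ⧸ M) ℂ) :
    ((‖AA M t K ψ‖ ^ 2 : ℝ) : ℂ) = ∑ s ∈ Fintype.piFinset (fun _ : ι => range (K + 1)),
      ∑ s' ∈ Fintype.piFinset (fun _ : ι => range (K + 1)),
      (((∏ j, wK K (s j)) * (∏ j, wK K (s' j)) : ℝ) : ℂ) *
        (ψ (QuotientAddGroup.mk (fun j => (s j : ℤ) - s' j)) /
          ∏ j, tau t j ^ ((s j : ℤ) - s' j)) := by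
  have h1 : ((‖AA M t K ψ‖ ^ 2 : ℝ) : ℂ) = AA M t K ψ * (starRingEnd ℂ) (AA M t K ψ) := by
    rw [Complex.mul_conj, Complex.normSq_eq_norm_sq]
  rw [h1]
  conv_lhs => rw [AA_eq, map_sum]
  rw [Finset.sum_mul_sum]
  refine Finset.sum_congr rfl fun s _ => Finset.sum_congr rfl fun s' _ => ?_
  rw [map_mul, Complex.conj_ofReal, map_prod]
  have h2 : ∀ j, (starRingEnd ℂ) (zz M t ψ j ^ s' j) = (zz M t ψ j ^ s' j)⁻¹ := by
    intro j
    rw [Complex.inv_eq_conj]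
    rw [norm_pow, norm_zz, one_pow]
  simp only [h2]
  have h3 : (∏ j, zz M t ψ j ^ s j) * ∏ j, (zz M t ψ j ^ s' j)⁻¹
      = ∏ j, zz M t ψ j ^ ((s j : ℤ) - s' j) := by
    rw [← Finset.prod_mul_distrib]
    refine Finset.prod_congr rfl fun j _ => ?_
    have h4 : zz M t ψ j ≠ 0 := by
      intro h
      have := norm_zz M t ψ j
      rw [h, norm_zero] at this
      exact zero_ne_one this
    rw [zpow_sub₀ h4, zpow_natCast, zpow_natCast, div_eq_mul_inv]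
  rw [← zz_prod M t ψ (fun j => (s j : ℤ) - s' j), ← h3]
  push_cast
  ring

theorem avg_lower [Fintype ((ι → ℤ) ⧸ M)] (K : ℕ)
    (ht : ∀ m ∈ M, (∀ j, |m j| ≤ K) → ∃ z : ℤ, ∑ j, t j * m j = z) :
    (Fintype.card ((ι → ℤ) ⧸ M) : ℝ) *
      ∑ s ∈ Fintype.piFinset (fun _ : ι => range (K + 1)), (∏ j, wK K (s j)) ^ 2
      ≤ ∑ ψ : AddChar ((ι → ℤ) ⧸ M) ℂ, ‖AA M t K ψ‖ ^ 2 := by
  classical
  set P := Fintype.piFinset (fun _ : ι => range (K + 1)) with hP
  set W : (ι → ℕ) → ℝ := fun s => ∏ j, wK K (s j) with hW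
  have hWnn : ∀ s, 0 ≤ W s := fun s => Finset.prod_nonneg fun j _ => wK_nonneg _ _
  have hC : ((∑ ψ : AddChar ((ι → ℤ) ⧸ M) ℂ, ‖AA M t K ψ‖ ^ 2 : ℝ) : ℂ)
      = ((∑ s ∈ P, ∑ s' ∈ P, W s * W s' *
        (if (QuotientAddGroup.mk (fun j => (s j : ℤ) - s' j) : (ι → ℤ) ⧸ M) = 0
          then (Fintype.card ((ι → ℤ) ⧸ M) : ℝ) else 0) : ℝ) : ℂ) := by
    rw [Complex.ofReal_sum]
    simp only [norm_sq_AA M t K]
    rw [Finset.sum_comm, Complex.ofReal_sum]
    refine Finset.sum_congr rfl fun s hs => ?_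
    rw [Finset.sum_comm, Complex.ofReal_sum]
    refine Finset.sum_congr rfl fun s' hs' => ?_
    have h1 : ∀ ψ : AddChar ((ι → ℤ) ⧸ M) ℂ, ((W s * W s' : ℝ) : ℂ) *
        (ψ (QuotientAddGroup.mk (fun j => (s j : ℤ) - s' j)) /
          ∏ j, tau t j ^ ((s j : ℤ) - s' j))
        = ((W s * W s' : ℝ) : ℂ) / (∏ j, tau t j ^ ((s j : ℤ) - s' j)) *
          ψ (QuotientAddGroup.mk (fun j => (s j : ℤ) - s' j)) := by
      intro ψ; ring
    rw [Finset.sum_congr rfl fun ψ _ => h1 ψ, ← Finset.mul_sum, AddChar.sum_apply_eq_ite]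
    by_cases h0 : (QuotientAddGroup.mk (fun j => (s j : ℤ) - s' j) : (ι → ℤ) ⧸ M) = 0
    · rw [if_pos h0, if_pos h0]
      have h2 : (fun j => (s j : ℤ) - s' j) ∈ M := (QuotientAddGroup.eq_zero_iff _).1 h0
      obtain ⟨z, hz⟩ := ht _ h2 (fun j => by
        rw [hP, Fintype.mem_piFinset] at hs hs'
        have h3 := Finset.mem_range.1 (hs j)
        have h4 := Finset.mem_range.1 (hs' j)
        rw [abs_le]
        constructor <;> omega)
      have h5 := tau_pow t (u := fun j => (s j : ℤ) - s' j) (z := z) (by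
        rw [← hz])
      rw [h5, div_one]
      push_cast
      ring
    · rw [if_neg h0, if_neg h0]
      simp
  have hR := Complex.ofReal_injective hC
  rw [hR, Finset.mul_sum]
  refine Finset.sum_le_sum fun s hs => ?_
  have h1 : (Fintype.card ((ι → ℤ) ⧸ M) : ℝ) * W s ^ 2 = W s * W s *
        (if (QuotientAddGroup.mk (fun j => (s j : ℤ) - s j) : (ι → ℤ) ⧸ M) = 0
          then (Fintype.card ((ι → ℤ) ⧸ M) : ℝ) else 0) := by
    have h2 : (fun j => (s j : ℤ) - s j) = (0 : ι → ℤ) := by ext j; simp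
    rw [h2, if_pos (by rfl)]
    ring
  show (Fintype.card ((ι → ℤ) ⧸ M) : ℝ) * W s ^ 2 ≤ _
  rw [h1]
  exact Finset.single_le_sum (f := fun s' => W s * W s' *
        (if (QuotientAddGroup.mk (fun j => (s j : ℤ) - s' j) : (ι → ℤ) ⧸ M) = 0
          then (Fintype.card ((ι → ℤ) ⧸ M) : ℝ) else 0)) (fun s' _ => by
      refine mul_nonneg (mul_nonneg (hWnn _) (hWnn _)) ?_
      split_ifs <;> positivity) hs

end Main

theorem norm_one_add_sq {z : ℂ} (hz : ‖z‖ = 1) : ‖(1 + z) / 2‖ ^ 2 = 1 - ‖z - 1‖ ^ 2 / 4 := by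
  have h1 : ‖z‖ ^ 2 = 1 := by rw [hz]; norm_num
  rw [← Complex.normSq_eq_norm_sq, Complex.normSq_apply] at h1
  have h2 : ‖(2 : ℂ)‖ ^ 2 = 4 := by norm_num
  have h3 : ‖1 + z‖ ^ 2 = (1 + z.re) * (1 + z.re) + z.im * z.im := by
    rw [← Complex.normSq_eq_norm_sq, Complex.normSq_apply]
    simp
  have h4 : ‖z - 1‖ ^ 2 = (z.re - 1) * (z.re - 1) + z.im * z.im := by
    rw [← Complex.normSq_eq_norm_sq, Complex.normSq_apply]
    simp
  rw [norm_div, div_pow, h2, h3, h4]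
  linarith

/-- Uniform Kronecker theorem. -/
theorem kron {ι : Type} [Fintype ι] {η : ℝ} (hη : 0 < η) : ∃ K : ℕ,
    ∀ (M : AddSubgroup (ι → ℤ)) (r : ℕ), 0 < r → (∀ u : ι → ℤ, (r : ℤ) • u ∈ M) →
    ∀ t : ι → ℝ, (∀ m ∈ M, (∀ j, |m j| ≤ K) → ∃ z : ℤ, ∑ j, t j * m j = z) →
    ∃ y : ι → ℝ, (∀ m ∈ M, ∃ z : ℤ, ∑ j, y j * m j = z) ∧ ∀ j, |y j - t j| < η := by
  classical
  -- the argument is continuous at 1
  obtain ⟨η', hη', harg⟩ : ∃ η' : ℝ, 0 < η' ∧ ∀ z : ℂ, ‖z - 1‖ < η' → |arg z| < 2 * Real.pi * η := by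
    have h1 := Complex.continuousAt_arg (x := 1) (by simp [Complex.slitPlane])
    rw [Metric.continuousAt_iff] at h1
    obtain ⟨δ, hδ, h2⟩ := h1 (2 * Real.pi * η) (by positivity)
    refine ⟨δ, hδ, fun z hz => ?_⟩
    have h3 := h2 (x := z) (by rw [dist_eq_norm]; exact hz)
    rwa [Complex.arg_one, dist_zero_right, Real.norm_eq_abs] at h3
  set η₁ := min η' 1 with hη₁
  have hη₁pos : 0 < η₁ := lt_min hη' one_pos
  have hη₁le : η₁ ≤ 1 := min_le_right _ _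
  set ρ : ℝ := 1 - η₁ ^ 2 / 4 with hρ
  have hρ0 : 0 < ρ := by rw [hρ]; nlinarith
  have hρ1 : ρ < 1 := by rw [hρ]; nlinarith [sq_nonneg η₁, pow_pos hη₁pos 2]
  -- choice of K
  obtain ⟨K, hK⟩ : ∃ K : ℕ, ((K : ℝ) + 1) ^ Fintype.card ι * ρ ^ K < 1 := by
    have h1 := tendsto_pow_const_mul_const_pow_of_abs_lt_one (Fintype.card ι)
      (r := ρ) (by rw [abs_of_pos hρ0]; exact hρ1)
    have h2 := (h1.eventually (gt_mem_nhds hρ0)).exists_forall_of_atTop
    obtain ⟨N, hN⟩ := h2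
    refine ⟨N, ?_⟩
    have h3 := hN (N + 1) (by omega)
    rw [pow_succ ρ N, ← mul_assoc] at h3
    push_cast at h3
    nlinarith
  refine ⟨K, ?_⟩
  intro M r hr hM t ht
  haveI := finite_quotient M r hr hM
  haveI : Fintype ((ι → ℤ) ⧸ M) := Fintype.ofFinite _
  -- a good character
  obtain ⟨ψ, hψ⟩ : ∃ ψ : AddChar ((ι → ℤ) ⧸ M) ℂ, ∀ j, ‖zz M t ψ j - 1‖ < η' := by
    by_contra hcon
    push Not at hcon
    have h1 := avg_lower M t K ht
    have h2 : ∀ ψ : AddChar ((ι → ℤ) ⧸ M) ℂ, ‖AA M t K ψ‖ ^ 2 ≤ ρ ^ K := by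
      intro ψ
      obtain ⟨j, hj⟩ := hcon ψ
      unfold AA
      rw [norm_prod, ← Finset.prod_pow]
      have h3 : ∀ i, ‖((1 + zz M t ψ i) / 2) ^ K‖ ^ 2
          = (1 - ‖zz M t ψ i - 1‖ ^ 2 / 4) ^ K := by
        intro i
        rw [norm_pow, ← pow_mul, mul_comm K 2, pow_mul, norm_one_add_sq (norm_zz M t ψ i)]
      simp only [h3]
      have h4 : ∀ i, 0 ≤ 1 - ‖zz M t ψ i - 1‖ ^ 2 / 4 := by
        intro i
        rw [← norm_one_add_sq (norm_zz M t ψ i)]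
        positivity
      have h5 : ∀ i, 1 - ‖zz M t ψ i - 1‖ ^ 2 / 4 ≤ 1 := by
        intro i
        have : 0 ≤ ‖zz M t ψ i - 1‖ ^ 2 := by positivity
        linarith
      rw [← Finset.mul_prod_erase Finset.univ _ (Finset.mem_univ j)]
      have h6 : (1 - ‖zz M t ψ j - 1‖ ^ 2 / 4) ^ K ≤ ρ ^ K := by
        refine pow_le_pow_left₀ (h4 j) ?_ K
        rw [hρ]
        have h7 : η₁ ≤ ‖zz M t ψ j - 1‖ := (min_le_left _ _).trans hj
        have h8 : η₁ ^ 2 ≤ ‖zz M t ψ j - 1‖ ^ 2 := pow_le_pow_left₀ hη₁pos.le h7 2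
        linarith
      have h9 : ∏ i ∈ Finset.univ.erase j, (1 - ‖zz M t ψ i - 1‖ ^ 2 / 4) ^ K ≤ 1 :=
        Finset.prod_le_one (fun i _ => pow_nonneg (h4 i) K) fun i _ => pow_le_one₀ (h4 i) (h5 i)
      calc (1 - ‖zz M t ψ j - 1‖ ^ 2 / 4) ^ K
            * ∏ i ∈ Finset.univ.erase j, (1 - ‖zz M t ψ i - 1‖ ^ 2 / 4) ^ K
          ≤ ρ ^ K * 1 := by
            refine mul_le_mul h6 h9 (Finset.prod_nonneg fun i _ => pow_nonneg (h4 i) K)
              (by positivity)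
        _ = ρ ^ K := mul_one _
    have h3 : ∑ ψ : AddChar ((ι → ℤ) ⧸ M) ℂ, ‖AA M t K ψ‖ ^ 2
        ≤ (Fintype.card ((ι → ℤ) ⧸ M) : ℝ) * ρ ^ K := by
      refine (Finset.sum_le_sum fun ψ _ => h2 ψ).trans ?_
      rw [Finset.sum_const, nsmul_eq_mul, Finset.card_univ, AddChar.card_eq]
    have h4 : (0 : ℝ) < Fintype.card ((ι → ℤ) ⧸ M) := by
      exact_mod_cast Fintype.card_pos
    have h5 := pos_sum (ι := ι) K
    have h6 : ∑ s ∈ Fintype.piFinset (fun _ : ι => range (K + 1)), (∏ j, wK K (s j)) ^ 2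
        ≤ ρ ^ K := le_of_mul_le_mul_left (h1.trans h3) h4
    have h7 := h5.trans h6
    rw [div_le_iff₀ (by positivity)] at h7
    linarith
  refine ⟨fun j => t j + arg (zz M t ψ j) / (2 * Real.pi), ?_, ?_⟩
  · intro m hm
    have h1 : ∀ j, cexp (2 * Real.pi * I * ((t j + arg (zz M t ψ j) / (2 * Real.pi) : ℝ) : ℂ))
        = ψ (QuotientAddGroup.mk (Pi.single j 1)) := by
      intro j
      have h2 : (2 * Real.pi * I * ((t j + arg (zz M t ψ j) / (2 * Real.pi) : ℝ) : ℂ))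
          = 2 * Real.pi * I * t j + arg (zz M t ψ j) * I := by
        push_cast
        have : (Real.pi : ℂ) ≠ 0 := by exact_mod_cast Real.pi_ne_zero
        field_simp
      rw [h2, Complex.exp_add]
      have h3 := Complex.norm_mul_exp_arg_mul_I (zz M t ψ j)
      rw [norm_zz, Complex.ofReal_one, one_mul] at h3
      rw [h3]
      show tau t j * zz M t ψ j = _
      unfold zz
      rw [mul_div_cancel₀ _ (tau_ne t j)]
    have h2 := char_single M ψ (char_ne M ψ) m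
    have h3 : (QuotientAddGroup.mk m : (ι → ℤ) ⧸ M) = 0 := (QuotientAddGroup.eq_zero_iff m).2 hm
    rw [h3, AddChar.map_zero_eq_one] at h2
    simp only [← h1] at h2
    have h4 : ∀ j, cexp (2 * Real.pi * I * ((t j + arg (zz M t ψ j) / (2 * Real.pi) : ℝ) : ℂ)) ^ m j
        = cexp (2 * Real.pi * I * (((t j + arg (zz M t ψ j) / (2 * Real.pi)) * m j : ℝ) : ℂ)) := by
      intro j
      rw [← Complex.exp_int_mul]
      congr 1
      push_cast
      ring
    simp only [h4] at h2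
    rw [← Complex.exp_sum, ← Finset.mul_sum, Complex.exp_eq_one_iff] at h2
    obtain ⟨z, hz⟩ := h2
    refine ⟨z, ?_⟩
    have h5 : (∑ j, (((t j + arg (zz M t ψ j) / (2 * Real.pi)) * m j : ℝ) : ℂ)) = z := by
      have h6 : (2 * Real.pi * I : ℂ) ≠ 0 := Complex.two_pi_I_ne_zero
      have h7 : (2 * Real.pi * I : ℂ) * (∑ j, (((t j + arg (zz M t ψ j) / (2 * Real.pi)) * m j : ℝ) : ℂ))
          = 2 * Real.pi * I * z := by rw [hz]; ring
      exact mul_left_cancel₀ h6 h7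
    rw [← Complex.ofReal_sum] at h5
    exact_mod_cast h5
  · intro j
    have h1 : t j + arg (zz M t ψ j) / (2 * Real.pi) - t j = arg (zz M t ψ j) / (2 * Real.pi) := by
      ring
    rw [h1, abs_div, abs_of_pos (by positivity : (0 : ℝ) < 2 * Real.pi),
      div_lt_iff₀ (by positivity)]
    have := harg _ (hψ j)
    linarith

end Vale.Agent.P283.H647
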