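import Vale.Agent.P283.H647.Hyp

/-!
Lattices of monomials: adapted bases and changes of coordinates.
-/

set_option linter.all false

namespace Vale.Agent.P283.H647

open MvPolynomial Finset

/-- A basis of a lattice adapted to a linear form. -/
theorem adapted_basis {e : ℕ} (M : Submodule ℤ (Fin (e + 2) → ℤ)) (r : ℕ) (hr : 0 < r)
    (hmod : ∀ u, (r : ℤ) • u ∈ M) (ℓ : M →ₗ[ℤ] ℤ) (hℓ : ℓ ≠ 0) :
    ∃ (b : Module.Basis (Fin (e + 2)) ℤ M) (c : ℕ), 0 < c ∧ ℓ (b 0) = c ∧
      ∀ k, k ≠ 0 → ℓ (b k) = 0 := by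
  classical
  -- the rank of `M`
  have hrank : Module.finrank ℤ M = e + 2 := by
    apply le_antisymm
    · have h1 := Submodule.finrank_le M
      rwa [Module.finrank_fin_fun] at h1
    · let φ : (Fin (e + 2) → ℤ) →ₗ[ℤ] M :=
        { toFun := fun u => ⟨(r : ℤ) • u, hmod u⟩
          map_add' := fun u v => by ext; simp [mul_add]
          map_smul' := fun a u => by ext; simp; ring }
      have hφ : Function.Injective φ := by
        intro u v huv
        have h1 := congrArg Subtype.val huv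
        funext j
        have h2 := congrFun h1 j
        simp only [φ, LinearMap.coe_mk, AddHom.coe_mk, Pi.smul_apply, smul_eq_mul] at h2
        exact mul_left_cancel₀ (by exact_mod_cast hr.ne') h2
      have h1 := LinearMap.finrank_le_finrank_of_injective hφ
      rwa [Module.finrank_fin_fun] at h1
  -- a generator of the image
  obtain ⟨g, hg⟩ : ∃ g : ℤ, LinearMap.range ℓ = Ideal.span {g} :=
    (IsPrincipalIdealRing.principal (LinearMap.range ℓ)).principal
  have hg0 : g ≠ 0 := by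
    rintro rfl
    apply hℓ
    ext u
    have h1 : ℓ u ∈ LinearMap.range ℓ := ⟨u, rfl⟩
    rw [hg] at h1
    simpa using h1
  obtain ⟨u₁, hu₁⟩ : ∃ u, ℓ u = g := by
    have h1 : g ∈ LinearMap.range ℓ := by
      rw [hg]; exact Ideal.mem_span_singleton_self g
    exact h1
  have hdvd : ∀ u, g ∣ ℓ u := by
    intro u
    have h1 : ℓ u ∈ LinearMap.range ℓ := ⟨u, rfl⟩
    rw [hg] at h1
    exact Ideal.mem_span_singleton.1 h1
  obtain ⟨u₀, c, hc, hu₀, hcd⟩ : ∃ (u₀ : M) (c : ℕ), 0 < c ∧ ℓ u₀ = c ∧ ∀ u, (c : ℤ) ∣ ℓ u := by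
    rcases le_or_gt 0 g with h | h
    · refine ⟨u₁, g.toNat, ?_, ?_, ?_⟩
      · omega
      · rw [hu₁, Int.toNat_of_nonneg h]
      · intro u; rw [Int.toNat_of_nonneg h]; exact hdvd u
    · refine ⟨-u₁, (-g).toNat, ?_, ?_, ?_⟩
      · omega
      · rw [map_neg, hu₁, Int.toNat_of_nonneg (by omega)]
      · intro u; rw [Int.toNat_of_nonneg (by omega)]; exact (neg_dvd).2 (hdvd u)
  let W : Submodule ℤ M := LinearMap.ker ℓ
  have hc0 : (c : ℤ) ≠ 0 := by exact_mod_cast hc.ne'
  have hli : ∀ (a : ℤ), ∀ x ∈ W, a • u₀ + x = 0 → a = 0 := by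
    intro a x hx h0
    have h1 := congrArg ℓ h0
    rw [map_add, map_smul, hu₀, LinearMap.mem_ker.1 hx, add_zero, map_zero, smul_eq_mul] at h1
    exact (mul_eq_zero.1 h1).resolve_right hc0
  have hsp : ∀ z : M, ∃ a : ℤ, z + a • u₀ ∈ W := by
    intro z
    obtain ⟨q, hq⟩ := hcd z
    refine ⟨-q, ?_⟩
    rw [LinearMap.mem_ker, map_add, map_smul, hu₀, hq, smul_eq_mul]
    ring
  have hW : Module.finrank ℤ W = e + 1 := by
    have h1 := Module.finrank_eq_card_basis
      (Module.Basis.mkFinCons u₀ (Module.finBasis ℤ W) hli hsp)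
    rw [hrank, Fintype.card_fin] at h1
    omega
  let bW : Module.Basis (Fin (e + 1)) ℤ W := Module.finBasisOfFinrankEq ℤ W hW
  refine ⟨Module.Basis.mkFinCons u₀ bW hli hsp, c, hc, ?_, ?_⟩
  · rw [Module.Basis.coe_mkFinCons, Fin.cons_zero, hu₀]
  · intro k hk
    obtain ⟨k', rfl⟩ := Fin.exists_succ_eq.2 hk
    rw [Module.Basis.coe_mkFinCons, Fin.cons_succ]
    exact LinearMap.mem_ker.1 (bW k').2

variable {N : ℕ}

/-- The exponent of a monomial in new coordinates. -/
def expo (mm : Fin N → Fin N → ℤ) (n : Fin N →₀ ℕ) : Fin N → ℤ := fun j => ∑ k, (n k : ℤ) * mm k j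

theorem expo_add (mm : Fin N → Fin N → ℤ) (n n' : Fin N →₀ ℕ) :
    expo mm (n + n') = expo mm n + expo mm n' := by
  funext j
  simp only [expo, Pi.add_apply, Finsupp.add_apply, ← Finset.sum_add_distrib]
  exact Finset.sum_congr rfl fun k _ => by push_cast; ring

/-- Nonnegative integral vectors as exponents. -/
noncomputable def toE (u : Fin N → ℤ) : Fin N →₀ ℕ :=
  Finsupp.equivFunOnFinite.symm fun j => (u j).toNat

theorem toE_apply {u : Fin N → ℤ} (hu : 0 ≤ u) (j : Fin N) : (toE u j : ℤ) = u j := by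
  simp only [toE, Finsupp.equivFunOnFinite_symm_apply_apply]
  exact Int.toNat_of_nonneg (hu j)

/-- The polynomial `x^T P(x^m)`. -/
noncomputable def push (mm : Fin N → Fin N → ℤ) (T : Fin N → ℤ) (P : MvPolynomial (Fin N) ℂ) :
    MvPolynomial (Fin N) ℂ := ∑ n ∈ P.support, monomial (toE (T + expo mm n)) (P.coeff n)

section Field

variable {E : Type} [Field E] [Algebra ℂ E] (x : Fin N → E) (hx : ∀ j, x j ≠ 0)
include hx

theorem monoT_expo (mm : Fin N → Fin N → ℤ) (n : Fin N →₀ ℕ) :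
    monoT x (expo mm n) = ∏ k, monoT x (mm k) ^ n k := by
  unfold monoT expo
  simp only [← Finset.prod_pow]
  rw [Finset.prod_comm]
  refine Finset.prod_congr rfl fun j _ => ?_
  have h1 : ∀ (s : Finset (Fin N)), x j ^ (∑ k ∈ s, (n k : ℤ) * mm k j) =
      ∏ k ∈ s, (x j ^ mm k j) ^ n k := by
    intro s
    classical
    induction s using Finset.induction_on with
    | empty => simp
    | insert a s ha ih =>
      rw [Finset.sum_insert ha, Finset.prod_insert ha, zpow_add₀ (hx j), ih]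
      congr 1
      rw [mul_comm, zpow_mul, zpow_natCast]
  exact h1 _

theorem monoT_toE {u : Fin N → ℤ} (hu : 0 ≤ u) : ∏ j, x j ^ toE u j = monoT x u := by
  unfold monoT
  refine Finset.prod_congr rfl fun j _ => ?_
  rw [← zpow_natCast, toE_apply hu]

theorem aeval_push (mm : Fin N → Fin N → ℤ) (T : Fin N → ℤ) (P : MvPolynomial (Fin N) ℂ)
    (hT : ∀ n ∈ P.support, 0 ≤ T + expo mm n) :
    aeval x (push mm T P) = monoT x T * aeval (fun k => monoT x (mm k)) P := by
  have h1 : aeval (fun k => monoT x (mm k)) P =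
      ∑ n ∈ P.support, algebraMap ℂ E (P.coeff n) * monoT x (expo mm n) := by
    conv_lhs => rw [P.as_sum, map_sum]
    refine Finset.sum_congr rfl fun n _ => ?_
    rw [aeval_monomial, Finsupp.prod_fintype _ _ (by simp), monoT_expo x hx]
  rw [h1, push, map_sum, Finset.mul_sum]
  refine Finset.sum_congr rfl fun n hn => ?_
  rw [aeval_monomial, Finsupp.prod_fintype _ _ (by simp), monoT_toE x hx (hT n hn),
    monoT_add hx]
  ring

end Field

theorem toE_inj {u v : Fin N → ℤ} (hu : 0 ≤ u) (hv : 0 ≤ v) (h : toE u = toE v) : u = v := by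
  funext j
  rw [← toE_apply hu, ← toE_apply hv, h]

theorem coeff_push (mm : Fin N → Fin N → ℤ) (hmm : LinearIndependent ℤ mm) (T : Fin N → ℤ)
    (P : MvPolynomial (Fin N) ℂ) (hT : ∀ n ∈ P.support, 0 ≤ T + expo mm n) {n : Fin N →₀ ℕ}
    (hn : n ∈ P.support) : (push mm T P).coeff (toE (T + expo mm n)) = P.coeff n := by
  classical
  unfold push
  rw [coeff_sum, Finset.sum_eq_single_of_mem n hn]
  · rw [coeff_monomial, if_pos rfl]
  · intro n' hn' hne
    rw [coeff_monomial, if_neg]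
    intro h
    apply hne
    have h1 := toE_inj (hT n' hn') (hT n hn) h
    have h2 : expo mm n' = expo mm n := add_left_cancel h1
    have h3 : ∑ k, ((n' k : ℤ) - n k) • mm k = 0 := by
      funext j
      have h4 := congrFun h2 j
      simp only [expo] at h4
      simp only [Finset.sum_apply, Pi.smul_apply, smul_eq_mul, sub_mul, Finset.sum_sub_distrib,
        Pi.zero_apply, h4, sub_self]
    have h4 := Fintype.linearIndependent_iff.1 hmm _ h3
    ext k
    have := h4 k
    omega

theorem push_ne_zero (mm : Fin N → Fin N → ℤ) (hmm : LinearIndependent ℤ mm) (T : Fin N → ℤ)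
    (P : MvPolynomial (Fin N) ℂ) (hT : ∀ n ∈ P.support, 0 ≤ T + expo mm n) (hP : P ≠ 0) :
    push mm T P ≠ 0 := by
  obtain ⟨n, hn⟩ := support_nonempty.2 hP
  intro h0
  have h1 := coeff_push mm hmm T P hT hn
  rw [h0, coeff_zero] at h1
  exact mem_support_iff.1 hn h1.symm

/-- A shift making finitely many integral vectors nonnegative. -/
theorem exists_shift {κ : Type} (S : Finset κ) (v : κ → Fin N → ℤ) :
    ∃ T : Fin N → ℤ, 0 ≤ T ∧ ∀ k ∈ S, 0 ≤ T + v k := by
  refine ⟨fun j => ∑ k ∈ S, |v k j|, fun j => Finset.sum_nonneg fun k _ => abs_nonneg _,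
    fun k hk j => ?_⟩
  have h1 : |v k j| ≤ ∑ k ∈ S, |v k j| :=
    Finset.single_le_sum (f := fun k => |v k j|) (fun k _ => abs_nonneg _) hk
  have h2 := neg_abs_le (v k j)
  simp only [Pi.zero_apply, Pi.add_apply]
  omega

/-- Polynomials with exponents in a class of a lattice with basis `mm`, in new coordinates. -/
theorem exists_pull (mm : Fin N → Fin N → ℤ) (g : MvPolynomial (Fin N) ℂ) (σ : Fin N → ℤ)
    (n : (Fin N →₀ ℕ) → Fin N → ℤ)
    (hn : ∀ α ∈ g.support, ∀ j, (α j : ℤ) = σ j + ∑ k, n α k * mm k j) (s : Fin N → ℤ)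
    (hs : ∀ α ∈ g.support, 0 ≤ s + n α) {E : Type} [Field E] [Algebra ℂ E] (x : Fin N → E)
    (hx : ∀ j, x j ≠ 0) :
    aeval x g = monoT x (fun j => σ j - ∑ k, s k * mm k j) * aeval (fun k => monoT x (mm k))
      (∑ α ∈ g.support, monomial (toE (s + n α)) (g.coeff α)) := by
  conv_lhs => rw [g.as_sum, map_sum]
  rw [map_sum, Finset.mul_sum]
  refine Finset.sum_congr rfl fun α hα => ?_
  rw [aeval_monomial, aeval_monomial, Finsupp.prod_fintype _ _ (by simp),
    Finsupp.prod_fintype _ _ (by simp), ← monoT_expo x hx]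
  have h1 : ∏ i, x i ^ α i = monoT x (fun j => σ j - ∑ k, s k * mm k j) *
      monoT x (expo mm (toE (s + n α))) := by
    rw [← monoT_add hx]
    unfold monoT
    refine Finset.prod_congr rfl fun j _ => ?_
    rw [← zpow_natCast, hn α hα j]
    congr 1
    simp only [Pi.add_apply, expo]
    have h2 : ∑ k, (toE (s + n α) k : ℤ) * mm k j = ∑ k, s k * mm k j + ∑ k, n α k * mm k j := by
      rw [← Finset.sum_add_distrib]
      refine Finset.sum_congr rfl fun k _ => ?_
      rw [toE_apply (hs α hα)]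
      simp only [Pi.add_apply]; ring
    rw [h2]; ring
  rw [h1]; ring

/-- The part of a polynomial with exponents in a given set is compatible with multiplication by a
polynomial with exponents in one class. -/
theorem class_factor (M : AddSubgroup (Fin N → ℤ)) (f g p : MvPolynomial (Fin N) ℂ)
    (h : p = f * g) (α₀ τ : Fin N → ℤ)
    (hf : ∀ α ∈ f.support, (fun j => (α j : ℤ) - α₀ j) ∈ M)
    (hp : ∀ α ∈ p.support, (fun j => (α j : ℤ) - τ j) ∈ M) :
    ∃ g' : MvPolynomial (Fin N) ℂ, p = f * g' ∧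
      ∀ α ∈ g'.support, (fun j => (α j : ℤ) - (τ j - α₀ j)) ∈ M := by
  classical
  let g' : MvPolynomial (Fin N) ℂ := ∑ β ∈ g.support.filter
    (fun β => (fun j => (β j : ℤ) - (τ j - α₀ j)) ∈ M), monomial β (g.coeff β)
  let g'' : MvPolynomial (Fin N) ℂ := ∑ β ∈ g.support.filter
    (fun β => ¬ (fun j => (β j : ℤ) - (τ j - α₀ j)) ∈ M), monomial β (g.coeff β)
  have hsum : g = g' + g'' := by
    conv_lhs => rw [g.as_sum]
    exact (Finset.sum_filter_add_sum_filter_not _ _ _).symm
  have hsupp : ∀ (S : Finset (Fin N →₀ ℕ)) (β : Fin N →₀ ℕ),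
      β ∈ (∑ γ ∈ S, monomial γ (g.coeff γ)).support → β ∈ S := by
    intro S β hβ
    by_contra hno
    rw [mem_support_iff, coeff_sum] at hβ
    apply hβ
    refine Finset.sum_eq_zero fun γ hγ => ?_
    rw [coeff_monomial, if_neg]
    rintro rfl; exact hno hγ
  have hg' : ∀ β ∈ g'.support, (fun j => (β j : ℤ) - (τ j - α₀ j)) ∈ M := fun β hβ =>
    (Finset.mem_filter.1 (hsupp _ β hβ)).2
  have hg'' : ∀ β ∈ g''.support, ¬ (fun j => (β j : ℤ) - (τ j - α₀ j)) ∈ M := fun β hβ =>
    (Finset.mem_filter.1 (hsupp _ β hβ)).2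
  refine ⟨g', ?_, hg'⟩
  have h1 : f * g'' = p - f * g' := by
    have h0 : f * g = f * (g' + g'') := congrArg (f * ·) hsum
    linear_combination (-1 : MvPolynomial (Fin N) ℂ) * h - h0
  have h2 : f * g'' = 0 := by
    by_contra hne
    obtain ⟨γ, hγ⟩ := support_nonempty.2 hne
    obtain ⟨α, hα, β, hβ, rfl⟩ := Finset.mem_add.1 (support_mul f g'' hγ)
    have h3 : (fun j => ((α + β) j : ℤ) - τ j) ∈ M := by
      rw [h1] at hγ
      rcases Finset.mem_union.1 (support_sub (Fin N) _ _ hγ) with h4 | h4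
      · exact hp _ h4
      · obtain ⟨α', hα', β', hβ', h5⟩ := Finset.mem_add.1 (support_mul f g' h4)
        have h6 := M.add_mem (hf α' hα') (hg' β' hβ')
        have h7 : ((fun j => (α' j : ℤ) - α₀ j) + fun j => (β' j : ℤ) - (τ j - α₀ j)) =
            fun j => ((α + β : Fin N →₀ ℕ) j : ℤ) - τ j := by
          funext j
          rw [← h5]
          simp only [Pi.add_apply, Finsupp.add_apply]; push_cast; ring
        rwa [h7] at h6
    apply hg'' β hβ
    have h4 := M.sub_mem h3 (hf α hα)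
    have h5 : ((fun j => ((α + β : Fin N →₀ ℕ) j : ℤ) - τ j) - fun j => (α j : ℤ) - α₀ j) =
        fun j => (β j : ℤ) - (τ j - α₀ j) := by
      funext j
      simp only [Pi.sub_apply, Finsupp.add_apply]; push_cast; ring
    rwa [h5] at h4
  rw [h2] at h1
  exact (sub_eq_zero.1 h1.symm)

end Vale.Agent.P283.H647
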