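import Vale.Agent.P283.H647.Grp

/-!
The lc condition upstairs, and the equation of `r (K_X + B)`.
-/

set_option linter.all false

namespace Vale.Agent.P283.H647

open MvPolynomial Finset

namespace IsNonDegQuotient

variable {J d : ℕ} {K L : Type} [Field K] [Field L] [Algebra ℂ K] [Algebra ℂ L] [Algebra K L]
  [IsScalarTower ℂ K L] {x : Fin (d + 1) → L} {f : MvPolynomial (Fin (d + 1)) ℂ}
  {b : Fin (d + 1) → ℚ} {G G₀ : Subgroup (L ≃ₐ[ℂ] L)} {A : Subalgebra ℂ K}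
  (H : IsNonDegQuotient J x f b G G₀ A)
  {D : Fin d → Derivation ℂ K K} {D' : Fin d → Derivation ℂ L L}
  (hD' : ∀ (i : Fin d) (g : K), D' i (algebraMap K L g) = algebraMap K L (D i g))
  {h : L} (R : ResForm x f D' h)
include H hD' R

theorem semi_h {τ : L ≃ₐ[ℂ] L} (hτ : τ ∈ G) : ∃ κ : ℂ, τ h = algebraMap ℂ L κ * h := by
  haveI : Algebra.IsAlgebraic K L := isAlgebraic_of_fix H.finite H.field
  obtain ⟨M, hM, hM'⟩ := H.linear τ hτ
  obtain ⟨c, hc, hcf⟩ := H.hyp.lsub_f τ hM hM'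
  have h1 := H.hyp.semi_h R τ (der_comm hD' τ (H.fixK hτ)) hM hM' hc hcf
  refine ⟨M.det⁻¹ * c, ?_⟩
  rw [map_mul, mul_assoc, ← h1, ← mul_assoc, ← map_mul, inv_mul_cancel₀ hM, map_one, one_mul]

theorem exists_psi (q : ℕ) (bq : Fin (d + 1) → ℕ) (hbq : ∀ j, (bq j : ℚ) = q * b j) :
    ∃ ψ : K, ψ ≠ 0 ∧ algebraMap K L ψ = (h ^ q * ∏ j, x j ^ bq j) ^ Nat.card G := by
  obtain ⟨ψ, hψ⟩ := H.pow_invariant (h ^ q * ∏ j, x j ^ bq j) fun τ hτ => by
    obtain ⟨κ₁, h1⟩ := H.semi_h hD' R hτ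
    obtain ⟨κ₂, h2⟩ := H.prod_semi q bq hbq hτ
    refine ⟨κ₁ ^ q * κ₂, ?_⟩
    rw [map_mul, map_pow, h1, h2, map_mul, map_pow]
    ring
  refine ⟨ψ, ?_, hψ⟩
  rintro rfl
  rw [map_zero] at hψ
  exact pow_ne_zero _ (mul_ne_zero (pow_ne_zero _ R.h0) (Finset.prod_ne_zero_iff.2
    fun j _ => pow_ne_zero _ (H.coordinate j))) hψ.symm

omit hD' in
theorem ov_psi {q : ℕ} {bq : Fin (d + 1) → ℕ} {ψ : K} (hψ0 : ψ ≠ 0)
    (hψ : algebraMap K L ψ = (h ^ q * ∏ j, x j ^ bq j) ^ Nat.card G)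
    {w : AddValuation L (WithTop ℤ)} {v : AddValuation K (WithTop ℤ)} {e : ℕ}
    (hvw : ∀ f : K, w (algebraMap K L f) = e • v f) :
    (e : ℤ) * ov v ψ = Nat.card G * (q * ov w h + ∑ j, bq j * ov w (x j)) := by
  have h0 : ∀ j, x j ^ bq j ≠ 0 := fun j => pow_ne_zero _ (H.coordinate j)
  have h1 : (∏ j, x j ^ bq j) ≠ 0 := Finset.prod_ne_zero_iff.2 fun j _ => h0 j
  have h2 : h ^ q ≠ 0 := pow_ne_zero _ R.h0
  rw [← ov_algebraMap hvw hψ0, hψ, ov_pow w (mul_ne_zero h2 h1), ov_mul w h2 h1, ov_pow w R.h0,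
    ov_prod _ _ fun j _ => h0 j]
  congr 2
  exact Finset.sum_congr rfl fun j _ => ov_pow w (H.coordinate j) _

theorem localEq {q : ℕ} (hq : 0 < q) {bq : Fin (d + 1) → ℕ} (hbq : ∀ j, (bq j : ℚ) = q * b j)
    {B : Q.QDivisor A} (hcr : IsCrepantH x f b A D B) {ψ : K} (hψ0 : ψ ≠ 0)
    (hψ : algebraMap K L ψ = (h ^ q * ∏ j, x j ^ bq j) ^ Nat.card G) (p : Ideal A) :
    Q.IsLocalEquation D B p (q * Nat.card G) ψ := by
  haveI := H.finite
  haveI : Algebra.IsAlgebraic K L := isAlgebraic_of_fix H.finite H.field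
  haveI := H.hyp.finDim (K := K) inferInstance
  haveI : CharZero K := charZero_of_injective_algebraMap (algebraMap ℂ K).injective
  have hG : 0 < Nat.card G := Nat.card_pos
  refine ⟨Nat.mul_pos hq hG, hψ0, ?_⟩
  intro u p' m k hu _ hm hk
  obtain ⟨w, e, he, hw1, hvw⟩ := exists_extension (L := L) u hu.1.normalized
  have h1 := hcr D' h hD' R.res u p' m w e (ov w h) (fun j => ov w (x j)) hu hm he hw1 hvw
    (coe_ov w R.h0).symm (fun j => (coe_ov w (H.coordinate j)).symm)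
  have h2 := H.ov_psi R hψ0 hψ hvw
  have h3 : ov u ψ = k := ov_eq_of u hk
  rw [h3] at h2
  have h4 : ((e : ℚ) * k) = Nat.card G * (q * ov w h + ∑ j, (bq j : ℚ) * ov w (x j)) := by
    exact_mod_cast h2
  have h5 : ∑ j, (bq j : ℚ) * ov w (x j) = q * ∑ j, b j * ov w (x j) := by
    rw [Finset.mul_sum]
    exact Finset.sum_congr rfl fun j _ => by rw [hbq]; ring
  have he0 : (e : ℚ) ≠ 0 := by exact_mod_cast he.ne'
  apply mul_left_cancel₀ he0
  push_cast
  rw [h4, h5]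
  linear_combination (-(Nat.card G : ℚ) * q) * h1

theorem lcOn (hd : 0 < d) (hD : ∃ g, Q.jac D g ≠ 0) {q : ℕ} (hq : 0 < q)
    {bq : Fin (d + 1) → ℕ} (hbq : ∀ j, (bq j : ℚ) = q * b j)
    {B : Q.QDivisor A} (hcr : IsCrepantH x f b A D B) {ε : ℝ} (hε : 0 < ε)
    (hlc : Q.IsEpsLC D B ε) :
    LcOn (IntermediateField.fixedField G₀) x D' h (fun j => (b j : ℝ)) ε := by
  intro w v₀ e₀ m' hw hv₀ he₀ hvw₀ hx hm'
  haveI := H.finite
  haveI : Algebra.IsAlgebraic K L := isAlgebraic_of_fix H.finite H.field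
  haveI := H.hyp.ess
  haveI := H.hyp.essK (K := K) inferInstance
  have htrK := H.hyp.trdegK (K := K) inferInstance
  obtain ⟨ψ, hψ0, hψ⟩ := H.exists_psi hD' R q bq hbq
  obtain ⟨v, e, he, hv', hvw⟩ := exists_restriction (K := K) d w (divisorial_iff.1 hw)
  have hv : Q.IsDivisorial d v := divisorial_iff.2 hv'
  obtain ⟨m, hm⟩ := order_exists hd htrK D hD hv
  have htr := order_transfer hd htrK H.hyp.trdeg hD hD' hv hw.normalized he hvw hm hm'
  have hover : Q.IsOver A v := by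
    intro a
    have h1 := H.nonneg_A hw.const hx a a.2
    rw [hvw] at h1
    by_contra hneg
    push Not at hneg
    have h2 : (a : K) ≠ 0 := by
      intro h0
      rw [h0, AddValuation.map_zero] at hneg
      exact absurd hneg (by simp)
    rw [← coe_ov v h2] at h1 hneg
    rw [← WithTop.coe_nsmul] at h1
    have h3 : 0 ≤ e • ov v (a : K) := by exact_mod_cast h1
    have h4 : ov v (a : K) < 0 := by exact_mod_cast hneg
    rw [nsmul_eq_mul] at h3
    have h5 : (0 : ℤ) < e := by exact_mod_cast he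
    have := mul_neg_of_pos_of_neg h5 h4
    omega
  have h1 := hlc.2 v (centreIdeal A v hover) _ ψ m (ov v ψ) hv hover (fun _ => Iff.rfl)
    (H.localEq hD' R hq hbq hcr hψ0 hψ _) hm (coe_ov v hψ0).symm
  -- comparison of the ramification indices
  have hle : e₀ ≤ e := by
    obtain ⟨g, hg⟩ := hv.normalized
    have hg0 : g ≠ 0 := ne_zero_of_eq v (n := 1) (by simpa using hg)
    have hmem : algebraMap K L g ∈ IntermediateField.fixedField G₀ :=
      (IntermediateField.mem_fixedField_iff G₀ _).2 fun τ hτ => H.fixK (H.le hτ) g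
    have hg0' : (⟨algebraMap K L g, hmem⟩ : IntermediateField.fixedField G₀) ≠ 0 := by
      intro h0
      exact (map_ne_zero (algebraMap K L)).2 hg0 (congrArg Subtype.val h0)
    have h2 := ov_algebraMap hvw hg0
    have h3 := ov_algebraMap hvw₀ hg0'
    have h4 : algebraMap (IntermediateField.fixedField G₀) L ⟨algebraMap K L g, hmem⟩ =
        algebraMap K L g := rfl
    rw [h4, h2, ov_eq_of v (n := 1) (by simpa using hg), mul_one] at h3
    have h5 : (e₀ : ℤ) ∣ e := ⟨_, h3⟩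
    exact Nat.le_of_dvd he (by exact_mod_cast h5)
  have h2 := H.ov_psi R hψ0 hψ hvw
  have hG : 0 < Nat.card G := Nat.card_pos
  have hG' : (Nat.card G : ℝ) ≠ 0 := by exact_mod_cast hG.ne'
  have hq' : (q : ℝ) ≠ 0 := by exact_mod_cast hq.ne'
  have h3 : (e : ℝ) * ((ov v ψ : ℝ) / ((q * Nat.card G : ℕ) : ℝ)) =
      ov w h + ∑ j, (b j : ℝ) * ov w (x j) := by
    have h4 : ((e : ℝ) * ov v ψ) = Nat.card G * (q * ov w h + ∑ j, (bq j : ℝ) * ov w (x j)) := by
      exact_mod_cast h2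
    have h5 : ∑ j, (bq j : ℝ) * ov w (x j) = q * ∑ j, (b j : ℝ) * ov w (x j) := by
      rw [Finset.mul_sum]
      refine Finset.sum_congr rfl fun j _ => ?_
      have h6 : (bq j : ℝ) = q * (b j : ℝ) := by exact_mod_cast hbq j
      rw [h6]; ring
    rw [← mul_div_assoc, h4, h5]
    push_cast
    field_simp
  have h4 : (1 : ℝ) + m' = e * (1 + m) := by exact_mod_cast htr
  have he' : (0 : ℝ) < e := by exact_mod_cast he
  have h5 := mul_le_mul_of_nonneg_left h1 he'.le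
  have h6 : (e₀ : ℝ) * ε ≤ e * ε := by
    have : (e₀ : ℝ) ≤ e := by exact_mod_cast hle
    exact mul_le_mul_of_nonneg_right this hε.le
  calc (e₀ : ℝ) * ε ≤ e * ε := h6
    _ ≤ e * (1 + m - ov v ψ / ((q * Nat.card G : ℕ) : ℝ)) := h5
    _ = 1 + m' - ov w h - ∑ j, (b j : ℝ) * ov w (x j) := by
      rw [mul_sub, h3, ← h4]; ring

end IsNonDegQuotient

end Vale.Agent.P283.H647
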