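import Vale.Agent.P283.H647.Farkas
import Vale.Agent.P283.H647.Kron

/-!
A compactness theorem: for families of lattices and finite sets of exponents with a uniform lower
bound, a convex function with integral slopes of bounded denominator exists.
-/

set_option linter.all false

namespace Vale.Agent.P283.H647

open Finset

variable {ι : Type} [Fintype ι]

/-- The value of the exponent `α` at the weight `a`. -/
noncomputable def val (q : ℕ) (κ : ι → ℕ) (α : ι → ℕ) (a : ι → ℝ) : ℝ :=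
  ∑ j, a j * ((κ j : ℝ) - q * α j)

theorem val_add (q : ℕ) (κ α : ι → ℕ) (a b : ι → ℝ) :
    val q κ α (fun j => a j + b j) = val q κ α a + val q κ α b := by
  unfold val; rw [← Finset.sum_add_distrib]
  exact Finset.sum_congr rfl fun j _ => by ring

theorem val_smul (q : ℕ) (κ α : ι → ℕ) (c : ℝ) (a : ι → ℝ) :
    val q κ α (fun j => c * a j) = c * val q κ α a := by
  unfold val; rw [Finset.mul_sum]
  exact Finset.sum_congr rfl fun j _ => by ring

open Filter Topology in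
theorem small_exists {τ : Type} [Finite τ] (A B : τ → ℝ) (hB : ∀ i, 0 < B i) :
    ∃ x : ℝ, 0 < x ∧ ∀ i, x * A i < B i := by
  have h1 : ∀ i, ∀ᶠ x in 𝓝[>] (0 : ℝ), x * A i < B i := by
    intro i
    have h2 : Tendsto (fun x : ℝ => x * A i) (𝓝[>] 0) (𝓝 (0 * A i)) :=
      (tendsto_id.mul_const (A i)).mono_left nhdsWithin_le_nhds
    rw [zero_mul] at h2
    exact h2.eventually_lt_const (hB i)
  have h3 : ∀ᶠ x in 𝓝[>] (0 : ℝ), ∀ i, x * A i < B i := eventually_all.2 h1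
  obtain ⟨x, hx, hx'⟩ := (h3.and self_mem_nhdsWithin).exists
  exact ⟨x, hx', hx⟩

theorem small_exists4 {τ₁ τ₂ τ₃ τ₄ : Type} [Finite τ₁] [Finite τ₂] [Finite τ₃] [Finite τ₄]
    (A₁ B₁ : τ₁ → ℝ) (A₂ B₂ : τ₂ → ℝ) (A₃ B₃ : τ₃ → ℝ) (A₄ B₄ : τ₄ → ℝ)
    (h₁ : ∀ i, 0 < B₁ i) (h₂ : ∀ i, 0 < B₂ i) (h₃ : ∀ i, 0 < B₃ i) (h₄ : ∀ i, 0 < B₄ i) :
    ∃ x : ℝ, 0 < x ∧ (∀ i, x * A₁ i < B₁ i) ∧ (∀ i, x * A₂ i < B₂ i) ∧ (∀ i, x * A₃ i < B₃ i) ∧
      ∀ i, x * A₄ i < B₄ i := by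
  obtain ⟨x, hx, h⟩ := small_exists (τ := (τ₁ ⊕ τ₂) ⊕ (τ₃ ⊕ τ₄))
    (Sum.elim (Sum.elim A₁ A₂) (Sum.elim A₃ A₄)) (Sum.elim (Sum.elim B₁ B₂) (Sum.elim B₃ B₄))
    (by rintro ((i | i) | (i | i)); exacts [h₁ i, h₂ i, h₃ i, h₄ i])
  exact ⟨x, hx, fun i => h (Sum.inl (Sum.inl i)), fun i => h (Sum.inl (Sum.inr i)),
    fun i => h (Sum.inr (Sum.inl i)), fun i => h (Sum.inr (Sum.inr i))⟩

theorem approx_point (q : ℕ) (hq : 0 < q) (κ : ι → ℕ) {ε : ℝ} (hε : 0 < ε) (v z : ι → ℝ)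
    (hz : ∀ j, 0 ≤ z j) (ha : ∀ j, 0 < z j + v j) (c₀ : ℝ) :
    ∃ (δ η₂ : ℝ) (z' : ι → ℤ) (R : ℕ), 0 < η₂ ∧ ∀ y : ι → ℝ, (∀ j, |y j - δ * v j| < η₂) →
      (∀ j, 0 < (z' j : ℝ) + y j) ∧ ∀ α : ι → ℕ, q * ε ≤ val q κ α (fun j => (z' j : ℝ) + y j) →
        (∀ j, α j ≤ R) ∧ ¬ (val q κ α z ≤ 0 ∧ val q κ α v = c₀) := by
  classical
  have hq' : (0 : ℝ) < q := by exact_mod_cast hq
  set D : ℝ := ∑ j, (z j + 1) * κ j with hD
  have hD0 : 0 ≤ D := Finset.sum_nonneg fun j _ => mul_nonneg (by linarith [hz j]) (by positivity)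
  set R₁ : ℝ := ∑ j, 4 * D / (q * z j) with hR₁
  have hR₁t : ∀ j, 0 ≤ 4 * D / (q * z j) := fun j =>
    div_nonneg (by linarith) (mul_nonneg hq'.le (hz j))
  have hR₁0 : 0 ≤ R₁ := Finset.sum_nonneg fun j _ => hR₁t j
  have hR₁le : ∀ j, 4 * D / (q * z j) ≤ R₁ := fun j =>
    Finset.single_le_sum (f := fun j => 4 * D / (q * z j)) (fun j _ => hR₁t j) (Finset.mem_univ j)
  set C₀ : ℝ := ∑ j, ((κ j : ℝ) + q * R₁) with hC₀
  -- the two small parameters
  have hm : ∀ j, 0 < if 0 < z j then z j / 4 else (1 : ℝ) := by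
    intro j; split_ifs with h
    · linarith
    · norm_num
  obtain ⟨η, hη, hη1, hη2, hη3, -⟩ := small_exists4 (τ₁ := ι) (τ₂ := Unit) (τ₃ := Unit)
    (τ₄ := Unit) (fun _ => 1) (fun j => if 0 < z j then z j / 4 else 1) (fun _ => 1)
    (fun _ => 1 / 4) (fun _ => C₀) (fun _ => q * ε / 4) (fun _ => 1) (fun _ => 1)
    hm (fun _ => by norm_num) (fun _ => by positivity) (fun _ => by norm_num)
  obtain ⟨δ, hδ, hδ1, hδ2, hδ3, -⟩ := small_exists4 (τ₁ := ι) (τ₂ := ι) (τ₃ := Unit)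
    (τ₄ := Unit) (fun j => |v j|) (fun j => if 0 < z j then z j / 4 else 1) (fun j => |v j|)
    (fun _ => 1 / 4) (fun _ => |c₀|) (fun _ => q * ε / 4) (fun _ => 1) (fun _ => 1)
    hm (fun _ => by norm_num) (fun _ => by positivity) (fun _ => by norm_num)
  obtain ⟨k, hk, z', hz'⟩ := dirichlet z hη
  have hk' : (1 : ℝ) ≤ k := by exact_mod_cast hk
  simp only [mul_one] at hη1 hη2
  have hη2' : η < 1 / 4 := hη2 ()
  have hη3' : η * C₀ < q * ε / 4 := hη3 ()
  have hδ3' : δ * |c₀| < q * ε / 4 := hδ3 ()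
  have hz0 : ∀ j, ¬ 0 < z j → z j = 0 ∧ z' j = 0 := by
    intro j hj
    have h1 : z j = 0 := le_antisymm (not_lt.1 hj) (hz j)
    refine ⟨h1, ?_⟩
    have h2 := hz' j
    rw [h1, mul_zero, zero_sub, abs_neg] at h2
    have h3 : |z' j| < 1 := by
      have : |(z' j : ℝ)| < 1 := by linarith
      exact_mod_cast this
    exact Int.abs_lt_one_iff.1 h3
  have hdv : ∀ j, |δ * v j| < 1 / 4 := fun j => by rw [abs_mul, abs_of_pos hδ]; exact hδ2 j
  have hdv' : ∀ j, 0 < z j → |δ * v j| < z j / 4 := fun j hj => by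
    rw [abs_mul, abs_of_pos hδ]; have := hδ1 j; rwa [if_pos hj] at this
  have hη' : ∀ j, 0 < z j → η < z j / 4 := fun j hj => by
    have := hη1 j; rwa [if_pos hj] at this
  set b : ι → ℝ := fun j => (z' j : ℝ) + δ * v j with hb
  have hkz : ∀ j, z j ≤ k * z j := fun j => by nlinarith [hz j]
  have hbpos : ∀ j, 0 < b j := by
    intro j
    simp only [hb]
    by_cases hj : 0 < z j
    · have h1 := abs_lt.1 (hz' j)
      have h2 := abs_lt.1 (hdv' j hj)
      have h3 := hη' j hj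
      have h4 := hkz j
      linarith [h1.2, h2.1]
    · obtain ⟨h1, h2⟩ := hz0 j hj
      rw [h2]
      have h3 := ha j
      rw [h1] at h3
      have : 0 < δ * v j := mul_pos hδ (by linarith)
      simpa using this
  set B : ℝ := ∑ l, (b l + 1) * κ l with hB
  have hB0 : 0 ≤ B := Finset.sum_nonneg fun j _ =>
    mul_nonneg (by linarith [hbpos j]) (by positivity)
  set R₂ : ℝ := ∑ j, 2 * B / (q * b j) with hR₂
  have hR₂t : ∀ j, 0 ≤ 2 * B / (q * b j) := fun j =>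
    div_nonneg (by linarith) (mul_nonneg hq'.le (hbpos j).le)
  have hR₂0 : 0 ≤ R₂ := Finset.sum_nonneg fun j _ => hR₂t j
  have hR₂le : ∀ j, 2 * B / (q * b j) ≤ R₂ := fun j =>
    Finset.single_le_sum (f := fun j => 2 * B / (q * b j)) (fun j _ => hR₂t j) (Finset.mem_univ j)
  set C₂ : ℝ := ∑ j, ((κ j : ℝ) + q * R₂) with hC₂
  obtain ⟨η₂, hη₂, hη21, hη22, hη23, hη24⟩ := small_exists4 (τ₁ := ι) (τ₂ := ι) (τ₃ := Unit)
    (τ₄ := Unit) (fun _ => 1) (fun j => if 0 < z j then z j / 4 else 1) (fun _ => 1)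
    (fun j => b j / 2) (fun _ => C₂) (fun _ => q * ε / 4) (fun _ => 1) (fun _ => 1 / 4)
    hm (fun j => by linarith [hbpos j]) (fun _ => by positivity) (fun _ => by norm_num)
  simp only [mul_one] at hη21 hη22 hη24
  have hη23' : η₂ * C₂ < q * ε / 4 := hη23 ()
  have hη24' : η₂ < 1 / 4 := hη24 ()
  have hη2z : ∀ j, 0 < z j → η₂ < z j / 4 := fun j hj => by
    have := hη21 j; rwa [if_pos hj] at this
  refine ⟨δ, η₂, z', ⌈R₂⌉₊, hη₂, fun y hy => ?_⟩
  have hlow : ∀ j, b j / 2 < (z' j : ℝ) + y j := by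
    intro j
    have h1 := abs_lt.1 (hy j)
    have h2 := hη22 j
    have h3 : b j = (z' j : ℝ) + δ * v j := rfl
    linarith [h1.1]
  have hpos : ∀ j, 0 < (z' j : ℝ) + y j := fun j => by linarith [hlow j, hbpos j]
  refine ⟨hpos, fun α hα => ?_⟩
  -- basic estimate
  have hbase : ∀ j, q * ((z' j : ℝ) + y j) * α j ≤ ∑ l, ((z' l : ℝ) + y l) * κ l := by
    intro j
    have h1 : val q κ α (fun j => (z' j : ℝ) + y j) = ∑ l, ((z' l : ℝ) + y l) * κ l -
        ∑ l, q * ((z' l : ℝ) + y l) * α l := by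
      unfold val
      rw [← Finset.sum_sub_distrib]
      exact Finset.sum_congr rfl fun l _ => by ring
    have h2 : q * ((z' j : ℝ) + y j) * α j ≤ ∑ l, q * ((z' l : ℝ) + y l) * α l :=
      Finset.single_le_sum (f := fun l => q * ((z' l : ℝ) + y l) * (α l : ℝ))
        (fun l _ => mul_nonneg (mul_nonneg hq'.le (hpos l).le) (by positivity)) (Finset.mem_univ j)
    have h3 : 0 < (q : ℝ) * ε := by positivity
    linarith
  have hR2 : ∀ j, (α j : ℝ) ≤ R₂ := by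
    intro j
    have h1 := hbase j
    have h2 : ∑ l, ((z' l : ℝ) + y l) * κ l ≤ B := by
      refine Finset.sum_le_sum fun l _ => mul_le_mul_of_nonneg_right ?_ (by positivity)
      have h3 := abs_lt.1 (hy l)
      have h4 : b l = (z' l : ℝ) + δ * v l := rfl
      linarith [h3.2]
    have h5 : q * (b j / 2) * α j ≤ q * ((z' j : ℝ) + y j) * α j :=
      mul_le_mul_of_nonneg_right (mul_le_mul_of_nonneg_left (hlow j).le hq'.le) (by positivity)
    refine le_trans ?_ (hR₂le j)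
    rw [le_div_iff₀ (mul_pos hq' (hbpos j))]
    nlinarith
  have hR1 : ∀ j, 0 < z j → (α j : ℝ) ≤ R₁ := by
    intro j hj
    have h1 := hbase j
    have h2 : ∑ l, ((z' l : ℝ) + y l) * κ l ≤ k * D := by
      rw [hD, Finset.mul_sum]
      refine Finset.sum_le_sum fun l _ => ?_
      rw [← mul_assoc]
      refine mul_le_mul_of_nonneg_right ?_ (by positivity)
      have h3 := abs_lt.1 (hy l)
      have h4 := abs_lt.1 (hdv l)
      have h5 := abs_lt.1 (hz' l)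
      rw [mul_add, mul_one]
      linarith [h3.2, h4.2, h5.1]
    have h6 : k * z j / 4 < (z' j : ℝ) + y j := by
      have h3 := abs_lt.1 (hy j)
      have h4 := abs_lt.1 (hdv' j hj)
      have h5 := abs_lt.1 (hz' j)
      have h7 := hη' j hj
      have h8 := hη2z j hj
      have h9 := hkz j
      linarith [h3.1, h4.1, h5.2]
    have h7 : q * (k * z j / 4) * α j ≤ q * ((z' j : ℝ) + y j) * α j :=
      mul_le_mul_of_nonneg_right (mul_le_mul_of_nonneg_left h6.le hq'.le) (by positivity)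
    refine le_trans ?_ (hR₁le j)
    rw [le_div_iff₀ (mul_pos hq' hj)]
    have h8 : k * (q * z j / 4 * α j) ≤ k * D := by nlinarith
    have h9 : q * z j / 4 * α j ≤ D := le_of_mul_le_mul_left h8 (by linarith)
    linarith
  refine ⟨fun j => ?_, ?_⟩
  · have h1 : (α j : ℝ) ≤ (⌈R₂⌉₊ : ℕ) := le_trans (hR2 j) (Nat.le_ceil _)
    exact_mod_cast h1
  rintro ⟨hvz, hvv⟩
  have hsplit : val q κ α (fun j => (z' j : ℝ) + y j) = k * val q κ α z +
      (∑ j, ((z' j : ℝ) - k * z j) * ((κ j : ℝ) - q * α j)) + δ * val q κ α v +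
      ∑ j, (y j - δ * v j) * ((κ j : ℝ) - q * α j) := by
    unfold val
    rw [Finset.mul_sum, Finset.mul_sum, ← Finset.sum_add_distrib, ← Finset.sum_add_distrib,
      ← Finset.sum_add_distrib]
    exact Finset.sum_congr rfl fun j _ => by ring
  have hkα : ∀ j, ∀ T : ℝ, (α j : ℝ) ≤ T → |(κ j : ℝ) - q * α j| ≤ κ j + q * T := by
    intro j T hT
    have h0 : (0 : ℝ) ≤ α j := by positivity
    have h1 : (0 : ℝ) ≤ κ j := by positivity
    rw [abs_le]
    constructor <;> nlinarith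
  have e1 : k * val q κ α z ≤ 0 := mul_nonpos_of_nonneg_of_nonpos (by linarith) hvz
  have e2 : ∑ j, ((z' j : ℝ) - k * z j) * ((κ j : ℝ) - q * α j) ≤ η * C₀ := by
    rw [hC₀, Finset.mul_sum]
    refine Finset.sum_le_sum fun j _ => ?_
    by_cases hj : 0 < z j
    · calc ((z' j : ℝ) - k * z j) * ((κ j : ℝ) - q * α j)
          ≤ |((z' j : ℝ) - k * z j) * ((κ j : ℝ) - q * α j)| := le_abs_self _
        _ = |(z' j : ℝ) - k * z j| * |(κ j : ℝ) - q * α j| := abs_mul _ _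
        _ ≤ η * (κ j + q * R₁) := by
          refine mul_le_mul ?_ (hkα j R₁ (hR1 j hj)) (abs_nonneg _) hη.le
          rw [abs_sub_comm]; exact (hz' j).le
    · obtain ⟨h1, h2⟩ := hz0 j hj
      rw [h1, h2, Int.cast_zero, mul_zero, sub_zero, zero_mul]
      positivity
  have e3 : δ * val q κ α v ≤ q * ε / 4 := by
    rw [hvv]
    exact le_trans (mul_le_mul_of_nonneg_left (le_abs_self c₀) hδ.le) hδ3'.le
  have e4 : ∑ j, (y j - δ * v j) * ((κ j : ℝ) - q * α j) ≤ η₂ * C₂ := by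
    rw [hC₂, Finset.mul_sum]
    refine Finset.sum_le_sum fun j _ => ?_
    calc (y j - δ * v j) * ((κ j : ℝ) - q * α j)
          ≤ |(y j - δ * v j) * ((κ j : ℝ) - q * α j)| := le_abs_self _
        _ = |y j - δ * v j| * |(κ j : ℝ) - q * α j| := abs_mul _ _
        _ ≤ η₂ * (κ j + q * R₂) :=
          mul_le_mul (hy j).le (hkα j R₂ (hR2 j)) (abs_nonneg _) hη₂.le
  have h3 : 0 < (q : ℝ) * ε := by positivity
  rw [hsplit] at hα
  linarith

end Vale.Agent.P283.H647
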