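import Vale.Agent.P283.H647.Lim

/-!
The compactness theorem, second part: limits along an ultrafilter.
-/

set_option linter.all false

namespace Vale.Agent.P283.H647

open Finset Filter

variable {ι : Type} [Fintype ι]

theorem ultra_finite {X : Type} (U : Ultrafilter ℕ) (p : ℕ → X → Prop) (F : Set X) (hF : F.Finite) :
    ∀ᶠ i in U, ∀ x ∈ F, (p i x ↔ ∀ᶠ i' in U, p i' x) := by
  rw [hF.eventually_all]
  intro x _
  by_cases h : ∀ᶠ i' in U, p i' x
  · filter_upwards [h] with i hi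
    exact ⟨fun _ => h, fun _ => hi⟩
  · have h' : ∀ᶠ i in U, ¬ p i x := Ultrafilter.eventually_not.2 h
    filter_upwards [h'] with i hi
    exact ⟨fun h1 => absurd h1 hi, fun h1 => absurd h1 h⟩

theorem box_nat (R : ℕ) : {α : ι → ℕ | ∀ j, α j ≤ R}.Finite := by
  classical
  have : {α : ι → ℕ | ∀ j, α j ≤ R} = Set.Iic (fun _ => R) := by
    ext α; simp [Pi.le_def]
  rw [this]
  exact Set.finite_Iic _

theorem box_int (K : ℕ) : {m : ι → ℤ | ∀ j, |m j| ≤ K}.Finite := by
  classical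
  have : {m : ι → ℤ | ∀ j, |m j| ≤ K} = Set.Icc (fun _ => -(K : ℤ)) (fun _ => (K : ℤ)) := by
    ext α; simp only [Set.mem_setOf_eq, Set.mem_Icc, Pi.le_def, abs_le]
    exact ⟨fun h => ⟨fun j => (h j).1, fun j => (h j).2⟩, fun h j => ⟨h.1 j, h.2 j⟩⟩
  rw [this]
  exact Set.finite_Icc _ _

/-- The limit lattice. -/
def limLat (U : Ultrafilter ℕ) (M : ℕ → AddSubgroup (ι → ℤ)) : AddSubgroup (ι → ℤ) where
  carrier := {m | ∀ᶠ i in U, m ∈ M i}
  zero_mem' := Eventually.of_forall fun i => (M i).zero_mem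
  add_mem' := fun {a b} ha hb => by
    filter_upwards [ha, hb] with i h1 h2
    exact (M i).add_mem h1 h2
  neg_mem' := fun {a} ha => by
    filter_upwards [ha] with i h1
    exact (M i).neg_mem h1

/-- Finitely many elements below all others. -/
theorem dickson (T : Set (ι → ℕ)) : ∃ A : Finset (ι → ℕ), (∀ α ∈ A, α ∈ T) ∧
    ∀ α ∈ T, ∃ β ∈ A, β ≤ α := by
  classical
  have h1 : {x | Minimal (· ∈ T) x}.Finite := by
    have h2 : T.IsPWO := Set.isPWO_of_wellQuasiOrderedLE T
    have h3 : ({x | Minimal (· ∈ T) x} : Set (ι → ℕ)).IsPWO := h2.mono fun x hx => hx.prop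
    exact (setOfPred_minimal_antichain _).finite_of_partiallyWellOrderedOn h3
  refine ⟨h1.toFinset, fun α hα => ?_, fun α hα => ?_⟩
  · exact ((Set.Finite.mem_toFinset h1).1 hα).prop
  · obtain ⟨β, hβ, hβ'⟩ := exists_minimal_le_of_wellFoundedLT (· ∈ T) α hα
    exact ⟨β, (Set.Finite.mem_toFinset h1).2 hβ', hβ⟩

/-- The closedness step. -/
theorem limit_step (q : ℕ) (hq : 0 < q) (κ : ι → ℕ) {ε : ℝ} (hε : 0 < ε) (U : Ultrafilter ℕ)
    (S : ℕ → Finset (ι → ℕ)) (M : ℕ → AddSubgroup (ι → ℤ)) (r : ℕ → ℕ) (hr : ∀ i, 0 < r i)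
    (hmod : ∀ i, ∀ u, (r i : ℤ) • u ∈ M i)
    (hSM : ∀ i, ∀ α ∈ S i, ∀ β ∈ S i, (fun j => (α j : ℤ) - β j) ∈ M i)
    (hh : ∀ i, ∀ a : ι → ℝ, (∀ j, 0 < a j) → (∀ m ∈ M i, ∃ z : ℤ, ∑ j, a j * m j = z) →
      ∃ α ∈ S i, q * ε ≤ val q κ α a)
    (α₀ : ι → ℕ) (hα₀ : ∀ᶠ i in U, α₀ ∈ S i) (A : Finset (ι → ℕ))
    (hA : ∀ α ∈ A, ∀ᶠ i in U, α ∈ S i)
    (hA' : ∀ α : ι → ℕ, (∀ᶠ i in U, α ∈ S i) → ∃ β ∈ A, β ≤ α)
    (a : ι → ℝ) (ha : ∀ j, 0 < a j) :
    ∃ e : Option ι → ℕ, (fun j => (e (some j) : ℤ) - e none * κ j + e none * (q * α₀ j)) ∈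
      limLat U M ∧ ∃ α ∈ A, ∑ j, (e (some j) : ℝ) * a j < e none * val q κ α a := by
  classical
  by_contra hcon
  push Not at hcon
  -- the maximal value
  have hAne : A.Nonempty := by
    obtain ⟨β, hβ, -⟩ := hA' α₀ hα₀
    exact ⟨β, hβ⟩
  obtain ⟨α₁, hα₁, hmax⟩ := A.exists_max_image (fun α => val q κ α a) hAne
  set V : ℝ := val q κ α₁ a with hV
  have hVle : ∀ α : ι → ℕ, (∀ᶠ i in U, α ∈ S i) → val q κ α a ≤ V := by
    intro α hα
    obtain ⟨β, hβ, hle⟩ := hA' α hα
    refine le_trans ?_ (hmax β hβ)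
    unfold val
    refine Finset.sum_le_sum fun j _ => mul_le_mul_of_nonneg_left ?_ (ha j).le
    have h1 : (β j : ℝ) ≤ α j := by exact_mod_cast hle j
    have h2 : (0 : ℝ) ≤ q := by positivity
    nlinarith
  -- integral Farkas
  let Λ : AddSubgroup (Option ι → ℤ) :=
    { carrier := {x | (fun j => x (some j) - x none * κ j + x none * (q * α₀ j)) ∈ limLat U M}
      zero_mem' := by
        have : (fun j : ι => (0 : Option ι → ℤ) (some j) - (0 : Option ι → ℤ) none * κ j +
            (0 : Option ι → ℤ) none * (q * α₀ j)) = 0 := by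
          ext j; simp
        show _ ∈ limLat U M
        rw [this]; exact (limLat U M).zero_mem
      add_mem' := by
        intro x y hx hy
        have : (fun j : ι => (x + y) (some j) - (x + y) none * κ j +
            (x + y) none * (q * α₀ j)) =
            (fun j => x (some j) - x none * κ j + x none * (q * α₀ j)) +
            (fun j => y (some j) - y none * κ j + y none * (q * α₀ j)) := by
          ext j; simp only [Pi.add_apply]; ring
        show _ ∈ limLat U M
        rw [this]; exact (limLat U M).add_mem hx hy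
      neg_mem' := by
        intro x hx
        have : (fun j : ι => (-x) (some j) - (-x) none * κ j + (-x) none * (q * α₀ j)) =
            -(fun j => x (some j) - x none * κ j + x none * (q * α₀ j)) := by
          ext j; simp only [Pi.neg_apply]; ring
        show _ ∈ limLat U M
        rw [this]; exact (limLat U M).neg_mem hx }
  obtain ⟨y, hy1, hy2⟩ := int_farkas Λ (fun o => o.elim (-V) a) (by
    intro x hx hx0
    have h1 := hcon (fun o => (x o).toNat) (by
      have h2 : ∀ o, ((x o).toNat : ℤ) = x o := fun o => Int.toNat_of_nonneg (hx0 o)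
      simp only [h2]
      exact hx) α₁ hα₁
    have h2 : ∀ o, (((x o).toNat : ℕ) : ℝ) = x o := fun o => by
      have := Int.toNat_of_nonneg (hx0 o)
      exact_mod_cast this
    simp only [h2] at h1
    rw [Fintype.sum_option]
    simp only [Option.elim]
    linarith)
  set v : ι → ℝ := fun j => y (some j) with hv
  set c₀ : ℝ := - y none with hc₀
  have hc₀V : V ≤ c₀ := by
    have := hy2 none
    simp only [Option.elim] at this
    linarith
  have hvM : ∀ m ∈ limLat U M, ∑ j, v j * m j = 0 := by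
    intro m hm
    have h1 := hy1 (fun o => o.elim 0 m) (by
      show (fun j => m j - 0 * (κ j : ℤ) + 0 * (q * (α₀ j : ℤ))) ∈ limLat U M
      have : (fun j => m j - 0 * (κ j : ℤ) + 0 * (q * (α₀ j : ℤ))) = m := by
        ext j; ring
      rw [this]; exact hm)
    rw [Fintype.sum_option] at h1
    simp only [Option.elim, Int.cast_zero, zero_mul, zero_add] at h1
    rw [← h1]
    exact Finset.sum_congr rfl fun j _ => mul_comm _ _
  have hvα₀ : val q κ α₀ v = c₀ := by
    have h1 := hy1 (fun o => o.elim 1 (fun j => (κ j : ℤ) - q * α₀ j)) (by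
      show (fun j => ((κ j : ℤ) - q * α₀ j) - 1 * (κ j : ℤ) + 1 * (q * (α₀ j : ℤ))) ∈ limLat U M
      have : (fun j => ((κ j : ℤ) - q * α₀ j) - 1 * (κ j : ℤ) + 1 * (q * (α₀ j : ℤ))) = 0 := by
        ext j; simp
      rw [this]; exact (limLat U M).zero_mem)
    rw [Fintype.sum_option] at h1
    simp only [Option.elim, Int.cast_one, one_mul] at h1
    unfold val
    rw [hc₀]
    have h2 : ∑ j, v j * ((κ j : ℝ) - q * α₀ j) =
        ∑ j, (((κ j : ℤ) - q * α₀ j : ℤ) : ℝ) * y (some j) := by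
      refine Finset.sum_congr rfl fun j _ => ?_
      push_cast; ring
    rw [h2]
    linarith
  have hvα : ∀ α : ι → ℕ, (∀ᶠ i in U, α ∈ S i) → val q κ α v = c₀ := by
    intro α hα
    have h1 : (fun j => (α j : ℤ) - α₀ j) ∈ limLat U M := by
      show ∀ᶠ i in U, _ ∈ M i
      filter_upwards [hα, hα₀] with i h2 h3
      exact hSM i α h2 α₀ h3
    have h2 := hvM _ h1
    rw [← hvα₀]
    unfold val
    have h3 : ∑ j, v j * ((κ j : ℝ) - q * α j) = ∑ j, v j * ((κ j : ℝ) - q * α₀ j) -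
        q * ∑ j, v j * (((α j : ℤ) - α₀ j : ℤ) : ℝ) := by
      rw [Finset.mul_sum, ← Finset.sum_sub_distrib]
      refine Finset.sum_congr rfl fun j _ => ?_
      push_cast; ring
    rw [h3, h2]; ring
  set z : ι → ℝ := fun j => a j - v j with hz
  have hz0 : ∀ j, 0 ≤ z j := fun j => by
    have := hy2 (some j)
    simp only [Option.elim] at this
    simp only [hz, hv]; linarith
  have hzα : ∀ α : ι → ℕ, (∀ᶠ i in U, α ∈ S i) → val q κ α z ≤ 0 := by
    intro α hα
    have h1 := val_add q κ α z v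
    have h2 : (fun j => z j + v j) = a := by ext j; simp [hz]
    rw [h2, hvα α hα] at h1
    linarith [hVle α hα]
  obtain ⟨δ, η₂, z', R, hη₂, hmain⟩ := approx_point q hq κ hε v z hz0
    (fun j => by simp only [hz]; linarith [ha j]) c₀
  obtain ⟨K, hK⟩ := kron (ι := ι) hη₂
  have e1 := ultra_finite U (fun i (α : ι → ℕ) => α ∈ S i) _ (box_nat (ι := ι) R)
  have e2 := ultra_finite U (fun i (m : ι → ℤ) => m ∈ M i) _ (box_int (ι := ι) K)
  obtain ⟨i, hi1, hi2⟩ := (e1.and e2).exists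
  obtain ⟨y', hy'1, hy'2⟩ := hK (M i) (r i) (hr i) (hmod i) (fun j => δ * v j) (by
    intro m hm hmK
    refine ⟨0, ?_⟩
    have h1 : m ∈ limLat U M := (hi2 m hmK).1 hm
    have h2 := hvM m h1
    have h3 : ∑ j, δ * v j * (m j : ℝ) = δ * ∑ j, v j * (m j : ℝ) := by
      rw [Finset.mul_sum]; exact Finset.sum_congr rfl fun j _ => by ring
    rw [h3, h2]; simp)
  obtain ⟨hpos, hval⟩ := hmain y' hy'2
  obtain ⟨α, hαS, hα⟩ := hh i (fun j => (z' j : ℝ) + y' j) hpos (by
    intro m hm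
    obtain ⟨n, hn⟩ := hy'1 m hm
    refine ⟨(∑ j, z' j * m j) + n, ?_⟩
    push_cast
    rw [← hn, ← Finset.sum_add_distrib]
    exact Finset.sum_congr rfl fun j _ => by ring)
  obtain ⟨hαR, hnot⟩ := hval α hα
  have hαU : ∀ᶠ i' in U, α ∈ S i' := (hi1 α hαR).1 hαS
  exact hnot ⟨hzα α hαU, hvα α hαU⟩

/-- The compactness theorem for a fixed `κ`. -/
theorem cvx_fixed (q : ℕ) (hq : 0 < q) (κ : ι → ℕ) {ε : ℝ} (hε : 0 < ε) :
    ∃ k₀ : ℕ, 0 < k₀ ∧ ∀ (S : Finset (ι → ℕ)) (M : AddSubgroup (ι → ℤ)) (r : ℕ), 0 < r →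
      (∀ u : ι → ℤ, (r : ℤ) • u ∈ M) →
      (∀ α ∈ S, ∀ β ∈ S, (fun j => (α j : ℤ) - β j) ∈ M) →
      (∀ a : ι → ℝ, (∀ j, 0 < a j) → (∀ m ∈ M, ∃ z : ℤ, ∑ j, a j * m j = z) →
        ∃ α ∈ S, q * ε ≤ val q κ α a) →
      ∀ k : ℕ, k₀ ∣ k → 0 < k → ∃ E : Finset (ι → ℕ),
        (∀ e ∈ E, ∀ α ∈ S, (fun j => (e j : ℤ) - k * κ j + k * (q * α j)) ∈ M) ∧
        ∀ a : ι → ℝ, (∀ j, 0 < a j) → ∃ e ∈ E, ∃ α ∈ S,
          ∑ j, (e j : ℝ) * a j < k * val q κ α a := by
  classical
  by_contra hcon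
  push Not at hcon
  have hcon' := fun i : ℕ => hcon (i + 1).factorial (Nat.factorial_pos _)
  choose S M r hr hmod hSM hh k hk hkpos hE using hcon'
  set U : Ultrafilter ℕ := hyperfilter ℕ with hU
  have hUtop : (U : Filter ℕ) ≤ atTop := by
    rw [← Nat.cofinite_eq_atTop]; exact hyperfilter_le_cofinite
  -- Fact 0
  obtain ⟨α₀, hα₀⟩ : ∃ α₀ : ι → ℕ, ∀ᶠ i in U, α₀ ∈ S i := by
    set R : ℕ := ∑ j, κ j with hR
    have h1 : ∀ i, ∃ α ∈ S i, ∀ j, α j ≤ R := by
      intro i
      obtain ⟨α, hα, hα'⟩ := hh i (fun _ => 1) (fun _ => one_pos) (fun m _ => ⟨∑ j, m j, by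
        push_cast; exact Finset.sum_congr rfl fun j _ => one_mul _⟩)
      refine ⟨α, hα, fun j => ?_⟩
      unfold val at hα'
      simp only [one_mul, Finset.sum_sub_distrib] at hα'
      have h2 : (q : ℝ) * α j ≤ ∑ l, (q : ℝ) * α l :=
        Finset.single_le_sum (f := fun l => (q : ℝ) * α l) (fun l _ => by positivity)
          (Finset.mem_univ j)
      have h3 : (0 : ℝ) < q * ε := mul_pos (by exact_mod_cast hq) hε
      have h4 : (1 : ℝ) ≤ q := by exact_mod_cast hq
      have h5 : (α j : ℝ) ≤ q * α j := by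
        have : (0 : ℝ) ≤ α j := by positivity
        nlinarith
      have h6 : (α j : ℝ) ≤ ∑ l, (κ l : ℝ) := by linarith
      rw [hR]; exact_mod_cast h6
    have h2 : ∀ᶠ i in (U : Filter ℕ), ∃ α ∈ {α : ι → ℕ | ∀ j, α j ≤ R}, α ∈ S i :=
      Eventually.of_forall fun i => by
        obtain ⟨α, h3, h4⟩ := h1 i
        exact ⟨α, h4, h3⟩
    obtain ⟨α₀, -, h3⟩ := (Ultrafilter.eventually_exists_mem_iff (box_nat (ι := ι) R)).1 h2
    exact ⟨α₀, h3⟩
  obtain ⟨A, hA, hA'⟩ := dickson {α : ι → ℕ | ∀ᶠ i in U, α ∈ S i}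
  -- the semigroup
  let H : AddSubmonoid (Option ι → ℕ) :=
    { carrier := {e | (fun j => (e (some j) : ℤ) - e none * κ j + e none * (q * α₀ j)) ∈
        limLat U M}
      zero_mem' := by
        have : (fun j : ι => (((0 : Option ι → ℕ) (some j) : ℕ) : ℤ) -
            (((0 : Option ι → ℕ) none : ℕ) : ℤ) * κ j +
            (((0 : Option ι → ℕ) none : ℕ) : ℤ) * (q * α₀ j)) = 0 := by
          ext j; simp
        show _ ∈ limLat U M
        rw [this]; exact (limLat U M).zero_mem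
      add_mem' := by
        intro x y hx hy
        have : (fun j : ι => (((x + y) (some j) : ℕ) : ℤ) - (((x + y) none : ℕ) : ℤ) * κ j +
            (((x + y) none : ℕ) : ℤ) * (q * α₀ j)) =
            (fun j => (x (some j) : ℤ) - x none * κ j + x none * (q * α₀ j)) +
            (fun j => (y (some j) : ℤ) - y none * κ j + y none * (q * α₀ j)) := by
          ext j; simp only [Pi.add_apply]; push_cast; ring
        show _ ∈ limLat U M
        rw [this]; exact (limLat U M).add_mem hx hy }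
  have hHmem : ∀ e : Option ι → ℕ, e ∈ H ↔
      (fun j => (e (some j) : ℤ) - e none * κ j + e none * (q * α₀ j)) ∈ limLat U M :=
    fun e => Iff.rfl
  obtain ⟨Gen, hGen⟩ : H.FG := AddSubmonoid.fg_of_subtractive (by
    intro x hx y hxy
    rw [hHmem] at hx hxy ⊢
    have h1 := (limLat U M).sub_mem hxy hx
    have h2 : (fun j : ι => (((x + y) (some j) : ℕ) : ℤ) - (((x + y) none : ℕ) : ℤ) * κ j +
            (((x + y) none : ℕ) : ℤ) * (q * α₀ j)) -
            (fun j => (x (some j) : ℤ) - x none * κ j + x none * (q * α₀ j)) =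
            (fun j => (y (some j) : ℤ) - y none * κ j + y none * (q * α₀ j)) := by
      ext j; simp only [Pi.add_apply, Pi.sub_apply]; push_cast; ring
    rwa [h2] at h1)
  have hGenH : ∀ g ∈ Gen, g ∈ H := fun g hg => by
    rw [← hGen]; exact AddSubmonoid.subset_closure hg
  -- a generator works
  have hgen : ∀ a : ι → ℝ, (∀ j, 0 < a j) → ∃ g ∈ Gen, ∃ α ∈ A,
      ∑ j, (g (some j) : ℝ) * a j < g none * val q κ α a := by
    intro a ha
    obtain ⟨e, he, α, hα, hlt⟩ := limit_step q hq κ hε U S M r hr hmod hSM hh α₀ hα₀ A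
      (fun α hα => hA α hα) (fun α hα => hA' α hα) a ha
    by_contra hno
    push Not at hno
    have hall : ∀ e ∈ H, (e none : ℝ) * val q κ α a ≤ ∑ j, (e (some j) : ℝ) * a j := by
      intro e he
      rw [← hGen] at he
      induction he using AddSubmonoid.closure_induction with
      | mem g hg => exact hno g hg α hα
      | zero => simp
      | add x y _ _ hx hy =>
        simp only [Pi.add_apply]
        push_cast
        simp only [add_mul, Finset.sum_add_distrib]
        linarith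
    linarith [hall e he]
  -- a common multiple
  set ks : ℕ := ∏ g ∈ Gen.filter (fun g => 0 < g none), g none with hks
  have hkspos : 0 < ks := Finset.prod_pos fun g hg => (Finset.mem_filter.1 hg).2
  have hdvd : ∀ g ∈ Gen, 0 < g none → g none ∣ ks := fun g hg h0 =>
    Finset.dvd_prod_of_mem (fun g : Option ι → ℕ => g none) (Finset.mem_filter.2 ⟨hg, h0⟩)
  have ev1 : ∀ᶠ i in (U : Filter ℕ), ks ≤ i := hUtop (eventually_ge_atTop ks)
  have ev2 : ∀ᶠ i in (U : Filter ℕ), ∀ α ∈ A, α ∈ S i := by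
    rw [Filter.eventually_all_finset]
    exact fun α hα => hA α hα
  have ev3 : ∀ᶠ i in (U : Filter ℕ), ∀ g ∈ Gen,
      (fun j => (g (some j) : ℤ) - g none * κ j + g none * (q * α₀ j)) ∈ M i := by
    rw [Filter.eventually_all_finset]
    exact fun g hg => (hHmem g).1 (hGenH g hg)
  obtain ⟨i, ⟨⟨hi1, hi2⟩, hi3⟩, hi4⟩ := (((ev1.and ev2).and ev3).and hα₀).exists
  have hksk : ks ∣ k i := by
    refine dvd_trans ?_ (hk i)
    exact Nat.dvd_factorial hkspos (by omega)
  -- the set of exponents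
  set E : Finset (ι → ℕ) := (Gen.filter (fun g => 0 < g none)).image
    (fun g j => (k i / g none) * g (some j)) with hEdef
  obtain ⟨a, ha, hbad⟩ := hE i E (by
    intro e he α hα
    rw [hEdef, Finset.mem_image] at he
    obtain ⟨g, hg, rfl⟩ := he
    obtain ⟨hg1, hg2⟩ := Finset.mem_filter.1 hg
    obtain ⟨c, hc⟩ := (hdvd g hg1 hg2).trans hksk
    have hdiv : k i / g none = c := by rw [hc]; exact Nat.mul_div_cancel_left c hg2
    have h1 := (M i).zsmul_mem (hi3 g hg1) (c : ℤ)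
    have h2 := (M i).zsmul_mem (hSM i α hα α₀ hi4) ((k i : ℤ) * q)
    have h3 := (M i).add_mem h1 h2
    have h4 : (fun j => (((k i / g none) * g (some j) : ℕ) : ℤ) - k i * κ j +
        k i * (q * α j)) =
        (c : ℤ) • (fun j => (g (some j) : ℤ) - g none * κ j + g none * (q * α₀ j)) +
        ((k i : ℤ) * q) • (fun j => (α j : ℤ) - α₀ j) := by
      ext j
      simp only [Pi.add_apply, Pi.smul_apply, smul_eq_mul, hdiv]
      rw [hc]
      push_cast
      ring
    rw [h4]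
    exact h3)
  obtain ⟨g, hg, α, hα, hlt⟩ := hgen a ha
  have hgpos : 0 < g none := by
    rcases Nat.eq_zero_or_pos (g none) with h | h
    · exfalso
      rw [h] at hlt
      simp only [Nat.cast_zero, zero_mul] at hlt
      have : 0 ≤ ∑ j, (g (some j) : ℝ) * a j :=
        Finset.sum_nonneg fun j _ => mul_nonneg (by positivity) (ha j).le
      linarith
    · exact h
  obtain ⟨c, hc⟩ := (hdvd g hg hgpos).trans hksk
  have hdiv : k i / g none = c := by rw [hc]; exact Nat.mul_div_cancel_left c hgpos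
  have hcpos : 0 < c := by
    rcases Nat.eq_zero_or_pos c with h | h
    · rw [h, mul_zero] at hc
      have := hkpos i
      omega
    · exact h
  have h5 := hbad (fun j => (k i / g none) * g (some j))
    (Finset.mem_image.2 ⟨g, Finset.mem_filter.2 ⟨hg, hgpos⟩, rfl⟩) α (hi2 α hα)
  have h6 : ∑ j, (((k i / g none) * g (some j) : ℕ) : ℝ) * a j =
      c * ∑ j, (g (some j) : ℝ) * a j := by
    rw [Finset.mul_sum, hdiv]
    exact Finset.sum_congr rfl fun j _ => by push_cast; ring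
  rw [h6, hc] at h5
  push_cast at h5
  have h7 : (0 : ℝ) < c := by exact_mod_cast hcpos
  nlinarith

end Vale.Agent.P283.H647
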