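import Vale.Agent.P283.H647.Sec2
import Vale.Agent.P283.H329.Main

/-!
Bounded klt complements on quotients of non-degenerate hypersurfaces.
-/

set_option linter.all false

namespace Vale.Agent.P283.H647

open MvPolynomial Finset

theorem ov_comap {L : Type} [Field L] [Algebra ℂ L] (w : AddValuation L (WithTop ℤ))
    (τ : L ≃ₐ[ℂ] L) (a : L) : ov (w.comap (τ : L →+* L)) a = ov w (τ a) := rfl

theorem core (d : ℕ) (hd : 0 < d) (J q : ℕ) (hq : 0 < q) {ε : ℝ} (hε : 0 < ε) : ∃ c : ℕ, 0 < c ∧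
    ∀ n : ℕ, 0 < n → c ∣ n →
    ∀ (K L : Type) [Field K] [Field L] [Algebra ℂ K] [Algebra ℂ L] [Algebra K L]
      [IsScalarTower ℂ K L] (x : Fin (d + 1) → L) (f : MvPolynomial (Fin (d + 1)) ℂ)
      (b : Fin (d + 1) → ℚ) (G G₀ : Subgroup (L ≃ₐ[ℂ] L)) (A : Subalgebra ℂ K),
      IsNonDegQuotient J x f b G G₀ A →
      (∀ j, 0 ≤ b j ∧ b j ≤ 1 ∧ ∃ z : ℤ, (q : ℚ) * b j = z) →
    ∀ D : Fin d → Derivation ℂ K K, (∃ g, Q.jac D g ≠ 0) → ∀ B : Q.QDivisor A,
      IsCrepantH x f b A D B → Q.IsEpsLC D B ε →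
    ∃ (r : ℕ) (ψ φ : K), (∀ p : Ideal A, Q.IsLocalEquation D B p r ψ) ∧ φ ≠ 0 ∧
      (∀ (v : AddValuation K (WithTop ℤ)) (m k : ℤ), Q.IsDivisorial d v → Q.IsOver A v →
        Q.FormOrder v D m → v φ = (k : WithTop ℤ) → 0 < 1 + (m : ℚ) - (k : ℚ) / n) ∧
      (∀ (v : AddValuation K (WithTop ℤ)) (k l : ℤ), Q.IsDivisorial d v → Q.IsOver A v →
        v φ = (k : WithTop ℤ) → v ψ = (l : WithTop ℤ) → (l : ℚ) / r ≤ (k : ℚ) / n) := by
  classical
  obtain ⟨e, rfl⟩ : ∃ e, d = e + 1 := ⟨d - 1, by omega⟩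
  obtain ⟨k₀, hk₀, hmain⟩ := exists_expos e q hq hε
  have hJ : 0 < J.factorial := J.factorial_pos
  refine ⟨2 * k₀ * q * J.factorial, by positivity, ?_⟩
  rintro n hn ⟨t, rfl⟩ K L _ _ _ _ _ _ x f b G G₀ A H hb D hD B hcr hlc
  have ht : 0 < t := by
    rcases Nat.eq_zero_or_pos t with h | h
    · rw [h, mul_zero] at hn
      exact absurd hn (lt_irrefl 0)
    · exact h
  set k : ℕ := 2 * k₀ * t with hk
  have hk0 : 0 < k := by positivity
  have hkd : k₀ ∣ k := ⟨2 * t, by rw [hk]; ring⟩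
  set n₁ : ℕ := k * q with hn₁
  have hn₁2 : 2 ≤ n₁ := by
    have h1 : 1 ≤ k₀ * t * q := Nat.mul_pos (Nat.mul_pos hk₀ ht) hq
    have h2 : n₁ = 2 * (k₀ * t * q) := by rw [hn₁, hk]; ring
    omega
  have hnn : 2 * k₀ * q * J.factorial * t = n₁ * J.factorial := by rw [hn₁, hk]; ring
  rw [hnn]
  -- the coefficients of the boundary
  choose z hz using fun j => (hb j).2.2
  have hqQ : (0 : ℚ) < q := by exact_mod_cast hq
  have hz0 : ∀ j, 0 ≤ z j := by
    intro j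
    have h1 : (0 : ℚ) ≤ z j := by rw [← hz j]; exact mul_nonneg hqQ.le (hb j).1
    exact_mod_cast h1
  let bq : Fin (e + 1 + 1) → ℕ := fun j => (z j).toNat
  have hbq : ∀ j, (bq j : ℚ) = q * b j := by
    intro j
    have h1 : ((bq j : ℤ) : ℚ) = z j := by
      have : (bq j : ℤ) = z j := Int.toNat_of_nonneg (hz0 j)
      rw [this]
    rw [hz j, ← h1]; simp
  have hbq1 : ∀ j, bq j ≤ q := by
    intro j
    have h1 : (bq j : ℚ) ≤ q := by
      rw [hbq j]
      calc (q : ℚ) * b j ≤ q * 1 := mul_le_mul_of_nonneg_left (hb j).2.1 hqQ.le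
        _ = q := mul_one _
    exact_mod_cast h1
  have hbqR : ∀ j, (bq j : ℝ) = q * ((b j : ℚ) : ℝ) := fun j => by exact_mod_cast hbq j
  -- the form upstairs
  haveI := H.finite
  haveI : Algebra.IsAlgebraic K L := isAlgebraic_of_fix H.finite H.field
  haveI := H.hyp.ess
  haveI := H.hyp.essK (K := K) inferInstance
  haveI := H.hyp.finDim (K := K) inferInstance
  haveI : CharZero K := charZero_of_injective_algebraMap (algebraMap ℂ K).injective
  have htrK := H.hyp.trdegK (K := K) inferInstance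
  obtain ⟨D', hD'⟩ := exists_ext (K := K) (L := L) H.hyp.trdeg D
  have hj : ∃ g, Q.jac D' g ≠ 0 := by
    obtain ⟨g, hg⟩ := hD
    exact ⟨_, by rw [jac_map hD']; exact (map_ne_zero _).2 hg⟩
  obtain ⟨h, R⟩ := H.hyp.exists_resForm hj
  have hlcOn := H.lcOn hD' R hd hD hq hbq hcr hε hlc
  obtain ⟨E, hE, hE1, hE2⟩ := hmain (IntermediateField.fixedField G₀) L x f G₀ H.diagData H.nondegenerate D' h R
    (fun j => ((b j : ℚ) : ℝ)) bq hbqR hbq1 hlcOn k hkd hk0
  let ι : (Fin (e + 2) → ℕ) → (Fin (e + 2) →₀ ℕ) := fun γ =>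
    Finsupp.equivFunOnFinite.symm fun j => k * bq j + γ j
  have hι : ∀ γ j, ι γ j = k * bq j + γ j := fun γ j => rfl
  obtain ⟨s, hs1, hs2⟩ := exists_generic f H.nondegenerate (E.image ι) (hE.image _)
  have hs0 : s ≠ 0 := by
    intro h0
    rw [h0, support_zero] at hs1
    exact (hE.image ι).ne_empty hs1.symm
  have hxs : aeval x s ≠ 0 := H.hyp.aeval_ne hs0 (hs2 _)
  set φ₁ : L := h ^ n₁ * aeval x s with hφ₁
  have hφ₁0 : φ₁ ≠ 0 := mul_ne_zero (pow_ne_zero _ R.h0) hxs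
  obtain ⟨α, hα⟩ := support_nonempty.2 H.nonzero
  have hinv : ∀ τ ∈ G₀, τ φ₁ = φ₁ := by
    intro τ hτ
    refine H.hyp.invar_phi R τ (der_comm hD' τ (H.fixK (H.le hτ))) (H.diagonal τ hτ) hα n₁ s ?_
    intro γ' hγ'
    rw [hs1] at hγ'
    obtain ⟨γ, hγ, rfl⟩ := Finset.mem_image.1 hγ'
    have h1 := hE1 γ hγ α hα τ hτ
    have h2 : (fun j => ((ι γ j : ℕ) : ℤ) - n₁ * (1 - (α j : ℤ))) =
        (fun j => (γ j : ℤ) - k * (q - bq j : ℕ) + k * (q * α j)) := by
      funext j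
      rw [hι, hn₁, Nat.cast_sub (hbq1 j)]
      push_cast; ring
    rw [h2]
    exact h1
  obtain ⟨φ, hφ0, hφ⟩ := H.exists_norm φ₁ hinv hφ₁0
  obtain ⟨ψ, hψ0, hψ⟩ := H.exists_psi hD' R q bq hbq
  have hG : 0 < Nat.card G := Nat.card_pos
  refine ⟨q * Nat.card G, ψ, φ, fun p => H.localEq hD' R hq hbq hcr hψ0 hψ p, hφ0, ?_, ?_⟩
  · intro v m k' hv hover hm hk'
    obtain ⟨w, e₁, he₁, hw1, hvw⟩ := exists_extension (L := L) v hv.normalized
    have he₁Q : (0 : ℚ) < e₁ := by exact_mod_cast he₁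
    have h1 := (hφ w v e₁ hvw).2 ((n₁ : ℚ) * (e₁ * (1 + m))) (by
      intro τ hτ
      have hvw' : ∀ g : K, (w.comap (τ : L →+* L)) (algebraMap K L g) = e₁ • v g := by
        intro g
        rw [comap_apply', H.fixK hτ, hvw]
      have hw1' := comap_normalized hw1 τ
      have hw' : Q.IsDivisorial (e + 1) (w.comap (τ : L →+* L)) :=
        divisorial_iff.2 (isDivisorial_of_ext (divisorial_iff.1 hv) hw1' hvw')
      obtain ⟨m', hm'⟩ := order_exists hd H.hyp.trdeg D' hj hw'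
      have htr := order_transfer hd htrK H.hyp.trdeg hD hD' hv hw1' he₁ hvw' hm hm'
      have hx : ∀ j, 0 ≤ ov (w.comap (τ : L →+* L)) (x j) := by
        intro j
        refine H.nonneg_x (fun a ha => ?_) j
        rw [hvw']
        exact nsmul_nonneg (hover ⟨a, ha⟩) _
      have h2 := klt_phi H.hyp H.nondegenerate R hn₁2 hs0 hs2 (by
        intro a ha hnm mm hmm
        obtain ⟨γ, hγ, hlt⟩ := hE2 a ha hnm mm hmm
        refine ⟨ι γ, by rw [hs1]; exact Finset.mem_image_of_mem _ hγ, ?_⟩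
        have h3 : ((wt a (ι γ) : ℤ) : ℝ) < ((n₁ * (∑ j, (a j : ℤ) - mm) : ℤ) : ℝ) := by
          unfold wt
          simp only [hι]
          push_cast
          have h4 : ∑ j, (a j : ℝ) * ((k : ℝ) * bq j + γ j) =
              k * ∑ j, (a j : ℝ) * bq j + ∑ j, (γ j : ℝ) * a j := by
            rw [Finset.mul_sum, ← Finset.sum_add_distrib]
            exact Finset.sum_congr rfl fun j _ => by ring
          have h5 : ∑ j, (a j : ℝ) * ((q - bq j : ℕ) : ℝ) =
              q * ∑ j, (a j : ℝ) - ∑ j, (a j : ℝ) * bq j := by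
            rw [Finset.mul_sum, ← Finset.sum_sub_distrib]
            refine Finset.sum_congr rfl fun j _ => ?_
            rw [Nat.cast_sub (hbq1 j)]; ring
          rw [h5] at hlt
          rw [h4, hn₁]
          push_cast
          linarith
        exact_mod_cast h3) hw' hx hm'
      rw [ov_comap] at h2
      have h3 : ((ov w (τ φ₁) : ℤ) : ℚ) < ((n₁ * (1 + m') : ℤ) : ℚ) := by exact_mod_cast h2
      rw [htr] at h3
      push_cast at h3
      exact h3)
    have h2 : ov v φ = k' := ov_eq_of v hk'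
    rw [h2] at h1
    have h3 : (e₁ : ℚ) * k' < e₁ * ((n₁ * J.factorial : ℕ) * (1 + m)) := by
      push_cast
      calc (e₁ : ℚ) * k' < _ := h1
        _ = _ := by ring
    have h4 := lt_of_mul_lt_mul_left h3 he₁Q.le
    have h5 : (0 : ℚ) < ((n₁ * J.factorial : ℕ) : ℚ) := by
      have : 0 < n₁ * J.factorial := Nat.mul_pos (by omega) hJ
      exact_mod_cast this
    have h6 : (k' : ℚ) / ((n₁ * J.factorial : ℕ) : ℚ) < 1 + m := by
      rw [div_lt_iff₀ h5, mul_comm]; exact h4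
    linarith
  · intro v k' l hv hover hk' hl
    obtain ⟨w, e₁, he₁, hw1, hvw⟩ := exists_extension (L := L) v hv.normalized
    have he₁Q : (0 : ℚ) < e₁ := by exact_mod_cast he₁
    have hGQ : (0 : ℚ) < Nat.card G := by exact_mod_cast hG
    have h1 := (hφ w v e₁ hvw).1 ((k : ℚ) * (e₁ * l) / Nat.card G) (by
      intro τ hτ
      have hvw' : ∀ g : K, (w.comap (τ : L →+* L)) (algebraMap K L g) = e₁ • v g := by
        intro g
        rw [comap_apply', H.fixK hτ, hvw]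
      have hw1' := comap_normalized hw1 τ
      have hw' : Q.IsDivisorial (e + 1) (w.comap (τ : L →+* L)) :=
        divisorial_iff.2 (isDivisorial_of_ext (divisorial_iff.1 hv) hw1' hvw')
      have hx : ∀ j, 0 ≤ ov (w.comap (τ : L →+* L)) (x j) := by
        intro j
        refine H.nonneg_x (fun a ha => ?_) j
        rw [hvw']
        exact nsmul_nonneg (hover ⟨a, ha⟩) _
      have h2 := eff_phi H.hyp R (n := n₁) hxs (fun j => k * bq j) (by
        intro γ' hγ' j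
        rw [hs1] at hγ'
        obtain ⟨γ, hγ, rfl⟩ := Finset.mem_image.1 hγ'
        rw [hι]; omega) hw'.const hx
      have h3 := H.ov_psi R hψ0 hψ hvw'
      have h4 : ov v ψ = l := ov_eq_of v hl
      rw [h4] at h3
      have h5 : ((n₁ : ℚ) * ov (w.comap (τ : L →+* L)) h +
          ∑ j, ((k * bq j : ℕ) : ℚ) * ov (w.comap (τ : L →+* L)) (x j)) ≤
          ov (w.comap (τ : L →+* L)) φ₁ := by exact_mod_cast h2
      have h6 : (e₁ : ℚ) * l = Nat.card G * (q * ov (w.comap (τ : L →+* L)) h +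
          ∑ j, (bq j : ℚ) * ov (w.comap (τ : L →+* L)) (x j)) := by exact_mod_cast h3
      have h7 : ∑ j, ((k * bq j : ℕ) : ℚ) * ov (w.comap (τ : L →+* L)) (x j) =
          k * ∑ j, (bq j : ℚ) * ov (w.comap (τ : L →+* L)) (x j) := by
        rw [Finset.mul_sum]
        exact Finset.sum_congr rfl fun j _ => by push_cast; ring
      rw [ov_comap w τ φ₁] at h5
      rw [h6, div_le_iff₀ hGQ]
      rw [h7, hn₁] at h5
      push_cast at h5
      calc (k : ℚ) * (Nat.card G * (q * ov (w.comap (τ : L →+* L)) h +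
            ∑ j, (bq j : ℚ) * ov (w.comap (τ : L →+* L)) (x j)))
          = (k * q * ov (w.comap (τ : L →+* L)) h +
            k * ∑ j, (bq j : ℚ) * ov (w.comap (τ : L →+* L)) (x j)) * Nat.card G := by ring
        _ ≤ _ := mul_le_mul_of_nonneg_right h5 hGQ.le)
    have h2 : ov v φ = k' := ov_eq_of v hk'
    rw [h2] at h1
    have hkQ : (0 : ℚ) < k := by exact_mod_cast hk0
    have hJQ : (0 : ℚ) < J.factorial := by exact_mod_cast hJ
    have h3 : (0 : ℚ) < ((q * Nat.card G : ℕ) : ℚ) := by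
      have := Nat.mul_pos hq hG
      exact_mod_cast this
    have h5 : (0 : ℚ) < ((n₁ * J.factorial : ℕ) : ℚ) := by
      have : 0 < n₁ * J.factorial := Nat.mul_pos (by omega) hJ
      exact_mod_cast this
    rw [div_le_div_iff₀ h3 h5]
    have h6 : (J.factorial : ℚ) * (k * (e₁ * l)) ≤ e₁ * k' * Nat.card G := by
      have h7 := mul_le_mul_of_nonneg_right h1 hGQ.le
      calc (J.factorial : ℚ) * (k * (e₁ * l)) =
          (J.factorial : ℚ) * (k * (e₁ * l) / Nat.card G) * Nat.card G := by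
            field_simp
        _ ≤ _ := h7
    have h7 : (e₁ : ℚ) * ((l : ℚ) * ((n₁ * J.factorial : ℕ) : ℚ)) ≤
        e₁ * ((k' : ℚ) * ((q * Nat.card G : ℕ) : ℚ)) := by
      rw [hn₁]
      push_cast
      have h8 := mul_le_mul_of_nonneg_left h6 hqQ.le
      calc (e₁ : ℚ) * (l * (k * q * J.factorial)) = q * (J.factorial * (k * (e₁ * l))) := by ring
        _ ≤ q * (e₁ * k' * Nat.card G) := h8
        _ = _ := by ring
    exact le_of_mul_le_mul_left h7 he₁Q

theorem mainH (d : ℕ) (hd : 0 < d) (J q : ℕ) (hq : 0 < q) (ε : ℝ) (hε : 0 < ε) : ∃ c : ℕ, 0 < c ∧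
    ∀ n : ℕ, 0 < n → c ∣ n →
    ∀ (K L : Type) [Field K] [Field L] [Algebra ℂ K] [Algebra ℂ L] [Algebra K L]
      [IsScalarTower ℂ K L] (x : Fin (d + 1) → L) (f : MvPolynomial (Fin (d + 1)) ℂ)
      (b : Fin (d + 1) → ℚ) (G G₀ : Subgroup (L ≃ₐ[ℂ] L)) (A : Subalgebra ℂ K),
      IsNonDegQuotient J x f b G G₀ A →
      (∀ j, 0 ≤ b j ∧ b j ≤ 1 ∧ ∃ z : ℤ, (q : ℚ) * b j = z) →
    ∀ D : Fin d → Derivation ℂ K K, (∃ g, Q.jac D g ≠ 0) →
    ∀ B : Q.QDivisor A, (∀ p, 0 ≤ B.coeff p) → IsCrepantH x f b A D B → Q.IsEpsLC D B ε →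
    (∀ m : Ideal A, m.IsMaximal → Q.HasKltComplement D B n m) ∧
    ∃ φ : K, Q.IsKltComplement D B n φ ∧
      ∀ (𝒞 : Set (Subalgebra ℂ K)) (β : AddValuation K (WithTop ℤ) → ℚ),
        Q.IsCrepantModel D B 𝒞 β → Q.IsKltComplementOn D 𝒞 β n φ := by
  obtain ⟨c, hc, hmain⟩ := core d hd J q hq hε
  refine ⟨c, hc, ?_⟩
  intro n hn hdvd K L _ _ _ _ _ _ x f b G G₀ A H hb D hD B hB hcr hlc
  obtain ⟨r, ψ, φ, h0, hφ, h1, h2⟩ := hmain n hn hdvd K L x f b G G₀ A H hb D hD B hcr hlc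
  have h3 := models hB h0 hφ h1 h2
  refine ⟨fun m hm => ⟨1, fun h4 => hm.ne_top ((Ideal.eq_top_iff_one m).2 h4), φ, hφ, ?_, ?_⟩,
    φ, ⟨hφ, h3.1, h1⟩, h3.2⟩
  · intro u p m' k' hu _ hm' hk'
    exact h3.1 u p m' k' hu hm' hk'
  · intro v m' k' hv hover _ hm' hk'
    exact h1 v m' k' hv hover hm' hk'

end Vale.Agent.P283.H647
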