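import Vale.Agent.P283.H647.PsiV
import Vale.Agent.P283.H647.Cvx

/-!
The log discrepancies of the weights, and the convex function of an lc quotient.
-/

set_option linter.all false

namespace Vale.Agent.P283.H647

open MvPolynomial Finset

variable {N : ℕ}

/-- The initial form of `f` for the weight `A` is not a monomial. -/
def NonMono (f : MvPolynomial (Fin N) ℂ) (A : Fin N → ℕ) : Prop :=
  ∃ m, IsMin f A m ∧ ∃ α ∈ f.support, ∃ β ∈ f.support, α ≠ β ∧ wt A α = m ∧ wt A β = m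

/-- The passage from weights with non-monomial initial form to all weights. -/
theorem psi_ext (f : MvPolynomial (Fin N) ℂ) (M : AddSubgroup (Fin N → ℤ)) (r : ℕ) (hr : 0 < r)
    (hru : ∀ u : Fin N → ℤ, (r : ℤ) • u ∈ M)
    (hf : ∀ α ∈ f.support, ∀ β ∈ f.support, (fun j => (α j : ℤ) - β j) ∈ M)
    (b : Fin N → ℝ) (hb : ∀ j, 0 ≤ b j) (ε ε' : ℝ) (h1 : ε' ≤ ε) (h2 : ε' ≤ 1)
    (hψ : ∀ A : Fin N → ℕ, NonMono f A → A ≠ 0 → (∀ m ∈ M, (r : ℤ) ∣ ∑ j, (A j : ℤ) * m j) →
      ∀ α ∈ f.support, (∀ β ∈ f.support, wt A α ≤ wt A β) →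
      r * ε ≤ ∑ j, (1 - b j) * A j - wt A α)
    (a₀ : Fin N → ℕ) (ha₀ : NonMono f a₀) (ha₀' : a₀ ≠ 0)
    (A : Fin N → ℕ) (hA : ∀ j, A j = 0 ↔ a₀ j = 0)
    (hAM : ∀ m ∈ M, (r : ℤ) ∣ ∑ j, (A j : ℤ) * m j) :
    ∃ α ∈ f.support, r * ε' ≤ ∑ j, (1 - b j) * A j - wt A α := by
  classical
  obtain ⟨m₀, hm₀, α', hα', β', hβ', hne, hα'm, hβ'm⟩ := ha₀
  obtain ⟨α, hα, hmin⟩ := f.support.exists_min_image (fun e => wt A e) ⟨α', hα'⟩
  have hA0 : A ≠ 0 := by
    intro h0
    apply ha₀'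
    funext j
    exact (hA j).1 (congrFun h0 j)
  have hrR : (0 : ℝ) < r := by exact_mod_cast hr
  refine ⟨α, hα, ?_⟩
  by_cases hnm : NonMono f A
  · have h3 := hψ A hnm hA0 hAM α hα hmin
    have h4 : (r : ℝ) * ε' ≤ r * ε := mul_le_mul_of_nonneg_left h1 hrR.le
    linarith
  · -- the initial form is a monomial
    have huniq : ∀ β ∈ f.support, wt A β = wt A α → β = α := by
      intro β hβ hw
      by_contra hne'
      exact hnm ⟨wt A α, ⟨⟨α, hα, rfl⟩, hmin⟩, β, hβ, α, hα, hne', hw, rfl⟩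
    have hex : ∃ β ∈ f.support, ∃ i, a₀ i ≠ 0 ∧ β i < α i := by
      by_contra hno
      push Not at hno
      have h3 : ∀ β ∈ f.support, wt a₀ α ≤ wt a₀ β := by
        intro β hβ
        refine Finset.sum_le_sum fun i _ => ?_
        by_cases hi : a₀ i = 0
        · rw [hi, zero_mul, zero_mul]
        · exact Nat.mul_le_mul_left _ (hno β hβ i hi)
      have h4 : wt a₀ α = m₀ := le_antisymm (by rw [← hα'm]; exact h3 α' hα') (hm₀.2 α hα)
      -- one of the two exponents is not `α`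
      obtain ⟨γ, hγ, hγα, hγm⟩ : ∃ γ ∈ f.support, γ ≠ α ∧ wt a₀ γ = m₀ := by
        by_cases hc : α' = α
        · exact ⟨β', hβ', fun h => hne (hc.trans h.symm), hβ'm⟩
        · exact ⟨α', hα', hc, hα'm⟩
      have h5 : ∀ i, a₀ i ≠ 0 → α i = γ i := by
        intro i hi
        by_contra hne2
        have hlt : α i < γ i := lt_of_le_of_ne (hno γ hγ i hi) hne2
        have h6 : wt a₀ α < wt a₀ γ := by
          refine Finset.sum_lt_sum (fun k _ => ?_) ⟨i, Finset.mem_univ _, ?_⟩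
          · by_cases hk : a₀ k = 0
            · rw [hk, zero_mul, zero_mul]
            · exact Nat.mul_le_mul_left _ (hno γ hγ k hk)
          · exact Nat.mul_lt_mul_of_pos_left hlt (Nat.pos_of_ne_zero hi)
        omega
      apply hγα
      apply huniq γ hγ
      refine Finset.sum_congr rfl fun i _ => ?_
      by_cases hi : a₀ i = 0
      · rw [(hA i).2 hi, zero_mul, zero_mul]
      · rw [h5 i hi]
    obtain ⟨β₀, hβ₀, i, hi, hβ₀i⟩ := hex
    let T := f.support.filter fun β => β i < α i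
    have hT : T.Nonempty := ⟨β₀, Finset.mem_filter.2 ⟨hβ₀, hβ₀i⟩⟩
    obtain ⟨β, hβT, hβmin⟩ := T.exists_min_image
      (fun β => ((wt A β : ℝ) - wt A α) / ((α i : ℝ) - β i)) hT
    obtain ⟨hβ, hβi⟩ := Finset.mem_filter.1 hβT
    obtain ⟨k, hk⟩ := Nat.exists_eq_add_of_lt hβi
    obtain ⟨p, hp⟩ : ∃ p, wt A β = wt A α + p := Nat.exists_eq_add_of_le (hmin β hβ)
    have hβα : β ≠ α := by
      rintro rfl
      exact lt_irrefl _ hβi
    have hp0 : 0 < p := by
      rcases Nat.eq_zero_or_pos p with h | h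
      · exact absurd (huniq β hβ (by rw [hp, h, add_zero])) hβα
      · exact h
    let A' : Fin N → ℕ := fun j => (k + 1) * A j + (if j = i then p else 0)
    have hwt : ∀ γ, wt A' γ = (k + 1) * wt A γ + p * γ i := by
      intro γ
      have h3 : ∀ j, A' j * γ j = (k + 1) * (A j * γ j) + (if j = i then p * γ j else 0) := by
        intro j
        simp only [A']
        split_ifs <;> ring
      unfold wt
      rw [Finset.sum_congr rfl fun j _ => h3 j, Finset.sum_add_distrib, Finset.sum_ite_eq',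
        if_pos (Finset.mem_univ _), Finset.mul_sum]
    have hαi : α i = β i + k + 1 := by omega
    have hmin' : ∀ γ ∈ f.support, wt A' α ≤ wt A' γ := by
      intro γ hγ
      rw [hwt, hwt]
      by_cases hγi : γ i < α i
      · have hγT : γ ∈ T := Finset.mem_filter.2 ⟨hγ, hγi⟩
        have h3 := hβmin γ hγT
        have h4 : (0 : ℝ) < (α i : ℝ) - β i := by
          have : (β i : ℝ) < α i := by exact_mod_cast hβi
          linarith
        have h5 : (0 : ℝ) < (α i : ℝ) - γ i := by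
          have : (γ i : ℝ) < α i := by exact_mod_cast hγi
          linarith
        rw [div_le_div_iff₀ h4 h5] at h3
        have h6 : ((α i : ℝ) - β i) = k + 1 := by rw [hαi]; push_cast; ring
        have h7 : ((wt A β : ℝ) - wt A α) = p := by rw [hp]; push_cast; ring
        rw [h6, h7] at h3
        have h8 : (((k + 1) * wt A α + p * α i : ℕ) : ℝ) ≤ (((k + 1) * wt A γ + p * γ i : ℕ) : ℝ) := by
          push_cast
          linarith
        exact_mod_cast h8
      · push Not at hγi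
        exact Nat.add_le_add (Nat.mul_le_mul_left _ (hmin γ hγ)) (Nat.mul_le_mul_left _ hγi)
    have heq : wt A' β = wt A' α := by
      rw [hwt, hwt, hp, hαi]; ring
    have hnm' : NonMono f A' :=
      ⟨wt A' α, ⟨⟨α, hα, rfl⟩, hmin'⟩, β, hβ, α, hα, hβα, heq, rfl⟩
    have hA'0 : A' ≠ 0 := by
      intro h0
      have := congrFun h0 i
      simp only [A', if_true, Pi.zero_apply] at this
      omega
    have hrp : (r : ℤ) ∣ p := by
      have h3 := hAM _ (hf β hβ α hα)
      have h4 : ∑ j, (A j : ℤ) * ((β j : ℤ) - α j) = p := by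
        have h5 : ((wt A β : ℕ) : ℤ) = wt A α + p := by rw [hp]; push_cast; ring
        unfold wt at h5
        push_cast at h5
        simp only [mul_sub, Finset.sum_sub_distrib]
        linarith
      rw [h4] at h3
      exact h3
    have hA'M : ∀ m ∈ M, (r : ℤ) ∣ ∑ j, (A' j : ℤ) * m j := by
      intro m hm
      have h3 : ∑ j, (A' j : ℤ) * m j = (k + 1) * ∑ j, (A j : ℤ) * m j + p * m i := by
        have h4 : ∀ j, (A' j : ℤ) * m j = (k + 1) * ((A j : ℤ) * m j) +
            (if j = i then (p : ℤ) * m j else 0) := by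
          intro j
          simp only [A']
          split_ifs <;> push_cast <;> ring
        rw [Finset.sum_congr rfl fun j _ => h4 j, Finset.sum_add_distrib, Finset.sum_ite_eq',
          if_pos (Finset.mem_univ _), Finset.mul_sum]
      rw [h3]
      exact dvd_add (Dvd.dvd.mul_left (hAM m hm) _) (Dvd.dvd.mul_right hrp _)
    have h3 := hψ A' hnm' hA'0 hA'M α hα hmin'
    have h4 : ∑ j, (1 - b j) * (A' j : ℝ) = (k + 1) * ∑ j, (1 - b j) * (A j : ℝ) +
        (1 - b i) * p := by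
      have h4 : ∀ j, (1 - b j) * (A' j : ℝ) = (k + 1) * ((1 - b j) * (A j : ℝ)) +
          (if j = i then (1 - b j) * (p : ℝ) else 0) := by
        intro j
        simp only [A']
        split_ifs <;> push_cast <;> ring
      rw [Finset.sum_congr rfl fun j _ => h4 j, Finset.sum_add_distrib, Finset.sum_ite_eq',
        if_pos (Finset.mem_univ _), Finset.mul_sum]
    rw [h4, hwt] at h3
    push_cast at h3
    have hrp' : (r : ℝ) ≤ p := by
      have : r ≤ p := Nat.le_of_dvd hp0 (by exact_mod_cast hrp)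
      exact_mod_cast this
    have hαi' : ((k : ℝ) + 1) ≤ α i := by rw [hαi]; push_cast; linarith [Nat.cast_nonneg (α := ℝ) (β i)]
    have h5 : (r : ℝ) * k ≤ p * (α i - 1 + b i) := by
      have h6 : (k : ℝ) ≤ α i - 1 + b i := by linarith [hb i]
      exact mul_le_mul hrp' h6 (Nat.cast_nonneg _) (hrR.le.trans hrp')
    have h6 : (k + 1 : ℝ) * (r * ε') ≤ (k + 1) * (∑ j, (1 - b j) * (A j : ℝ) - wt A α) := by
      have h7 : (r : ℝ) * ε' ≤ r * ε := mul_le_mul_of_nonneg_left h1 hrR.le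
      have h8 : (k : ℝ) * (r * ε') ≤ r * k := by
        have h9 : (r : ℝ) * ε' ≤ r * 1 := mul_le_mul_of_nonneg_left h2 hrR.le
        have := mul_le_mul_of_nonneg_left h9 (Nat.cast_nonneg (α := ℝ) k)
        linarith
      nlinarith [h3, h5, h7, h8]
    exact le_of_mul_le_mul_left h6 (by positivity)

section Lc

variable {e : ℕ} {K L : Type} [Field K] [Field L] [Algebra ℂ K] [Algebra ℂ L] [Algebra K L]
  [IsScalarTower ℂ K L]
variable {x : Fin (e + 2) → L} {f : MvPolynomial (Fin (e + 2)) ℂ} {G : Subgroup (L ≃ₐ[ℂ] L)}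

/-- The lc condition for divisors over the quotient by a diagonal group. -/
def LcOn (K : Type) {L : Type} [Field K] [Field L] [Algebra ℂ K] [Algebra ℂ L] [Algebra K L] {d : ℕ}
    (x : Fin (d + 1) → L) (D' : Fin d → Derivation ℂ L L) (h : L) (b : Fin (d + 1) → ℝ) (ε : ℝ) :
    Prop :=
  ∀ (w : AddValuation L (WithTop ℤ)) (v : AddValuation K (WithTop ℤ)) (e₀ : ℕ) (m' : ℤ),
    Q.IsDivisorial d w → Q.IsDivisorial d v → 0 < e₀ → (∀ g : K, w (algebraMap K L g) = e₀ • v g) →
    (∀ j, 0 ≤ ov w (x j)) → Q.FormOrder w D' m' →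
    e₀ * ε ≤ 1 + m' - ov w h - ∑ j, b j * ov w (x j)

theorem DiagData.psi_nonmono (H : DiagData K x f G) (hnd : NonDeg f) {D' : Fin (e + 1) → Derivation ℂ L L} {h : L}
    (R : ResForm x f D' h) {b : Fin (e + 2) → ℝ} {ε : ℝ} (hε : 0 < ε) (hlc : LcOn K x D' h b ε)
    (A : Fin (e + 2) → ℕ) (hnm : NonMono f A) (hA0 : A ≠ 0) (r : ℕ) (hr : 0 < r)
    (hdvd : ∀ m ∈ H.lat, (r : ℤ) ∣ ∑ j, (A j : ℤ) * m j) (α : Fin (e + 2) →₀ ℕ)
    (hα : α ∈ f.support) (hmin : ∀ β ∈ f.support, wt A α ≤ wt A β) :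
    r * ε ≤ ∑ j, (1 - b j) * A j - wt A α := by
  classical
  obtain ⟨m, hm, α', hα', β', hβ', hne, hα'm, hβ'm⟩ := hnm
  have hαm : wt A α = m := le_antisymm (by rw [← hα'm]; exact hmin α' hα') (hm.2 α hα)
  obtain ⟨c, e₀, v, w, hc, he₀, hv, hw, hvw, hx, hord⟩ :=
    H.psi_val hnd A hA0 r hr hdvd hm hα' hβ' hα'm hβ'm hne
  haveI := H.hyp.ess
  obtain ⟨m', hm'⟩ := order_exists (Nat.succ_pos e) H.hyp.trdeg D' R.jac_ne hw
  have h1 := hord D' h R m' hm'
  have hrc : (0 : ℤ) < (r : ℤ) * c := by positivity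
  have hnn : ∀ j, 0 ≤ ov w (x j) := by
    intro j
    have h2 := hx j
    by_contra hneg
    push Not at hneg
    have h3 : (r : ℤ) * c * ov w (x j) < 0 := mul_neg_of_pos_of_neg hrc hneg
    have h4 : (0 : ℤ) ≤ e₀ * A j := by positivity
    omega
  have h2 := hlc w v e₀ m' hw hv he₀ hvw hnn hm'
  have hrcR : (0 : ℝ) < (r : ℝ) * c := by positivity
  have he₀R : (0 : ℝ) < e₀ := by exact_mod_cast he₀
  have h3 := mul_le_mul_of_nonneg_left h2 hrcR.le
  have h4 : (r : ℝ) * c * ((1 : ℝ) + m' - ov w h - ∑ j, b j * ov w (x j)) =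
      e₀ * (∑ j, (1 - b j) * A j - m) := by
    have h5 : ((r : ℝ) * c) * (1 + (m' : ℝ) - ov w h) = e₀ * (∑ j, (A j : ℝ) - m) := by
      have := congrArg (Int.cast : ℤ → ℝ) h1
      push_cast at this
      exact this
    have h6 : ((r : ℝ) * c) * ∑ j, b j * ov w (x j) = e₀ * ∑ j, b j * A j := by
      rw [Finset.mul_sum, Finset.mul_sum]
      refine Finset.sum_congr rfl fun j _ => ?_
      have := congrArg (Int.cast : ℤ → ℝ) (hx j)
      push_cast at this
      linear_combination b j * this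
    have h7 : ∑ j, (1 - b j) * (A j : ℝ) = ∑ j, (A j : ℝ) - ∑ j, b j * A j := by
      rw [← Finset.sum_sub_distrib]
      exact Finset.sum_congr rfl fun j _ => by ring
    rw [h7]
    linear_combination h5 - h6
  rw [h4] at h3
  have h5 : (e₀ : ℝ) * (r * c * ε) ≤ e₀ * (∑ j, (1 - b j) * (A j : ℝ) - m) := by
    calc (e₀ : ℝ) * (r * c * ε) = r * c * (e₀ * ε) := by ring
      _ ≤ _ := h3
  have h6 := le_of_mul_le_mul_left h5 he₀R
  have hc1 : (1 : ℝ) ≤ c := by exact_mod_cast hc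
  have h7 : (r : ℝ) * ε ≤ r * c * ε := by
    have : (r : ℝ) * ε * 1 ≤ r * ε * c := mul_le_mul_of_nonneg_left hc1 (by positivity)
    linarith
  rw [hαm]
  linarith

end Lc

end Vale.Agent.P283.H647
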