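import Vale.Agent.P283.H647.Lat

/-!
Quotients of hypersurfaces by finite diagonal groups: invariants and coordinates.
-/

set_option linter.all false

namespace Vale.Agent.P283.H647

open MvPolynomial Finset

variable {e : ℕ} {K L : Type} [Field K] [Field L] [Algebra ℂ K] [Algebra ℂ L] [Algebra K L]
  [IsScalarTower ℂ K L]

/-- A hypersurface with a finite diagonal group action. -/
structure DiagData (K : Type) {L : Type} [Field K] [Field L] [Algebra ℂ L] [Algebra K L] {N : ℕ}
    (x : Fin N → L) (f : MvPolynomial (Fin N) ℂ) (G : Subgroup (L ≃ₐ[ℂ] L)) : Prop where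
  gen : ∀ g : L, ∃ P Q : MvPolynomial (Fin N) ℂ, aeval x Q ≠ 0 ∧ g = aeval x P / aeval x Q
  ker : ∀ P : MvPolynomial (Fin N) ℂ, aeval x P = 0 ↔ f ∣ P
  f0 : f ≠ 0
  x0 : ∀ j, x j ≠ 0
  fin : Finite G
  diag : ∀ τ ∈ G, ∀ j, ∃ c : ℂ, τ (x j) = c • x j
  fix : ∀ g : L, g ∈ Set.range (algebraMap K L) ↔ ∀ τ ∈ G, τ g = g

section General

variable {N : ℕ} {x : Fin N → L} {f : MvPolynomial (Fin N) ℂ} {G : Subgroup (L ≃ₐ[ℂ] L)}

theorem DiagData.eqn (H : DiagData K x f G) : aeval x f = 0 := (H.ker f).2 dvd_rfl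

/-- The lattice of invariant monomials. -/
def DiagData.lat (H : DiagData K x f G) : AddSubgroup (Fin N → ℤ) := invLattice x H.x0 G

theorem DiagData.card_mem (H : DiagData K x f G) (u : Fin N → ℤ) :
    (Nat.card G : ℤ) • u ∈ H.lat := by
  intro τ hτ
  haveI : Finite G := H.fin
  choose χ hχ using H.diag τ hτ
  have h0 := H.x0
  rw [monoT_nsmul, map_pow, map_monoT hχ]
  have h1 : ∀ n : ℕ, (τ ^ n) (monoT x u) = (∏ i, χ i ^ u i) ^ n • monoT x u := by
    intro n
    induction n with
    | zero => simp only [pow_zero, AlgEquiv.one_apply, one_smul]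
    | succ n ih =>
      rw [pow_succ', AlgEquiv.mul_apply, ih, map_smul, map_monoT hχ, smul_smul, pow_succ]
  have h2 : τ ^ Nat.card G = 1 := by
    have h3 : (⟨τ, hτ⟩ : G) ^ Nat.card G = 1 := pow_card_eq_one'
    exact congrArg Subtype.val h3
  have h3 := h1 (Nat.card G)
  rw [h2, AlgEquiv.one_apply] at h3
  have h4 : (1 : ℂ) = (∏ i, χ i ^ u i) ^ Nat.card G := by
    have h5 : (1 : ℂ) • monoT x u = (∏ i, χ i ^ u i) ^ Nat.card G • monoT x u := by
      rw [one_smul]; exact h3
    exact smul_left_injective ℂ (monoT_ne_zero h0 u) h5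
  rw [smul_pow, ← h4, one_smul]

theorem aeval_eq_sum (x : Fin N → L) (p : MvPolynomial (Fin N) ℂ) :
    aeval x p = ∑ α ∈ p.support, algebraMap ℂ L (p.coeff α) * monoT x (fun j => (α j : ℤ)) := by
  conv_lhs => rw [p.as_sum, map_sum]
  refine Finset.sum_congr rfl fun α _ => ?_
  rw [aeval_monomial, Finsupp.prod_fintype _ _ (by simp)]
  simp only [monoT, zpow_natCast]

/-- All exponents of `f` are in one class. -/
theorem DiagData.class_f (H : DiagData K x f G) {α β : Fin N →₀ ℕ} (hα : α ∈ f.support)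
    (hβ : β ∈ f.support) : (fun j => (α j : ℤ) - β j) ∈ H.lat := by
  classical
  intro τ hτ
  choose χ hχ using H.diag τ hτ
  have hχ0 : ∀ i, χ i ≠ 0 := char_ne_zero H.x0 hχ
  let f' : MvPolynomial (Fin N) ℂ := ∑ γ ∈ f.support,
    monomial γ ((∏ i, χ i ^ (γ i : ℤ)) * f.coeff γ)
  have hcoef : ∀ γ, f'.coeff γ = (∏ i, χ i ^ (γ i : ℤ)) * f.coeff γ := by
    intro γ
    simp only [f', coeff_sum, coeff_monomial, Finset.sum_ite_eq']
    split_ifs with h
    · rfl
    · rw [notMem_support_iff.1 h, mul_zero]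
  have h1 : aeval x f' = 0 := by
    have h2 : τ (aeval x f) = aeval x f' := by
      rw [aeval_eq_sum x f, map_sum]
      simp only [f']
      rw [map_sum]
      refine Finset.sum_congr rfl fun γ _ => ?_
      rw [map_mul, AlgEquiv.commutes, map_monoT hχ, aeval_monomial,
        Finsupp.prod_fintype _ _ (by simp), map_mul, Algebra.smul_def]
      simp only [monoT, zpow_natCast]
      ring
    rw [← h2, H.eqn, map_zero]
  obtain ⟨g, hg⟩ := (H.ker f').1 h1
  have hprod0 : ∀ γ : Fin N →₀ ℕ, (∏ i, χ i ^ (γ i : ℤ)) ≠ 0 := fun γ =>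
    Finset.prod_ne_zero_iff.2 fun i _ => zpow_ne_zero _ (hχ0 i)
  have hf'0 : f' ≠ 0 := by
    intro h0
    have h2 := hcoef α
    rw [h0, coeff_zero] at h2
    exact mul_ne_zero (hprod0 α) (mem_support_iff.1 hα) h2.symm
  have hg0 : g ≠ 0 := by rintro rfl; rw [mul_zero] at hg; exact hf'0 hg
  have hdeg : f'.totalDegree ≤ f.totalDegree := by
    unfold totalDegree
    apply Finset.sup_mono
    intro γ hγ
    rw [mem_support_iff, hcoef] at hγ
    exact mem_support_iff.2 (right_ne_zero_of_mul hγ)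
  have hgd : g.totalDegree = 0 := by
    rw [hg, totalDegree_mul_of_isDomain H.f0 hg0] at hdeg
    omega
  rw [totalDegree_eq_zero_iff_eq_C] at hgd
  have hall : ∀ γ ∈ f.support, (∏ i, χ i ^ (γ i : ℤ)) = g.coeff 0 := by
    intro γ hγ
    have h2 := hcoef γ
    rw [hg, hgd, mul_comm f, coeff_C_mul] at h2
    have h3 := mem_support_iff.1 hγ
    exact (mul_right_cancel₀ h3 h2).symm
  rw [map_monoT hχ]
  have h2 : ∏ i, χ i ^ ((α i : ℤ) - β i) = 1 := by
    have h3 : ∏ i, χ i ^ ((α i : ℤ) - β i) = (∏ i, χ i ^ (α i : ℤ)) / ∏ i, χ i ^ (β i : ℤ) := by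
      rw [← Finset.prod_div_distrib]
      exact Finset.prod_congr rfl fun i _ => zpow_sub₀ (hχ0 i) _ _
    rw [h3, hall α hα, hall β hβ, div_self]
    rw [← hall β hβ]; exact hprod0 β
  rw [h2, one_smul]

/-- An invariant polynomial function only involves invariant monomials. -/
theorem DiagData.invariant_part (H : DiagData K x f G) (p : MvPolynomial (Fin N) ℂ)
    (hp : ∀ τ ∈ G, τ (aeval x p) = aeval x p) : ∃ p' : MvPolynomial (Fin N) ℂ,
      aeval x p = aeval x p' ∧ ∀ α ∈ p'.support, (fun j => (α j : ℤ)) ∈ H.lat := by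
  classical
  haveI : Finite G := H.fin
  haveI := Fintype.ofFinite G
  haveI : CharZero L := charZero_of_injective_algebraMap (algebraMap ℂ L).injective
  let p' : MvPolynomial (Fin N) ℂ := ∑ α ∈ p.support.filter
    (fun α => (fun j => (α j : ℤ)) ∈ H.lat), monomial α (p.coeff α)
  have hcoef : ∀ γ, p'.coeff γ = if (fun j => (γ j : ℤ)) ∈ H.lat then p.coeff γ else 0 := by
    intro γ
    simp only [p', coeff_sum, coeff_monomial, Finset.sum_ite_eq', Finset.mem_filter]
    by_cases h : γ ∈ p.support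
    · simp [h]
    · rw [if_neg (fun h' => h h'.1), notMem_support_iff.1 h, ite_self]
  refine ⟨p', ?_, ?_⟩
  · -- the average of a monomial
    have havg : ∀ u : Fin N → ℤ, ∑ τ : G, (τ : L ≃ₐ[ℂ] L) (monoT x u) =
        if u ∈ H.lat then (Fintype.card G : L) * monoT x u else 0 := by
      intro u
      split_ifs with hu
      · rw [Finset.sum_congr rfl fun (τ : G) _ => hu τ.1 τ.2, Finset.sum_const, Finset.card_univ,
          nsmul_eq_mul]
      · by_contra hne
        apply hu
        intro τ₀ hτ₀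
        choose χ hχ using fun τ : G => H.diag τ.1 τ.2
        have h1 : ∑ τ : G, (τ : L ≃ₐ[ℂ] L) (monoT x u) =
            (∑ τ : G, ∏ i, χ τ i ^ u i) • monoT x u := by
          rw [Finset.sum_smul]
          exact Finset.sum_congr rfl fun τ _ => map_monoT (hχ τ) u
        have h2 : τ₀ (∑ τ : G, (τ : L ≃ₐ[ℂ] L) (monoT x u)) =
            ∑ τ : G, (τ : L ≃ₐ[ℂ] L) (monoT x u) := by
          rw [map_sum]
          exact Fintype.sum_equiv (Equiv.mulLeft (⟨τ₀, hτ₀⟩ : G)) _ _ fun τ => rfl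
        rw [h1] at h2 hne
        have h3 : (∑ τ : G, ∏ i, χ τ i ^ u i) ≠ 0 := by
          intro h0; rw [h0, zero_smul] at hne; exact hne rfl
        rw [Algebra.smul_def, map_mul, AlgEquiv.commutes] at h2
        have h4 : algebraMap ℂ L (∑ τ : G, ∏ i, χ τ i ^ u i) ≠ 0 := (map_ne_zero _).2 h3
        exact mul_left_cancel₀ h4 h2
    have h1 : (Fintype.card G : L) * aeval x p = (Fintype.card G : L) * aeval x p' := by
      have h2 : (Fintype.card G : L) * aeval x p = ∑ τ : G, (τ : L ≃ₐ[ℂ] L) (aeval x p) := by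
        rw [Finset.sum_congr rfl fun (τ : G) _ => hp τ.1 τ.2, Finset.sum_const,
          Finset.card_univ, nsmul_eq_mul]
      rw [h2, aeval_eq_sum x p]
      simp only [map_sum, map_mul, AlgEquiv.commutes]
      rw [Finset.sum_comm]
      simp only [← Finset.mul_sum, havg]
      simp only [p']
      rw [map_sum, Finset.mul_sum, Finset.sum_filter]
      refine Finset.sum_congr rfl fun α _ => ?_
      split_ifs with h
      · rw [aeval_monomial, Finsupp.prod_fintype _ _ (by simp)]
        simp only [monoT, zpow_natCast]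
        ring
      · rw [mul_zero]
    have h2 : (Fintype.card G : L) ≠ 0 := by
      exact_mod_cast Fintype.card_ne_zero
    exact mul_left_cancel₀ h2 h1
  · intro α hα
    rw [mem_support_iff, hcoef] at hα
    by_contra hno
    rw [if_neg hno] at hα
    exact hα rfl

theorem DiagData.twist (H : DiagData K x f G) {τ : L ≃ₐ[ℂ] L} (hτ : τ ∈ G)
    (p : MvPolynomial (Fin N) ℂ) : ∃ p' : MvPolynomial (Fin N) ℂ, aeval x p' = τ (aeval x p) := by
  choose χ hχ using H.diag τ hτ
  refine ⟨aeval (fun j => C (χ j) * X j) p, ?_⟩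
  induction p using MvPolynomial.induction_on with
  | C a => simp
  | add p q hp hq => simp only [map_add, hp, hq]
  | mul_X p j hp =>
    rw [map_mul, map_mul, map_mul, map_mul, hp]
    simp only [aeval_X, map_mul, hχ j, Algebra.smul_def]
    congr 1
    rw [← algebraMap_eq, AlgHom.commutes]

/-- Invariant functions are quotients of invariant polynomial functions. -/
theorem DiagData.inv_frac (H : DiagData K x f G) (g : K) :
    ∃ p q : MvPolynomial (Fin N) ℂ, aeval x q ≠ 0 ∧
      (∀ α ∈ p.support, (fun j => (α j : ℤ)) ∈ H.lat) ∧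
      (∀ α ∈ q.support, (fun j => (α j : ℤ)) ∈ H.lat) ∧
      algebraMap K L g = aeval x p / aeval x q := by
  classical
  haveI : Finite G := H.fin
  haveI := Fintype.ofFinite G
  obtain ⟨P, Q, hQ, hPQ⟩ := H.gen (algebraMap K L g)
  choose tw htw using fun (τ : G) => H.twist τ.2 Q
  let qh : MvPolynomial (Fin N) ℂ := ∏ τ : G, tw τ
  let ph : MvPolynomial (Fin N) ℂ := P * ∏ τ ∈ Finset.univ.erase (1 : G), tw τ
  have hqh : aeval x qh = ∏ τ : G, (τ : L ≃ₐ[ℂ] L) (aeval x Q) := by
    rw [map_prod]; exact Finset.prod_congr rfl fun τ _ => htw τ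
  have hqh0 : aeval x qh ≠ 0 := by
    rw [hqh]
    exact Finset.prod_ne_zero_iff.2 fun τ _ => (map_ne_zero _).2 hQ
  have hqhinv : ∀ τ ∈ G, τ (aeval x qh) = aeval x qh := by
    intro τ₀ hτ₀
    rw [hqh, map_prod]
    exact Fintype.prod_equiv (Equiv.mulLeft (⟨τ₀, hτ₀⟩ : G)) _ _ fun τ => rfl
  have hph : aeval x ph = algebraMap K L g * aeval x qh := by
    have h1 : aeval x qh = aeval x Q * ∏ τ ∈ Finset.univ.erase (1 : G), aeval x (tw τ) := by
      simp only [qh, map_prod]
      rw [← Finset.mul_prod_erase Finset.univ _ (Finset.mem_univ (1 : G)), htw]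
      rfl
    simp only [ph, map_mul, map_prod]
    rw [h1, hPQ]
    field_simp
  have hginv : ∀ τ ∈ G, τ (algebraMap K L g) = algebraMap K L g := (H.fix _).1 ⟨g, rfl⟩
  have hphinv : ∀ τ ∈ G, τ (aeval x ph) = aeval x ph := by
    intro τ hτ
    rw [hph, map_mul, hginv τ hτ, hqhinv τ hτ]
  obtain ⟨p, hp1, hp2⟩ := H.invariant_part ph hphinv
  obtain ⟨q, hq1, hq2⟩ := H.invariant_part qh hqhinv
  refine ⟨p, q, ?_, hp2, hq2, ?_⟩
  · rw [← hq1]; exact hqh0
  · rw [← hp1, ← hq1, hph, mul_div_cancel_right₀ _ hqh0]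

end General

end Vale.Agent.P283.H647
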