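import Vale.Agent.P283.H647.Lc

/-!
The sections defining complements.
-/

set_option linter.all false

namespace Vale.Agent.P283.H647

open MvPolynomial Finset

/-- exponents as functions -/
def toF {N : ℕ} (α : Fin N →₀ ℕ) : Fin N → ℕ := α

/-- The exponents of the complement. -/
theorem exists_expos (e q : ℕ) (hq : 0 < q) {ε : ℝ} (hε : 0 < ε) : ∃ k₀ : ℕ, 0 < k₀ ∧
    ∀ (K L : Type) [Field K] [Field L] [Algebra ℂ K] [Algebra ℂ L] [Algebra K L]
      [IsScalarTower ℂ K L] (x : Fin (e + 2) → L) (f : MvPolynomial (Fin (e + 2)) ℂ)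
      (G : Subgroup (L ≃ₐ[ℂ] L)) (H : DiagData K x f G) (hnd : NonDeg f) (D' : Fin (e + 1) → Derivation ℂ L L)
      (h : L) (R : ResForm x f D' h) (b : Fin (e + 2) → ℝ) (bq : Fin (e + 2) → ℕ)
      (hbq : ∀ j, (bq j : ℝ) = q * b j) (hbq1 : ∀ j, bq j ≤ q) (hlc : LcOn K x D' h b ε)
      (k : ℕ) (hk : k₀ ∣ k) (hk0 : 0 < k), ∃ E : Finset (Fin (e + 2) → ℕ), E.Nonempty ∧
      (∀ γ ∈ E, ∀ α ∈ f.support,
        (fun j => (γ j : ℤ) - k * (q - bq j : ℕ) + k * (q * α j)) ∈ H.lat) ∧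
      ∀ a₀ : Fin (e + 2) → ℕ, a₀ ≠ 0 → NonMono f a₀ → ∀ m, IsMin f a₀ m → ∃ γ ∈ E,
        (∑ j, (γ j : ℝ) * a₀ j) < k * (∑ j, (a₀ j : ℝ) * ((q - bq j : ℕ) : ℝ) - q * m) := by
  classical
  obtain ⟨k₀, hk₀, hmain⟩ := cvx_main (e + 2) q hq (ε := min ε 1) (lt_min hε one_pos)
  refine ⟨k₀, hk₀, ?_⟩
  intro K L _ _ _ _ _ _ x f G H hnd D' h R b bq hbq hbq1 hlc k hk hk0
  haveI := H.fin
  have hr : 0 < Nat.card G := Nat.card_pos
  have hrR : (0 : ℝ) < Nat.card G := by exact_mod_cast hr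
  have hqR : (0 : ℝ) < q := by exact_mod_cast hq
  have hb0 : ∀ j, 0 ≤ b j := by
    intro j
    have h1 := hbq j
    have h2 : (0 : ℝ) ≤ q * b j := by rw [← h1]; positivity
    exact nonneg_of_mul_nonneg_right h2 hqR
  have hκ : ∀ j, (((q - bq j : ℕ) : ℕ) : ℝ) = q * (1 - b j) := by
    intro j
    rw [Nat.cast_sub (hbq1 j), hbq j]; ring
  obtain ⟨E, hE, hE1, hE2⟩ := hmain (fun j => q - bq j) (fun j => Nat.sub_le _ _)
    (f.support.image toF) H.lat (Nat.card G) hr H.card_mem (by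
      intro α₁ hα₁ β₁ hβ₁
      obtain ⟨α, hα, rfl⟩ := Finset.mem_image.1 hα₁
      obtain ⟨β, hβ, rfl⟩ := Finset.mem_image.1 hβ₁
      exact H.class_f hα hβ) k hk hk0
  refine ⟨E, hE, fun γ hγ α hα => hE1 γ hγ _ (Finset.mem_image_of_mem toF hα), ?_⟩
  intro a₀ ha₀ hnm m hm
  let J : Finset (Fin (e + 2)) := Finset.univ.filter fun j => a₀ j ≠ 0
  have hJ : ∀ j, j ∈ J ↔ a₀ j ≠ 0 := fun j => by simp [J]
  have hhyp : ∀ a : Fin (e + 2) → ℝ, (∀ j ∈ J, 0 < a j) → (∀ j, j ∉ J → a j = 0) →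
      (∀ m ∈ H.lat, ∃ z : ℤ, ∑ j, a j * m j = z) →
      ∃ α ∈ f.support.image toF,
        q * min ε 1 ≤ val q (fun j => q - bq j) α a := by
    intro a ha1 ha2 haM
    have hz : ∀ j, ∃ z : ℤ, (Nat.card G : ℝ) * a j = z := by
      intro j
      obtain ⟨z, hz⟩ := haM _ (H.card_mem (Pi.single j 1))
      refine ⟨z, ?_⟩
      rw [← hz, Finset.sum_eq_single j]
      · simp; ring
      · intro i _ hij
        simp [hij]
      · intro h; exact absurd (Finset.mem_univ _) h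
    choose z hz using hz
    have hann : ∀ j, 0 ≤ a j := by
      intro j
      by_cases hj : j ∈ J
      · exact (ha1 j hj).le
      · rw [ha2 j hj]
    have hznn : ∀ j, 0 ≤ z j := by
      intro j
      have h1 : (0 : ℝ) ≤ z j := by rw [← hz j]; exact mul_nonneg hrR.le (hann j)
      exact_mod_cast h1
    let A' : Fin (e + 2) → ℕ := fun j => (z j).toNat
    have hA'z : ∀ j, (A' j : ℤ) = z j := fun j => Int.toNat_of_nonneg (hznn j)
    have hA' : ∀ j, (A' j : ℝ) = Nat.card G * a j := by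
      intro j
      have h1 : ((A' j : ℤ) : ℝ) = z j := by rw [hA'z j]
      rw [hz j, ← h1]; simp
    have hA0 : ∀ j, A' j = 0 ↔ a₀ j = 0 := by
      intro j
      constructor
      · intro h0
        by_contra hne
        have h1 := ha1 j ((hJ j).2 hne)
        have h2 : (A' j : ℝ) = 0 := by rw [h0]; simp
        rw [hA' j] at h2
        exact (mul_pos hrR h1).ne' h2
      · intro h0
        have h1 := ha2 j (fun h => (hJ j).1 h h0)
        have h2 : (A' j : ℝ) = 0 := by rw [hA' j, h1, mul_zero]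
        exact_mod_cast h2
    have hAM : ∀ m ∈ H.lat, ((Nat.card G : ℕ) : ℤ) ∣ ∑ j, (A' j : ℤ) * m j := by
      intro m hm
      obtain ⟨z', hz'⟩ := haM m hm
      refine ⟨z', ?_⟩
      have h1 : ((∑ j, (A' j : ℤ) * m j : ℤ) : ℝ) = ((Nat.card G : ℤ) * z' : ℤ) := by
        push_cast
        rw [← hz', Finset.mul_sum]
        refine Finset.sum_congr rfl fun j _ => ?_
        rw [hA' j]; ring
      exact_mod_cast h1
    obtain ⟨α, hα, hα'⟩ := psi_ext f H.lat (Nat.card G) hr H.card_mem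
      (fun α hα β hβ => H.class_f hα hβ) b hb0 ε (min ε 1) (min_le_left _ _) (min_le_right _ _)
      (fun A hnm hA0 hAM α hα hmin => H.psi_nonmono hnd R hε hlc A hnm hA0 _ hr hAM α hα hmin)
      a₀ hnm ha₀ A' hA0 hAM
    refine ⟨α, Finset.mem_image_of_mem toF hα, ?_⟩
    have h1 : (Nat.card G : ℝ) * val q (fun j => q - bq j) (toF α) a =
        q * (∑ j, (1 - b j) * A' j - wt A' α) := by
      unfold val wt toF
      push_cast
      rw [mul_sub, Finset.mul_sum, Finset.mul_sum, Finset.mul_sum, ← Finset.sum_sub_distrib]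
      refine Finset.sum_congr rfl fun j _ => ?_
      have h2 := hκ j
      push_cast [hbq1 j] at h2
      rw [hA' j]
      push_cast [hbq1 j]
      rw [h2]
      ring
    have h2 : (Nat.card G : ℝ) * (q * min ε 1) ≤
        (Nat.card G : ℝ) * val q (fun j => q - bq j) (toF α) a := by
      rw [h1]
      calc (Nat.card G : ℝ) * (q * min ε 1) = q * (Nat.card G * min ε 1) := by ring
        _ ≤ _ := mul_le_mul_of_nonneg_left hα' hqR.le
    exact le_of_mul_le_mul_left h2 hrR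
  obtain ⟨γ, hγ, α₁, hα₁, hlt⟩ := hE2 J hhyp (fun j => (a₀ j : ℝ))
    (fun j hj => by
      have := Nat.pos_of_ne_zero ((hJ j).1 hj)
      exact_mod_cast this)
    (fun j hj => by
      have : a₀ j = 0 := by
        by_contra hne
        exact hj ((hJ j).2 hne)
      simp [this])
  obtain ⟨α, hα', rfl⟩ := Finset.mem_image.1 hα₁
  refine ⟨γ, hγ, hlt.trans_le ?_⟩
  have hkR : (0 : ℝ) ≤ k := Nat.cast_nonneg _
  refine mul_le_mul_of_nonneg_left ?_ hkR
  have h1 : val q (fun j => q - bq j) (toF α) (fun j => (a₀ j : ℝ)) =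
      ∑ j, (a₀ j : ℝ) * ((q - bq j : ℕ) : ℝ) - q * wt a₀ α := by
    unfold val wt toF
    push_cast
    rw [Finset.mul_sum, ← Finset.sum_sub_distrib]
    exact Finset.sum_congr rfl fun j _ => by ring
  rw [h1]
  have h2 : (m : ℝ) ≤ wt a₀ α := by exact_mod_cast hm.2 α hα'
  have h3 := mul_le_mul_of_nonneg_left h2 hqR.le
  linarith

end Vale.Agent.P283.H647
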