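import Vale.Agent.P283.H647.Coord

/-!
The quotient of a non-degenerate hypersurface as a hypersurface in a torus, adapted to a weight.
-/

set_option linter.all false

namespace Vale.Agent.P283.H647

open MvPolynomial Finset

theorem irr_factor_aux {N : ℕ} (P : MvPolynomial (Fin N) ℂ) : P = 0 ∨
    (∃ t c, P = monomial t c) ∨ ∃ h, Irreducible h ∧ h ∣ P ∧ ∀ t : Fin N →₀ ℕ, ¬ h ∣ monomial t 1 := by
  classical
  induction P using UniqueFactorizationMonoid.induction_on_prime with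
  | h₁ => exact Or.inl rfl
  | h₂ u hu =>
    right; left
    have h1 : u ∣ monomial (0 : Fin N →₀ ℕ) (1 : ℂ) := hu.dvd
    obtain ⟨m, c, -, -, rfl⟩ := dvd_monomial_one_iff_exists.1 h1
    exact ⟨m, c, rfl⟩
  | h₃ a p ha hp ih =>
    rcases ih with h0 | ⟨t, c, ht⟩ | ⟨h, h1, h2, h3⟩
    · exact absurd h0 ha
    · by_cases hex : ∃ t' : Fin N →₀ ℕ, p ∣ monomial t' 1
      · obtain ⟨t', ht'⟩ := hex
        obtain ⟨m, u, -, -, rfl⟩ := dvd_monomial_one_iff_exists.1 ht'
        right; left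
        exact ⟨m + t, u * c, by rw [ht, monomial_mul]⟩
      · push Not at hex
        right; right
        exact ⟨p, hp.irreducible, dvd_mul_right _ _, hex⟩
    · right; right
      exact ⟨h, h1, dvd_mul_of_dvd_right h2 _, h3⟩

theorem irr_factor {N : ℕ} (P : MvPolynomial (Fin N) ℂ) {n n' : Fin N →₀ ℕ} (hn : n ∈ P.support)
    (hn' : n' ∈ P.support) (hne : n ≠ n') :
    ∃ h, Irreducible h ∧ h ∣ P ∧ ∀ t : Fin N →₀ ℕ, ¬ h ∣ monomial t 1 := by
  rcases irr_factor_aux P with h0 | ⟨t, c, rfl⟩ | h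
  · rw [h0, support_zero] at hn
    exact absurd hn (Finset.notMem_empty _)
  · have h1 := support_monomial_subset hn
    have h2 := support_monomial_subset hn'
    rw [Finset.mem_singleton] at h1 h2
    exact absurd (h1.trans h2.symm) hne
  · exact h

/-- A polynomial which is not a monomial has a zero in the torus in monomial coordinates. -/
theorem exists_torus_zero {N : ℕ} (mm : Fin N → Fin N → ℤ) (hmm : LinearIndependent ℤ mm)
    (h : MvPolynomial (Fin N) ℂ) (hh : ∀ t : Fin N →₀ ℕ, ¬ h ∣ monomial t 1) (T : Fin N → ℤ)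
    (hT : ∀ n ∈ h.support, 0 ≤ T + expo mm n) :
    ∃ ξ : Fin N → ℂ, (∀ i, ξ i ≠ 0) ∧ eval ξ (push mm T h) = 0 := by
  classical
  by_contra hno
  push Not at hno
  have hrad : (∏ i, X i : MvPolynomial (Fin N) ℂ) ∈ (Ideal.span {push mm T h}).radical := by
    rw [← MvPolynomial.vanishingIdeal_zeroLocus_eq_radical (K := ℂ)]
    rw [MvPolynomial.mem_vanishingIdeal_iff]
    intro ξ' hξ'
    rw [MvPolynomial.mem_zeroLocus_iff] at hξ'
    rw [map_prod]
    by_contra hne
    rw [← ne_eq, Finset.prod_ne_zero_iff] at hne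
    apply hno ξ' (fun i => by
      have := hne i (Finset.mem_univ i)
      simpa using this)
    have := hξ' (push mm T h) (Ideal.subset_span rfl)
    simpa using this
  obtain ⟨n, hn⟩ := hrad
  rw [Ideal.mem_span_singleton] at hn
  have h1 : (∏ i, X i : MvPolynomial (Fin N) ℂ) ^ n =
      monomial (Finsupp.equivFunOnFinite.symm fun _ => n) 1 := by
    rw [monomial_eq, map_one, one_mul, Finsupp.prod_fintype _ _ (by simp), ← Finset.prod_pow]
    rfl
  rw [h1] at hn
  obtain ⟨m, u, -, hu, hm⟩ := dvd_monomial_one_iff_exists.1 hn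
  have h0 : h ≠ 0 := by
    rintro rfl
    have h3 : push mm T (0 : MvPolynomial (Fin N) ℂ) = 0 := by simp [push]
    rw [h3] at hm
    exact (monomial_eq_zero.not.2 hu.ne_zero) hm.symm
  -- all exponents of `h` coincide
  have hall : ∀ n' ∈ h.support, toE (T + expo mm n') = m := by
    intro n' hn'
    have h2 := coeff_push mm hmm T h hT hn'
    rw [hm, coeff_monomial] at h2
    by_contra hne
    rw [if_neg (fun h => hne h.symm)] at h2
    exact mem_support_iff.1 hn' h2.symm
  obtain ⟨n₀, hn₀⟩ := support_nonempty.2 h0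
  have hone : h = monomial n₀ (h.coeff n₀) := by
    ext β
    rw [coeff_monomial]
    split_ifs with hβ
    · rw [hβ]
    · by_contra hne
      have hβs : β ∈ h.support := mem_support_iff.2 hne
      have h2 : toE (T + expo mm β) = toE (T + expo mm n₀) := by rw [hall β hβs, hall n₀ hn₀]
      have h3 := add_left_cancel (toE_inj (hT β hβs) (hT n₀ hn₀) h2)
      apply hβ
      have h4 : ∑ k, ((β k : ℤ) - n₀ k) • mm k = 0 := by
        funext j
        have h5 := congrFun h3 j
        simp only [expo] at h5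
        simp only [Finset.sum_apply, Pi.smul_apply, smul_eq_mul, sub_mul, Finset.sum_sub_distrib,
          Pi.zero_apply, h5, sub_self]
      have h5 := Fintype.linearIndependent_iff.1 hmm _ h4
      ext k
      have := h5 k
      omega
  apply hh n₀
  rw [hone, monomial_dvd_monomial]
  exact ⟨Or.inr le_rfl, (isUnit_iff_ne_zero.2 (mem_support_iff.1 hn₀)).dvd⟩

variable {e : ℕ} {K L : Type} [Field K] [Field L] [Algebra ℂ K] [Algebra ℂ L] [Algebra K L]
  [IsScalarTower ℂ K L]
variable {x : Fin (e + 2) → L} {f : MvPolynomial (Fin (e + 2)) ℂ} {G : Subgroup (L ≃ₐ[ℂ] L)}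

/-- A lattice basis adapted to the weight `A`. -/
structure Adapted (H : DiagData K x f G) (A : Fin (e + 2) → ℕ) (r c : ℕ)
    (b : Module.Basis (Fin (e + 2)) ℤ (AddSubgroup.toIntSubmodule H.lat)) : Prop where
  r0 : 0 < r
  c0 : 0 < c
  zero : ∑ j, (A j : ℤ) * vecs b 0 j = r * c
  ne : ∀ k, k ≠ 0 → ∑ j, (A j : ℤ) * vecs b k j = 0

theorem exists_adapted (H : DiagData K x f G) (A : Fin (e + 2) → ℕ) (hA0 : A ≠ 0) (r : ℕ)
    (hr : 0 < r) (hdvd : ∀ m ∈ H.lat, (r : ℤ) ∣ ∑ j, (A j : ℤ) * m j) :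
    ∃ (c : ℕ) (b : Module.Basis (Fin (e + 2)) ℤ (AddSubgroup.toIntSubmodule H.lat)),
      Adapted H A r c b := by
  classical
  haveI : Finite G := H.fin
  have hr0 : (r : ℤ) ≠ 0 := by exact_mod_cast hr.ne'
  let ℓ : AddSubgroup.toIntSubmodule H.lat →ₗ[ℤ] ℤ :=
    { toFun := fun m => (∑ j, (A j : ℤ) * (m : Fin (e + 2) → ℤ) j) / r
      map_add' := fun m m' => by
        rw [← Int.add_ediv_of_dvd_left (hdvd _ m.2)]
        congr 1
        rw [← Finset.sum_add_distrib]
        exact Finset.sum_congr rfl fun j _ => by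
          simp only [Submodule.coe_add, Pi.add_apply]; ring
      map_smul' := fun a m => by
        simp only [RingHom.id_apply, smul_eq_mul]
        rw [← Int.mul_ediv_assoc _ (hdvd _ m.2)]
        congr 1
        rw [Finset.mul_sum]
        exact Finset.sum_congr rfl fun j _ => by
          simp only [Submodule.coe_smul, Pi.smul_apply, smul_eq_mul]; ring }
  have hℓ : ∀ m : AddSubgroup.toIntSubmodule H.lat,
      ∑ j, (A j : ℤ) * (m : Fin (e + 2) → ℤ) j = r * ℓ m := fun m =>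
    (Int.mul_ediv_cancel' (hdvd _ m.2)).symm
  have hmod : ∀ u, (Nat.card G : ℤ) • u ∈ AddSubgroup.toIntSubmodule H.lat := fun u =>
    H.card_mem u
  have hne : ℓ ≠ 0 := by
    obtain ⟨j, hj⟩ : ∃ j, A j ≠ 0 := by
      by_contra hno
      push Not at hno
      exact hA0 (funext hno)
    intro h0
    have h1 := hℓ ⟨(Nat.card G : ℤ) • Pi.single j 1, hmod _⟩
    rw [h0, LinearMap.zero_apply, mul_zero] at h1
    simp only [Pi.smul_apply, smul_eq_mul, Pi.single_apply, mul_ite, mul_one, mul_zero,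
      Finset.sum_ite_eq', Finset.mem_univ, if_true] at h1
    have h2 : (Nat.card G : ℤ) ≠ 0 := by exact_mod_cast Nat.card_pos.ne'
    rcases mul_eq_zero.1 h1 with h3 | h3
    · exact hj (by exact_mod_cast h3)
    · exact h2 h3
  obtain ⟨b, c, hc, hb0, hb⟩ := adapted_basis (AddSubgroup.toIntSubmodule H.lat) (Nat.card G)
    Nat.card_pos hmod ℓ hne
  refine ⟨c, b, hr, hc, ?_, fun k hk => ?_⟩
  · have h1 := hℓ (b 0)
    rw [hb0] at h1
    exact h1
  · have h1 := hℓ (b k)
    rw [hb k hk, mul_zero] at h1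
    exact h1

theorem Adapted.weight {H : DiagData K x f G} {A : Fin (e + 2) → ℕ} {r c : ℕ}
    {b : Module.Basis (Fin (e + 2)) ℤ (AddSubgroup.toIntSubmodule H.lat)}
    (hb : Adapted H A r c b) (n : Fin (e + 2) → ℤ) :
    ∑ j, (A j : ℤ) * ∑ k, n k * vecs b k j = r * c * n 0 := by
  have h1 : ∑ j, (A j : ℤ) * ∑ k, n k * vecs b k j = ∑ k, n k * ∑ j, (A j : ℤ) * vecs b k j := by
    simp only [Finset.mul_sum]
    rw [Finset.sum_comm]
    exact Finset.sum_congr rfl fun k _ => Finset.sum_congr rfl fun j _ => by ring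
  rw [h1, Fin.sum_univ_succ, hb.zero, Finset.sum_eq_zero, add_zero]
  · ring
  · intro k _
    rw [hb.ne _ (Fin.succ_ne_zero k), mul_zero]

theorem Adapted.weight_f {H : DiagData K x f G} {A : Fin (e + 2) → ℕ} {r c : ℕ}
    {b : Module.Basis (Fin (e + 2)) ℤ (AddSubgroup.toIntSubmodule H.lat)}
    (hb : Adapted H A r c b) {α₀ α : Fin (e + 2) →₀ ℕ} (hα₀ : α₀ ∈ f.support)
    (hα : α ∈ f.support) : (wt A α : ℤ) = wt A α₀ + r * c * H.nf b α₀ α 0 := by
  rw [← hb.weight]
  unfold wt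
  push_cast
  rw [← Finset.sum_add_distrib]
  refine Finset.sum_congr rfl fun j _ => ?_
  rw [H.nf_spec b hα₀ hα j]; ring

/-- The exponents of least weight have degree zero in the first coordinate. -/
theorem Adapted.min_iff {H : DiagData K x f G} {A : Fin (e + 2) → ℕ} {r c : ℕ}
    {b : Module.Basis (Fin (e + 2)) ℤ (AddSubgroup.toIntSubmodule H.lat)}
    (hb : Adapted H A r c b) {α₀ : Fin (e + 2) →₀ ℕ} (hα₀ : α₀ ∈ f.support) {m : ℕ}
    (hm : IsMin f A m) {α : Fin (e + 2) →₀ ℕ} (hα : α ∈ f.support) :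
    wt A α = m ↔ toE (shf f H.f0 (H.nf b α₀) + H.nf b α₀ α) 0 = 0 := by
  have h1 := toE_apply (shf_nonneg H.f0 (H.nf b α₀) α hα) 0
  obtain ⟨β, hβ, h2⟩ := shf_attained H.f0 (H.nf b α₀) 0
  obtain ⟨⟨γ, hγ, hγm⟩, hmin⟩ := hm
  have e1 := hb.weight_f hα₀ hα
  have e2 := hb.weight_f hα₀ hβ
  have e3 := hb.weight_f hα₀ hγ
  have hrc : (0 : ℤ) < r * c := by
    have := hb.r0; have := hb.c0; positivity
  rw [Pi.add_apply] at h1
  have h4 := shf_nonneg H.f0 (H.nf b α₀) γ hγ 0
  simp only [Pi.zero_apply, Pi.add_apply] at h4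
  have h5 := hmin β hβ
  have h6 := hmin α hα
  constructor
  · intro h
    have h7 : (r : ℤ) * c * H.nf b α₀ α 0 ≤ r * c * H.nf b α₀ β 0 := by
      have : (wt A α : ℤ) ≤ wt A β := by rw [h]; exact_mod_cast h5
      linarith
    have h8 := le_of_mul_le_mul_left h7 hrc
    have h9 := shf_nonneg H.f0 (H.nf b α₀) α hα 0
    simp only [Pi.zero_apply, Pi.add_apply] at h9
    omega
  · intro h
    rw [h] at h1
    have h7 : H.nf b α₀ α 0 ≤ H.nf b α₀ γ 0 := by push_cast at h1; omega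
    have h8 : (r : ℤ) * c * H.nf b α₀ α 0 ≤ r * c * H.nf b α₀ γ 0 :=
      mul_le_mul_of_nonneg_left h7 hrc.le
    have h9 : (wt A α : ℤ) ≤ wt A γ := by linarith
    rw [hγm] at h9
    have : wt A α ≤ m := by exact_mod_cast h9
    omega

/-- The initial form in the coordinates of the quotient. -/
theorem Adapted.inForm_eq {H : DiagData K x f G} {A : Fin (e + 2) → ℕ} {r c : ℕ}
    {b : Module.Basis (Fin (e + 2)) ℤ (AddSubgroup.toIntSubmodule H.lat)}
    (hb : Adapted H A r c b) {α₀ : Fin (e + 2) →₀ ℕ} (hα₀ : α₀ ∈ f.support) {m : ℕ}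
    (hm : IsMin f A m) {E : Type} [Field E] [Algebra ℂ E] (x' : Fin (e + 2) → E)
    (hx' : ∀ j, x' j ≠ 0) :
    aeval x' (inForm f A) = monoT x' (H.tauY b α₀) *
      aeval (fun k => monoT x' (vecs b k)) (red e (H.eqY b α₀)) := by
  classical
  have hsub : ∀ α ∈ (inForm f A).support, α ∈ f.support ∧ wt A α = m := by
    intro α hα
    rw [mem_support_iff, coeff_inForm hm] at hα
    by_cases h : wt A α = m
    · rw [if_pos h] at hα; exact ⟨mem_support_iff.2 hα, h⟩
    · rw [if_neg h] at hα; exact absurd rfl hα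
  have h1 := exists_pull (vecs b) (inForm f A) (fun j => (α₀ j : ℤ)) (H.nf b α₀)
    (fun α hα j => H.nf_spec b hα₀ (hsub α hα).1 j) _
    (fun α hα => shf_nonneg H.f0 (H.nf b α₀) α (hsub α hα).1) x' hx'
  rw [h1]
  have h2 : (∑ α ∈ (inForm f A).support, monomial (toE (shf f H.f0 (H.nf b α₀) + H.nf b α₀ α))
      ((inForm f A).coeff α)) = red e (H.eqY b α₀) := by
    unfold DiagData.eqY
    rw [map_sum]
    have h3 : (inForm f A).support = f.support.filter (fun α => wt A α = m) := by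
      ext α
      rw [Finset.mem_filter]
      refine ⟨hsub α, fun h => ?_⟩
      rw [mem_support_iff, coeff_inForm hm, if_pos h.2]
      exact mem_support_iff.1 h.1
    rw [h3, Finset.sum_filter]
    refine Finset.sum_congr rfl fun α hα => ?_
    rw [red_monomial]
    have h4 := hb.min_iff hα₀ hm hα
    by_cases h5 : wt A α = m
    · rw [if_pos h5, if_pos (h4.1 h5), coeff_inForm hm, if_pos h5]
    · rw [if_neg h5, if_neg (fun h => h5 (h4.2 h))]
  rw [h2]
  rfl

/-- Non-degeneracy in the coordinates of the quotient. -/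
theorem Adapted.squarefree {H : DiagData K x f G} (hnd : NonDeg f) {A : Fin (e + 2) → ℕ} {r c : ℕ}
    {b : Module.Basis (Fin (e + 2)) ℤ (AddSubgroup.toIntSubmodule H.lat)}
    (hb : Adapted H A r c b) {α₀ : Fin (e + 2) →₀ ℕ} (hα₀ : α₀ ∈ f.support) {m : ℕ}
    (hm : IsMin f A m) {h g₁ : MvPolynomial (Fin (e + 2)) ℂ}
    (hh : ∀ t : Fin (e + 2) →₀ ℕ, ¬ h ∣ monomial t 1)
    (hfac : red e (H.eqY b α₀) = h * (h * g₁)) : False := by
  classical
  obtain ⟨T, -, hT⟩ := exists_shift h.support (fun n => expo (vecs b) n)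
  obtain ⟨T', -, hT'⟩ := exists_shift g₁.support (fun n => expo (vecs b) n)
  obtain ⟨ξ, hξ, hξ0⟩ := exists_torus_zero (vecs b) (vecs_indep b) h hh T hT
  set ht := push (vecs b) T h with hht
  set gt := push (vecs b) T' g₁ with hgt
  set I := inForm f A with hI
  -- the fraction field
  let 𝕂 := FractionRing (MvPolynomial (Fin (e + 2)) ℂ)
  let x' : Fin (e + 2) → 𝕂 := fun j => algebraMap (MvPolynomial (Fin (e + 2)) ℂ) 𝕂 (X j)
  have hx' : ∀ j, x' j ≠ 0 := fun j => by
    simp only [x']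
    rw [Ne, IsFractionRing.to_map_eq_zero_iff]
    exact X_ne_zero j
  have hev : ∀ p : MvPolynomial (Fin (e + 2)) ℂ, aeval x' p = algebraMap _ 𝕂 p := by
    intro p
    have h2 : x' = (algebraMap (MvPolynomial (Fin (e + 2)) ℂ) 𝕂) ∘ X := rfl
    rw [h2, MvPolynomial.aeval_algebraMap_apply (R := ℂ) (A := MvPolynomial (Fin (e + 2)) ℂ) 𝕂 X p,
      aeval_X_left_apply]
  let ρ : Fin (e + 2) → ℤ := H.tauY b α₀ - T - T - T'
  obtain ⟨a, ha0, ha⟩ := exists_shift ({()} : Finset Unit) (fun _ => ρ)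
  have ha' : 0 ≤ a + ρ := ha () (Finset.mem_singleton_self _)
  have hid : monomial (toE a) (1 : ℂ) * I = monomial (toE (a + ρ)) (1 : ℂ) * (ht * (ht * gt)) := by
    apply IsFractionRing.injective (MvPolynomial (Fin (e + 2)) ℂ) 𝕂
    rw [← hev, ← hev, map_mul, map_mul, map_mul, map_mul, hb.inForm_eq hα₀ hm x' hx', hfac,
      hht, hgt, aeval_push x' hx' (vecs b) T h hT, aeval_push x' hx' (vecs b) T' g₁ hT',
      map_mul, map_mul]
    have hmon : ∀ {u : Fin (e + 2) → ℤ}, 0 ≤ u → aeval x' (monomial (toE u) (1 : ℂ)) =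
        monoT x' u := by
      intro u hu
      rw [aeval_monomial, Finsupp.prod_fintype _ _ (by simp), monoT_toE x' hx' hu, map_one,
        one_mul]
    rw [hmon ha0, hmon ha']
    have e1 : monoT x' (a + ρ) * (monoT x' T * (monoT x' T * monoT x' T')) =
        monoT x' a * monoT x' (H.tauY b α₀) := by
      rw [← monoT_add hx', ← monoT_add hx', ← monoT_add hx', ← monoT_add hx']
      congr 1
      simp only [ρ]; abel
    linear_combination (-(aeval (fun k => monoT x' (vecs b k)) h *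
      (aeval (fun k => monoT x' (vecs b k)) h * aeval (fun k => monoT x' (vecs b k)) g₁))) * e1
  have hmonξ : ∀ t : Fin (e + 2) →₀ ℕ, eval ξ (monomial t (1 : ℂ)) ≠ 0 := by
    intro t
    rw [eval_monomial, one_mul, Finsupp.prod]
    exact Finset.prod_ne_zero_iff.2 fun i _ => pow_ne_zero _ (hξ i)
  have hI0 : eval ξ I = 0 := by
    have h1 := congrArg (eval ξ) hid
    rw [map_mul, map_mul, map_mul, hξ0, zero_mul, mul_zero] at h1
    exact (mul_eq_zero.1 h1).resolve_left (hmonξ _)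
  obtain ⟨i, hi⟩ := hnd A ξ hξ hI0
  apply hi
  have h1 := congrArg (fun p => eval ξ (pderiv i p)) hid
  simp only [Derivation.leibniz, smul_eq_mul, map_add, map_mul, hξ0, hI0, zero_mul, mul_zero,
    add_zero, zero_add] at h1
  exact (mul_eq_zero.1 h1).resolve_left (hmonξ _)

/-- The quotient is a hypersurface in a torus with the required properties. -/
theorem Adapted.torusHyp {H : DiagData K x f G} (hnd : NonDeg f) {A : Fin (e + 2) → ℕ} {r c : ℕ}
    {b : Module.Basis (Fin (e + 2)) ℤ (AddSubgroup.toIntSubmodule H.lat)}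
    (hb : Adapted H A r c b) {α₀ : Fin (e + 2) →₀ ℕ} (hα₀ : α₀ ∈ f.support) {m : ℕ}
    (hm : IsMin f A m) {α β : Fin (e + 2) →₀ ℕ} (hα : α ∈ f.support) (hβ : β ∈ f.support)
    (hαm : wt A α = m) (hβm : wt A β = m) (hαβ : α ≠ β) {y : Fin (e + 2) → K}
    (hy : ∀ k, algebraMap K L (y k) = monoT x (vecs b k)) :
    ∃ h g₀ : MvPolynomial (Fin (e + 2)) ℂ, TorusHyp y (H.eqY b α₀) h g₀ := by
  classical
  set F := H.eqY b α₀ with hF
  have hsupp : ∀ γ ∈ f.support, wt A γ = m →
      toE (shf f H.f0 (H.nf b α₀) + H.nf b α₀ γ) ∈ (red e F).support := by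
    intro γ hγ hγm
    rw [mem_support_iff, coeff_red, if_pos ((hb.min_iff hα₀ hm hγ).1 hγm), hF,
      H.coeff_eqY b hα₀ hγ]
    exact mem_support_iff.1 hγ
  have hne : toE (shf f H.f0 (H.nf b α₀) + H.nf b α₀ α) ≠
      toE (shf f H.f0 (H.nf b α₀) + H.nf b α₀ β) := by
    intro h
    apply hαβ
    have h1 := toE_inj (shf_nonneg H.f0 (H.nf b α₀) α hα) (shf_nonneg H.f0 (H.nf b α₀) β hβ) h
    exact H.nf_inj b hα₀ hα hβ (add_left_cancel h1)
  obtain ⟨h, hirr, ⟨g₀, hg₀⟩, hnom⟩ := irr_factor (red e F) (hsupp α hα hαm) (hsupp β hβ hβm) hne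
  have hredF0 : red e F ≠ 0 := by
    intro h0
    have h1 := hsupp α hα hαm
    rw [h0, support_zero] at h1
    exact absurd h1 (Finset.notMem_empty _)
  have hg₀0 : g₀ ≠ 0 := by rintro rfl; rw [mul_zero] at hg₀; exact hredF0 hg₀
  have hdeg : degreeOf 0 (red e F) = degreeOf 0 h + degreeOf 0 g₀ := by
    rw [hg₀, degreeOf_mul_eq hirr.ne_zero hg₀0]
  have hdeg0 : degreeOf 0 (red e F) = 0 := by
    rw [← Nat.le_zero, degreeOf_le_iff]
    intro γ hγ
    rw [mem_support_iff, coeff_red] at hγ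
    by_contra hne
    rw [if_neg (by omega)] at hγ
    exact hγ rfl
  have hredid : ∀ p : MvPolynomial (Fin (e + 2)) ℂ, degreeOf 0 p = 0 → red e p = p := by
    intro p hp
    ext γ
    rw [coeff_red]
    split_ifs with h0
    · rfl
    · by_contra hne
      have h1 := monomial_le_degreeOf 0 (mem_support_iff.2 (Ne.symm hne))
      omega
  refine ⟨h, g₀, ?_, H.gen_y b hy, ?_, H.ker_y b hα₀ hy, hg₀, hredid h (by omega),
    hredid g₀ (by omega), hirr, hnom, ?_⟩
  · intro k h0
    have h1 := hy k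
    rw [h0, map_zero] at h1
    exact monoT_ne_zero H.x0 _ h1.symm
  · apply (algebraMap K L).injective
    rw [map_zero, aeval_map_y hy]
    have h1 := H.f_eq b hα₀ x H.x0
    rw [H.eqn] at h1
    exact (mul_eq_zero.1 h1.symm).resolve_left (monoT_ne_zero H.x0 _)
  · rintro ⟨g₁, rfl⟩
    exact hb.squarefree hnd hα₀ hm hnom hg₀

end Vale.Agent.P283.H647
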